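import Vale.Agent.P338.TM.Stream

/-!
Cheap proofs of the third side condition of `RunsLE.lift`, `Stream.lift`, `Stream.onAuxAt`
(`∀ b, (∀ a, ι a ≠ b) → AUX' b = AUX b`) for vectors written with `![…]`.

Comparing two long vectors that differ in a deep entry by `rfl` is exponentially slow (in the
elaborator and in the kernel).  Instead peel the vectors entry by entry:
`agree_keep` for an entry that does not change, `agree_chg (fun hc => hc k rfl)` for an entry that
changes (it is the tape `ι k`), and `fun _ _ => rfl` as soon as the remaining tails are identical.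

Example (`K = 8`, `ι = ![3, 6, 0, 1]`, the entries `0` and `1` change):
`agree_chg (fun hc => hc 2 rfl) (agree_chg (fun hc => hc 3 rfl) (fun _ _ => rfl))`.
-/

namespace Vale.Agent.P338
open Matrix

theorem agree_keep {α : Type} {K : ℕ} {P : Fin (K + 1) → Prop} {x : α} {v v' : Fin K → α}
    (hs : ∀ c : Fin K, P c.succ → v c = v' c) : ∀ c, P c → vecCons x v c = vecCons x v' c := by
  intro c
  refine Fin.cases (fun _ => rfl) (fun c hc => ?_) c
  exact hs c hc

theorem agree_chg {α : Type} {K : ℕ} {P : Fin (K + 1) → Prop} {x x' : α} {v v' : Fin K → α}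
    (h0 : ¬ P 0) (hs : ∀ c : Fin K, P c.succ → v c = v' c) :
    ∀ c, P c → vecCons x v c = vecCons x' v' c := by
  intro c
  refine Fin.cases (fun h => absurd h h0) (fun c hc => ?_) c
  exact hs c hc

end Vale.Agent.P338
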