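import Vale.Agent.P338.TM.CtrlSteps

/-!
TASK T15.  The control of the recursion in an abstract `World`: a descending loop (two swaps and
possibly a shuffle per level, the parity of the level is pushed on a stack), the bottom of the
recursion, and an ascending loop (possibly an inverse shuffle and one swap per level).
-/

namespace Vale.Agent.P338
namespace Ctrl
open Frag Matrix World

/-! ### The program -/

section defs
variable (W : World)

/-- `h := 2 ^ a`, `e := 2 ^ (a + ρ)` (both are `0` before). -/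
noncomputable def setHE : Frag W.Γ W.K :=
  seq (P W ![19] mvR) (seq (P W ![7, 21, 19, 22] (rep dbl)) (seq (P W ![20] mvR)
    (seq (P W ![7, 21, 20, 22] (rep dbl)) (P W ![8, 21, 20, 22] (rep dbl)))))

/-- Move `E1` back to `D`, zero `h` and `e`. -/
noncomputable def afterPass : Frag W.Γ W.K :=
  seq (P W ![2] eraseT) (seq (P W ![3, 2] copyT) (seq (P W ![3] eraseT)
    (seq (P W ![19] zero) (P W ![20] zero))))

/-- Shuffle `D` with the parameters `h`, `e`. -/
noncomputable def shufCore : Frag W.Γ W.K :=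
  seq (P W ![2, 3, 19, 20, 21, 22, 23] shufPass) (afterPass W)

/-- Inverse shuffle of `D` with the parameters `h`, `e`. -/
noncomputable def unshufCore : Frag W.Γ W.K :=
  seq (P W ![2, 3, 19, 20, 21, 22, 23] unshufPass) (afterPass W)

/-- If `v ≠ 0`: shuffle with `h = 2 ^ a`, `e = 2 ^ (a + ρ)`. -/
noncomputable def optShuf : Frag W.Γ W.K :=
  ite (W.cond fun s => s 18 != Sym.org) (seq (setHE W) (shufCore W)) (nop W)

/-- If `v ≠ 0`: inverse shuffle with `h = 2 ^ a`, `e = 2 ^ (a + ρ)`. -/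
noncomputable def optUnshuf : Frag W.Γ W.K :=
  ite (W.cond fun s => s 18 != Sym.org) (seq (setHE W) (unshufCore W)) (nop W)

/-- `ρ += u + v`. -/
noncomputable def addR : Frag W.Γ W.K :=
  seq (P W ![17, 21, 8] (rep mvR)) (P W ![18, 21, 8] (rep mvR))

/-- End of a descending round: push the parity `v`, `κ := u + v`, `a := ρ := 0`, `u := κ / 2`,
`v := κ % 2`. -/
noncomputable def finishD : Frag W.Γ W.K :=
  seq (P W ![6, 18] pushPar) (seq (P W ![16] zero) (seq (P W ![7] zero) (seq (P W ![8] zero)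
    (seq (P W ![17, 16] moveCnt) (seq (P W ![18, 16] moveCnt)
      (P W ![16, 21, 17, 18] (rep halfStep)))))))

/-- A descending round (`u = κ / 2 ≠ 0`, `v = κ % 2`). -/
noncomputable def downBody (SWAP : Frag W.Γ W.K) : Frag W.Γ W.K :=
  seq (P W ![17, 21, 7] (rep mvR)) (seq (addR W) (seq SWAP (seq (optShuf W)
    (seq (addR W) (seq SWAP (finishD W))))))

/-- End of an ascending round: `κ += a`, `a := ρ := 0`, `v :=` (the stack is not empty). -/
noncomputable def finishU : Frag W.Γ W.K :=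
  seq (P W ![7, 16] moveCnt) (seq (P W ![8] zero) (seq (P W ![18] zero) (P W ![6, 18] probe)))

/-- An ascending round. -/
noncomputable def upBody (SWAP : Frag W.Γ W.K) : Frag W.Γ W.K :=
  seq (P W ![18] zero) (seq (P W ![6, 18] pop) (seq (P W ![16, 21, 7] (rep mvR))
    (seq (P W ![16, 21, 8] (rep mvR)) (seq (P W ![18, 21, 7] (rep mvL))
      (seq (optUnshuf W) (seq SWAP (finishU W)))))))

/-- The bottom of the recursion (`v = κ < 2`). -/
noncomputable def bottom : Frag W.Γ W.K :=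
  seq (ite (W.cond fun s => s 18 != Sym.org)
      (seq (P W ![19] mvR) (seq (P W ![19] mvR) (seq (P W ![20] mvR) (shufCore W)))) (nop W))
    (seq (P W ![18] zero) (P W ![6, 18] probe))

/-- The descending loop. -/
noncomputable def loop1 (SWAP : Frag W.Γ W.K) : Frag W.Γ W.K :=
  loop (W.cond fun s => s 17 != Sym.org) (downBody W SWAP)

/-- The ascending loop. -/
noncomputable def loop2 (SWAP : Frag W.Γ W.K) : Frag W.Γ W.K :=
  loop (W.cond fun s => s 18 != Sym.org) (upBody W SWAP)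

end defs

/-! ### Specifications of the blocks -/

variable {W : World}

section blocks
variable (β : OS) (D E1 S : List Sym) (a ρ κ u v h e : ℕ)

theorem does_setHE : W.Does (setHE W) (st β D E1 S a ρ κ u v 0 0)
    (10 * 2 ^ a + 5 * 2 ^ (a + ρ) + 12 * a + 6 * ρ + 8)
    (st β D E1 S a ρ κ u v (2 ^ a) (2 ^ (a + ρ))) := by
  have h1 := (inc_h (W := W) β D E1 S a ρ κ u v 0 0).seq
    ((pow_a_h β D E1 S a ρ κ u v (0 + 1) 0).seq ((inc_e β D E1 S a ρ κ u v ((0 + 1) * 2 ^ a) 0).seq
      ((pow_a_e β D E1 S a ρ κ u v ((0 + 1) * 2 ^ a) (0 + 1)).seq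
        (pow_ρ_e β D E1 S a ρ κ u v ((0 + 1) * 2 ^ a) ((0 + 1) * 2 ^ a)))))
  simp only [Nat.zero_add, Nat.one_mul, ← pow_add] at h1
  exact h1.mono (by omega)

theorem does_afterPass (hD : IsData D) (hE : IsData E1) :
    W.Does (afterPass W) (st β D E1 S a ρ κ u v h e)
      (4 * D.length + 10 * E1.length + 2 * h + 2 * e + 22) (st β E1 [] S a ρ κ u v 0 0) :=
  ((erase_D β D E1 S a ρ κ u v h e hD).seq ((copy_E1_D β E1 S a ρ κ u v h e hE).seq
    ((erase_E1 β E1 E1 S a ρ κ u v h e hE).seq ((zero_h β E1 [] S a ρ κ u v h e).seq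
      (zero_e β E1 [] S a ρ κ u v 0 e))))).mono (by omega)

theorem he_le (K L : ℕ) (hK : 1 ≤ K) (hh : 0 < h) (he : 0 < e) (hl : L = K * (2 * h * e)) :
    2 * h ≤ L ∧ 2 * e ≤ L := by
  have h1 : 2 * h * e ≤ L := by rw [hl]; exact Nat.le_mul_of_pos_left _ hK
  have h2 : 2 * h ≤ 2 * h * e := Nat.le_mul_of_pos_right _ he
  have h3 : 2 * e ≤ 2 * h * e := by
    calc 2 * e = 2 * 1 * e := by ring
      _ ≤ 2 * h * e := Nat.mul_le_mul_right _ (Nat.mul_le_mul_left _ hh)
  omega

theorem does_shufCore (K : ℕ) (hK : 1 ≤ K) (hh : 0 < h) (he : 0 < e)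
    (hl : D.length = K * (2 * h * e)) (hD : IsData D) :
    W.Does (shufCore W) (st β D [] S a ρ κ u v h e) (43 * D.length + 30)
      (st β (shufL h e D) [] S a ρ κ u v 0 0) := by
  have h1 := (shuf_D_E1 (W := W) β D S a ρ κ u v h e K hh he hl hD).seq
    (does_afterPass β D (shufL h e D) S a ρ κ u v h e hD (isData_reindex _ _ _ hD))
  rw [length_shufL h e K D hl, ← hl] at h1
  have := he_le h e K D.length hK hh he hl
  exact h1.mono (by omega)

theorem does_unshufCore (K : ℕ) (hK : 1 ≤ K) (hh : 0 < h) (he : 0 < e)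
    (hl : D.length = K * (2 * h * e)) (hD : IsData D) :
    W.Does (unshufCore W) (st β D [] S a ρ κ u v h e) (43 * D.length + 30)
      (st β (unshufL h e D) [] S a ρ κ u v 0 0) := by
  have h1 := (unshuf_D_E1 (W := W) β D S a ρ κ u v h e K hh he hl hD).seq
    (does_afterPass β D (unshufL h e D) S a ρ κ u v h e hD (isData_reindex _ _ _ hD))
  rw [length_unshufL h e K D hl, ← hl] at h1
  have := he_le h e K D.length hK hh he hl
  exact h1.mono (by omega)

theorem opt_bound (K L : ℕ) (hK : 1 ≤ K) (hl : L = K * (2 * 2 ^ a * 2 ^ (a + ρ))) :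
    10 * 2 ^ a + 5 * 2 ^ (a + ρ) + 12 * a + 6 * ρ + 8 + (43 * L + 30) + 1 ≤ 80 * L := by
  have h1 := he_le (2 ^ a) (2 ^ (a + ρ)) K L hK (by positivity) (by positivity) hl
  have h2 : a < 2 ^ a := Nat.lt_two_pow_self
  have h3 : a + ρ < 2 ^ (a + ρ) := Nat.lt_two_pow_self
  omega

theorem does_optShuf_pos (hv : v ≠ 0) (K : ℕ) (hK : 1 ≤ K)
    (hl : D.length = K * (2 * 2 ^ a * 2 ^ (a + ρ))) (hD : IsData D) :
    W.Does (optShuf W) (st β D [] S a ρ κ u v 0 0) (80 * D.length)
      (st β (shufL (2 ^ a) (2 ^ (a + ρ)) D) [] S a ρ κ u v 0 0) :=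
  (Does.ite_true (c := fun s => s 18 != Sym.org) (σ := st β D [] S a ρ κ u v 0 0)
    (cnt_test_ne v hv)
    ((does_setHE β D [] S a ρ κ u v).seq
      (does_shufCore β D S a ρ κ u v _ _ K hK (by positivity) (by positivity) hl hD))).mono
    (opt_bound a ρ K _ hK hl)

theorem does_optUnshuf_pos (hv : v ≠ 0) (K : ℕ) (hK : 1 ≤ K)
    (hl : D.length = K * (2 * 2 ^ a * 2 ^ (a + ρ))) (hD : IsData D) :
    W.Does (optUnshuf W) (st β D [] S a ρ κ u v 0 0) (80 * D.length)
      (st β (unshufL (2 ^ a) (2 ^ (a + ρ)) D) [] S a ρ κ u v 0 0) :=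
  (Does.ite_true (c := fun s => s 18 != Sym.org) (σ := st β D [] S a ρ κ u v 0 0)
    (cnt_test_ne v hv)
    ((does_setHE β D [] S a ρ κ u v).seq
      (does_unshufCore β D S a ρ κ u v _ _ K hK (by positivity) (by positivity) hl hD))).mono
    (opt_bound a ρ K _ hK hl)

theorem does_optShuf_zero : W.Does (optShuf W) (st β D E1 S a ρ κ u 0 h e) 2
    (st β D E1 S a ρ κ u 0 h e) :=
  Does.ite_false (c := fun s => s 18 != Sym.org) cnt_test_zero (does_nop _)

theorem does_optUnshuf_zero : W.Does (optUnshuf W) (st β D E1 S a ρ κ u 0 h e) 2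
    (st β D E1 S a ρ κ u 0 h e) :=
  Does.ite_false (c := fun s => s 18 != Sym.org) cnt_test_zero (does_nop _)

theorem does_addR : W.Does (addR W) (st β D E1 S a ρ κ u v h e) (u * 5 + 2 + (v * 5 + 2))
    (st β D E1 S a (ρ + u + v) κ u v h e) :=
  (add_u_ρ β D E1 S a ρ κ u v h e).seq (add_v_ρ β D E1 S a (ρ + u) κ u v h e)

theorem does_finishD (hS : IsData S) : W.Does (finishD W) (st β D E1 S a ρ κ u v h e)
    (4 * S.length + 2 * κ + 2 * a + 2 * ρ + 7 * u + 7 * v + 17)
    (st β D E1 (S ++ [parSym v]) 0 0 (u + v) ((u + v) / 2) ((u + v) % 2) h e) := by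
  have h1 := (push_v (W := W) β D E1 S a ρ κ u v h e hS).seq
    ((zero_κ β D E1 (S ++ [parSym v]) a ρ κ u v h e).seq
      ((zero_a β D E1 (S ++ [parSym v]) a ρ 0 u v h e).seq
        ((zero_ρ β D E1 (S ++ [parSym v]) 0 ρ 0 u v h e).seq
          ((move_u_κ β D E1 (S ++ [parSym v]) 0 0 0 u v h e).seq
            ((move_v_κ β D E1 (S ++ [parSym v]) 0 0 (0 + u) 0 v h e).seq
              (halve_κ β D E1 (S ++ [parSym v]) 0 0 (0 + u + v) h e))))))
  simp only [Nat.zero_add] at h1
  exact h1.mono (by omega)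

theorem does_finishU (hS : IsData S) : W.Does (finishU W) (st β D E1 S a ρ κ u v h e)
    (2 * a + 2 * ρ + 2 * v + 5) (st β D E1 S 0 0 (κ + a) u (ne01 S) h e) :=
  ((move_a_κ β D E1 S a ρ κ u v h e).seq ((zero_ρ β D E1 S 0 ρ (κ + a) u v h e).seq
    ((zero_v β D E1 S 0 0 (κ + a) u v h e).seq (probe_v β D E1 S 0 0 (κ + a) u h e hS)))).mono
    (by omega)

end blocks

/-! ### One level -/

section levels
variable {SWAP : Frag W.Γ W.K} {TA : ℕ → ℕ} {Cs : ℕ}

theorem does_swap (hSW : SwapSpec W SWAP TA Cs) {β : OS} (hβ : β.Clean) (S : List Sym)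
    (a ρ κ u v : ℕ) (l : List Bool) (K : ℕ) (hl : l.length = K * (2 ^ a * 2 ^ a * 2 ^ ρ))
    (hK : 1 ≤ K) (ha : 1 ≤ a) (haρ : a ≤ ρ) :
    W.Does SWAP (st β (l.map bit) [] S a ρ κ u v 0 0)
      (Cs * (min (TA (144 * l.length)) (a * (144 * l.length)) + 144 * l.length))
      (st β ((swapL (2 ^ a) (2 ^ ρ) l).map bit) [] S a ρ κ u v 0 0) :=
  hSW (st β (l.map bit) [] S a ρ κ u v 0 0) l K rfl hl hK ha haρ (clean_st hβ _ _ _ _ _ _ _)

theorem swap_cost_le (t N κ : ℕ) :
    Cs * (min t (κ / 2 * N) + N) ≤ Cs * (min t (κ * N) + N) :=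
  Nat.mul_le_mul_left _ (Nat.add_le_add_right
    (min_le_min_left _ (Nat.mul_le_mul_right _ (Nat.div_le_self _ _))) _)

theorem does_downBody (hSW : SwapSpec W SWAP TA Cs) {β : OS} (hβ : β.Clean) (κ : ℕ) (hκ : 2 ≤ κ)
    (l : List Bool) (K : ℕ) (hl : l.length = K * 4 ^ κ) (hK : 1 ≤ K) (S : List Sym) (hS : IsData S)
    (hSl : S.length + κ ≤ l.length) :
    W.Does (downBody W SWAP) (st β (l.map bit) [] S 0 0 κ (κ / 2) (κ % 2) 0 0)
      (2 * (Cs * (min (TA (144 * l.length)) (κ * (144 * l.length)) + 144 * l.length))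
        + 160 * l.length)
      (st β ((midL κ (downL κ l)).map bit) [] (S ++ [parSym (κ % 2)]) 0 0 (κ - κ / 2)
        ((κ - κ / 2) / 2) ((κ - κ / 2) % 2) 0 0) := by
  have e1 : 0 + κ / 2 = κ / 2 := by omega
  have e3 : κ - κ / 2 + κ / 2 + κ % 2 = 2 * (κ - κ / 2) := by omega
  have e4 : κ / 2 + κ % 2 = κ - κ / 2 := by omega
  have hK' : 1 ≤ K * 2 ^ (κ - κ / 2) := Nat.mul_pos hK (by positivity)
  have s1 := add_u_a (W := W) β (l.map bit) [] S 0 0 κ (κ / 2) (κ % 2) 0 0
  have s2 := does_addR (W := W) β (l.map bit) [] S (0 + κ / 2) 0 κ (κ / 2) (κ % 2) 0 0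
  rw [e1] at s1 s2
  rw [e4] at s2
  have s3 := does_swap hSW hβ S (κ / 2) (κ - κ / 2) κ (κ / 2) (κ % 2) l _ (len_swap1 κ K l hl) hK'
    (by omega) (by omega)
  have hl1 := length_swap1 κ K l hl
  have s4 : W.Does (optShuf W)
      (st β ((swapL (2 ^ (κ / 2)) (2 ^ (κ - κ / 2)) l).map bit) [] S (κ / 2) (κ - κ / 2) κ (κ / 2)
        (κ % 2) 0 0) (80 * l.length)
      (st β ((downL κ l).map bit) [] S (κ / 2) (κ - κ / 2) κ (κ / 2) (κ % 2) 0 0) := by
    rcases Nat.mod_two_eq_zero_or_one κ with hp | hp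
    · have hd : downL κ l = swapL (2 ^ (κ / 2)) (2 ^ (κ - κ / 2)) l := by
        simp only [downL]
        rw [if_pos (by omega)]
      rw [hd, hp]
      exact (does_optShuf_zero β _ _ S _ _ κ _ 0 0).mono (by omega)
    · have hd : downL κ l = shufL (2 ^ (κ / 2)) (2 ^ (κ / 2 + (κ - κ / 2)))
          (swapL (2 ^ (κ / 2)) (2 ^ (κ - κ / 2)) l) := by
        simp only [downL]
        rw [if_neg (by omega)]
      have h4 := does_optShuf_pos (W := W) β ((swapL (2 ^ (κ / 2)) (2 ^ (κ - κ / 2)) l).map bit) S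
        (κ / 2) (κ - κ / 2) κ (κ / 2) (κ % 2) (by omega) (K * 2 ^ (κ / 2))
        (Nat.mul_pos hK (by positivity))
        (by rw [List.length_map, hl1]; exact len_shuf κ K l hl hp) (isData_map_bit _)
      rw [List.length_map, hl1, ← map_shufL] at h4
      rw [hd]
      exact h4
  have hl2 := length_downL κ K l hl
  have s5 := does_addR (W := W) β ((downL κ l).map bit) [] S (κ / 2) (κ - κ / 2) κ (κ / 2) (κ % 2)
    0 0
  rw [e3] at s5
  have s6 := does_swap hSW hβ S (κ / 2) (2 * (κ - κ / 2)) κ (κ / 2) (κ % 2) (downL κ l) K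
    (len_swap2 κ K _ (by rw [hl2]; exact hl)) hK (by omega) (by omega)
  rw [hl2] at s6
  have s7 := does_finishD (W := W) β ((midL κ (downL κ l)).map bit) [] S (κ / 2) (2 * (κ - κ / 2)) κ
    (κ / 2) (κ % 2) 0 0 hS
  rw [e4] at s7
  refine (s1.seq (s2.seq (s3.seq (s4.seq (s5.seq (s6.seq s7)))))).mono ?_
  have hm := swap_cost_le (Cs := Cs) (TA (144 * l.length)) (144 * l.length) κ
  generalize Cs * (min (TA (144 * l.length)) (κ / 2 * (144 * l.length)) + 144 * l.length) = A at hm ⊢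
  generalize Cs * (min (TA (144 * l.length)) (κ * (144 * l.length)) + 144 * l.length) = B at hm ⊢
  omega

theorem does_upBody (hSW : SwapSpec W SWAP TA Cs) {β : OS} (hβ : β.Clean) (κ : ℕ) (hκ : 2 ≤ κ)
    (y : List Bool) (K : ℕ) (hl : y.length = K * 4 ^ κ) (hK : 1 ≤ K) (S : List Sym) (hS : IsData S)
    (hSl : S.length + κ ≤ y.length) :
    W.Does (upBody W SWAP) (st β (y.map bit) [] (S ++ [parSym (κ % 2)]) 0 0 (κ - κ / 2) 0 1 0 0)
      (Cs * (min (TA (144 * y.length)) (κ * (144 * y.length)) + 144 * y.length) + 140 * y.length)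
      (st β ((upL κ y).map bit) [] S 0 0 κ 0 (ne01 S) 0 0) := by
  have e1 : 0 + (κ - κ / 2) = κ - κ / 2 := by omega
  have e2 : κ - κ / 2 - κ % 2 = κ / 2 := by omega
  have e3 : κ - κ / 2 + κ / 2 = κ := by omega
  have hK' : 1 ≤ K * 2 ^ (κ - κ / 2) := Nat.mul_pos hK (by positivity)
  have t1 := zero_v (W := W) β (y.map bit) [] (S ++ [parSym (κ % 2)]) 0 0 (κ - κ / 2) 0 1 0 0
  have t2 := pop_v (W := W) β (y.map bit) [] S 0 0 (κ - κ / 2) 0 0 0 hS (κ % 2) (by omega)
  have t3 := add_κ_a (W := W) β (y.map bit) [] S 0 0 (κ - κ / 2) 0 (κ % 2) 0 0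
  have t4 := add_κ_ρ (W := W) β (y.map bit) [] S (0 + (κ - κ / 2)) 0 (κ - κ / 2) 0 (κ % 2) 0 0
  rw [e1] at t3 t4
  have t5 := sub_v_a (W := W) β (y.map bit) [] S (κ - κ / 2) (κ - κ / 2) (κ - κ / 2) 0 (κ % 2) 0 0
  rw [e2] at t5
  obtain ⟨y1, hy1, hup, t6⟩ : ∃ y1 : List Bool, y1.length = y.length ∧
      upL κ y = swapL (2 ^ (κ / 2)) (2 ^ (κ - κ / 2)) y1 ∧
      W.Does (optUnshuf W) (st β (y.map bit) [] S (κ / 2) (κ - κ / 2) (κ - κ / 2) 0 (κ % 2) 0 0)
        (80 * y.length) (st β (y1.map bit) [] S (κ / 2) (κ - κ / 2) (κ - κ / 2) 0 (κ % 2) 0 0) := by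
    rcases Nat.mod_two_eq_zero_or_one κ with hp | hp
    · refine ⟨y, rfl, ?_, ?_⟩
      · simp only [upL]
        rw [if_pos (by omega)]
      · rw [hp]
        exact (does_optUnshuf_zero β _ _ S _ _ _ _ 0 0).mono (by omega)
    · refine ⟨unshufL (2 ^ (κ / 2)) (2 ^ (κ / 2 + (κ - κ / 2))) y, length_unshuf κ K y hl hp, ?_, ?_⟩
      · simp only [upL]
        rw [if_neg (by omega)]
      · have h4 := does_optUnshuf_pos (W := W) β (y.map bit) S (κ / 2) (κ - κ / 2) (κ - κ / 2) 0
          (κ % 2) (by omega) (K * 2 ^ (κ / 2)) (Nat.mul_pos hK (by positivity))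
          (by rw [List.length_map]; exact len_shuf κ K y hl hp) (isData_map_bit _)
        rw [List.length_map, ← map_unshufL] at h4
        exact h4
  have t7 := does_swap hSW hβ S (κ / 2) (κ - κ / 2) (κ - κ / 2) 0 (κ % 2) y1 _
    (len_swap1 κ K y1 (by rw [hy1]; exact hl)) hK' (by omega) (by omega)
  rw [← hup, hy1] at t7
  have t8 := does_finishU (W := W) β ((upL κ y).map bit) [] S (κ / 2) (κ - κ / 2) (κ - κ / 2) 0
    (κ % 2) 0 0 hS
  rw [e3] at t8
  refine (t1.seq (t2.seq (t3.seq (t4.seq (t5.seq (t6.seq (t7.seq t8))))))).mono ?_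
  have hm := swap_cost_le (Cs := Cs) (TA (144 * y.length)) (144 * y.length) κ
  generalize Cs * (min (TA (144 * y.length)) (κ / 2 * (144 * y.length)) + 144 * y.length) = A at hm ⊢
  generalize Cs * (min (TA (144 * y.length)) (κ * (144 * y.length)) + 144 * y.length) = B at hm ⊢
  omega

theorem does_bottom (β : OS) (b : ℕ) (hb : b < 2) (x : List Bool) (K : ℕ)
    (hl : x.length = K * 4 ^ b) (hK : 1 ≤ K) (S : List Sym) (hS : IsData S) :
    W.Does (bottom W) (st β (x.map bit) [] S 0 0 b 0 b 0 0) (90 * x.length)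
      (st β ((btm b x).map bit) [] S 0 0 b 0 (ne01 S) 0 0) := by
  have hpos : 1 ≤ x.length := by rw [hl]; exact Nat.mul_pos hK (by positivity)
  have hb' : b = 0 ∨ b = 1 := by omega
  rcases hb' with rfl | rfl
  · have b1 : W.Does (ite (W.cond fun s => s 18 != Sym.org)
        (seq (P W ![19] mvR) (seq (P W ![19] mvR) (seq (P W ![20] mvR) (shufCore W)))) (nop W))
        (st β (x.map bit) [] S 0 0 0 0 0 0 0) 2 (st β (x.map bit) [] S 0 0 0 0 0 0 0) :=
      Does.ite_false (c := fun s => s 18 != Sym.org) cnt_test_zero (does_nop _)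
    exact (b1.seq ((zero_v β (x.map bit) [] S 0 0 0 0 0 0 0).seq
      (probe_v β (x.map bit) [] S 0 0 0 0 0 0 hS))).mono (by omega)
  · have hl' : (x.map bit).length = K * (2 * 2 * 1) := by rw [List.length_map, hl]; norm_num
    have c1 := (inc_h (W := W) β (x.map bit) [] S 0 0 1 0 1 0 0).seq
      ((inc_h β (x.map bit) [] S 0 0 1 0 1 (0 + 1) 0).seq
        ((inc_e β (x.map bit) [] S 0 0 1 0 1 (0 + 1 + 1) 0).seq
          (does_shufCore β (x.map bit) S 0 0 1 0 1 (0 + 1 + 1) (0 + 1) K hK (by norm_num)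
            (by norm_num) hl' (isData_map_bit _))))
    have b1 := Does.ite_true (c := fun s => s 18 != Sym.org) (G := nop W)
      (σ := st β (x.map bit) [] S 0 0 1 0 1 0 0) (cnt_test_ne 1 (by norm_num)) c1
    rw [List.length_map] at b1
    have hbt : (btm 1 x).map bit = shufL (0 + 1 + 1) (0 + 1) (x.map bit) := by
      rw [← map_shufL]; rfl
    rw [hbt]
    exact (b1.seq ((zero_v β _ [] S 0 0 1 0 1 0 0).seq
      (probe_v β _ [] S 0 0 1 0 0 0 hS))).mono (by omega)

/-! ### The loops -/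

theorem isData_snoc {S : List Sym} (hS : IsData S) (p : ℕ) : IsData (S ++ [parSym p]) := by
  refine hS.append ?_
  intro x hx
  rw [List.mem_singleton] at hx
  subst hx
  exact ⟨parSym_ne_blank p, parSym_ne_org p⟩

theorem ne01_snoc (S : List Sym) (x : Sym) : ne01 (S ++ [x]) = 1 := by
  unfold ne01
  rw [if_neg (by simp)]

theorem does_loop1 (hSW : SwapSpec W SWAP TA Cs) {β : OS} (hβ : β.Clean) :
    ∀ (κ : ℕ) (l : List Bool) (K : ℕ) (S : List Sym), l.length = K * 4 ^ κ → 1 ≤ K → IsData S →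
      S.length + κ ≤ l.length →
      W.Does (loop1 W SWAP) (st β (l.map bit) [] S 0 0 κ (κ / 2) (κ % 2) 0 0)
        (Wrec (2 * Cs + 2) (144 * l.length) (TA (144 * l.length)) κ)
        (st β ((dnL κ l).map bit) [] (S ++ parL κ) 0 0 (bot κ) 0 (bot κ) 0 0) := by
  intro κ
  induction κ using Nat.strong_induction_on with
  | _ κ ih =>
    intro l K S hl hK hS hSl
    have hpos : 1 ≤ l.length := by rw [hl]; exact Nat.mul_pos hK (by positivity)
    rw [dnL, parL, bot, Wrec]
    by_cases hκ : κ < 2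
    · simp only [dif_pos hκ, List.append_nil]
      have e1 : κ / 2 = 0 := by omega
      have e2 : κ % 2 = κ := by omega
      rw [e1, e2]
      refine (Does.loop_false (c := fun s => s 17 != Sym.org)
        (σ := st β (l.map bit) [] S 0 0 κ 0 κ 0 0) cnt_test_zero).mono ?_
      calc 1 ≤ 2 * 144 := by norm_num
        _ ≤ (2 * Cs + 2) * (144 * l.length) := Nat.mul_le_mul (by omega) (by omega)
    · simp only [dif_neg hκ]
      have h0 := length_downL κ K l hl
      have h1 := length_midL κ K (downL κ l) (by rw [h0]; exact hl)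
      rw [h0] at h1
      have body := does_downBody hSW hβ κ (by omega) l K hl hK S hS hSl
      have rest := ih (κ - κ / 2) (by omega) (midL κ (downL κ l)) (K * 4 ^ (κ / 2))
        (S ++ [parSym (κ % 2)]) (by rw [h1, hl, four_pow_next κ]; ring)
        (Nat.mul_pos hK (by positivity)) (isData_snoc hS _)
        (by rw [h1, List.length_append, List.length_singleton]; omega)
      rw [h1, List.append_assoc, List.singleton_append] at rest
      refine (Does.loop_true (c := fun s => s 17 != Sym.org)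
        (σ := st β (l.map bit) [] S 0 0 κ (κ / 2) (κ % 2) 0 0) (cnt_test_ne (κ / 2) (by omega))
        body rest).mono ?_
      have e : (2 * Cs + 2) * (min (TA (144 * l.length)) (κ * (144 * l.length)) + 144 * l.length)
          = 2 * (Cs * (min (TA (144 * l.length)) (κ * (144 * l.length)) + 144 * l.length))
            + 2 * (min (TA (144 * l.length)) (κ * (144 * l.length)) + 144 * l.length) := by ring
      rw [e]
      generalize Cs * (min (TA (144 * l.length)) (κ * (144 * l.length)) + 144 * l.length) = A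
      generalize min (TA (144 * l.length)) (κ * (144 * l.length)) = B
      omega

theorem does_loop2 (hSW : SwapSpec W SWAP TA Cs) {β : OS} (hβ : β.Clean) :
    ∀ (κ : ℕ) (x : List Bool) (K : ℕ) (S : List Sym), x.length = K * 4 ^ κ → 1 ≤ K → IsData S →
      S.length + κ ≤ x.length → ∀ (b : ℕ) (σf : OS),
      W.Does (loop2 W SWAP) (st β ((upA κ x).map bit) [] S 0 0 κ 0 (ne01 S) 0 0) b σf →
      W.Does (loop2 W SWAP)
        (st β (x.map bit) [] (S ++ parL κ) 0 0 (bot κ) 0 (ne01 (S ++ parL κ)) 0 0)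
        (b + Wrec (Cs + 2) (144 * x.length) (TA (144 * x.length)) κ) σf := by
  intro κ
  induction κ using Nat.strong_induction_on with
  | _ κ ih =>
    intro x K S hl hK hS hSl b σf hyp
    have hpos : 1 ≤ x.length := by rw [hl]; exact Nat.mul_pos hK (by positivity)
    rw [upA] at hyp
    rw [parL, bot, Wrec]
    by_cases hκ : κ < 2
    · simp only [dif_pos hκ, List.append_nil] at hyp ⊢
      exact hyp.mono (Nat.le_add_right _ _)
    · simp only [dif_neg hκ] at hyp ⊢
      have hlx : x.length = K * 4 ^ (κ / 2) * 4 ^ (κ - κ / 2) := by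
        rw [hl, four_pow_next κ]; ring
      have hy := length_upA (κ - κ / 2) (K * 4 ^ (κ / 2)) x hlx
      have body := does_upBody hSW hβ κ (by omega) (upA (κ - κ / 2) x) K (by rw [hy]; exact hl) hK S
        hS (by rw [hy]; exact hSl)
      rw [hy] at body
      have step : W.Does (loop2 W SWAP)
          (st β ((upA (κ - κ / 2) x).map bit) [] (S ++ [parSym (κ % 2)]) 0 0 (κ - κ / 2) 0
            (ne01 (S ++ [parSym (κ % 2)])) 0 0)
          (Cs * (min (TA (144 * x.length)) (κ * (144 * x.length)) + 144 * x.length)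
            + 140 * x.length + b + 1) σf := by
        rw [ne01_snoc]
        exact Does.loop_true (c := fun s => s 18 != Sym.org)
          (σ := st β ((upA (κ - κ / 2) x).map bit) [] (S ++ [parSym (κ % 2)]) 0 0 (κ - κ / 2) 0 1
            0 0) (cnt_test_ne 1 (by norm_num)) body hyp
      have rest := ih (κ - κ / 2) (by omega) x (K * 4 ^ (κ / 2)) (S ++ [parSym (κ % 2)]) hlx
        (Nat.mul_pos hK (by positivity)) (isData_snoc hS _)
        (by rw [List.length_append, List.length_singleton]; omega) _ σf step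
      rw [List.append_assoc, List.singleton_append] at rest
      refine rest.mono ?_
      have e : (Cs + 2) * (min (TA (144 * x.length)) (κ * (144 * x.length)) + 144 * x.length)
          = Cs * (min (TA (144 * x.length)) (κ * (144 * x.length)) + 144 * x.length)
            + 2 * (min (TA (144 * x.length)) (κ * (144 * x.length)) + 144 * x.length) := by ring
      rw [e]
      generalize Cs * (min (TA (144 * x.length)) (κ * (144 * x.length)) + 144 * x.length) = A
      generalize min (TA (144 * x.length)) (κ * (144 * x.length)) = B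
      omega

end levels

theorem bot_le (κ : ℕ) : bot κ ≤ κ := by
  induction κ using Nat.strong_induction_on with
  | _ κ ih =>
    rw [bot]
    split_ifs with h
    · exact le_rfl
    · exact (ih _ (by omega)).trans (Nat.sub_le _ _)

theorem length_btm {α : Type} (b K : ℕ) (hb : b < 2) (x : List α) (hl : x.length = K * 4 ^ b) :
    (btm b x).length = x.length := by
  unfold btm
  split_ifs with h
  · rfl
  · have hb1 : b = 1 := by omega
    subst hb1
    have hl' : x.length = K * (2 * 2 * 1) := by rw [hl]; norm_num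
    rw [length_shufL 2 1 K x hl', hl']

end Ctrl

open Frag Matrix World Ctrl

/-- The control of the recursion. -/
noncomputable def ctrlFrag (W : World) (SWAP : Frag W.Γ W.K) : Frag W.Γ W.K :=
  seq (P W ![16, 21, 17, 18] (rep halfStep)) (seq (loop1 W SWAP) (seq (bottom W) (loop2 W SWAP)))

theorem ctrlSpec_of_swapSpec {W : World} {SWAP : Frag W.Γ W.K} {TA : ℕ → ℕ} {Cs : ℕ}
    (hSW : SwapSpec W SWAP TA Cs) : ∃ Cc, CtrlSpec W (ctrlFrag W SWAP) TA Cc := by
  refine ⟨3 * Cs + 6, ?_⟩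
  intro σ l K hD hl hK hclean ha hρ hu hv hstk
  have hpos : 1 ≤ l.length := by rw [hl]; exact Nat.mul_pos hK (by positivity)
  have hκl : σ.κ ≤ l.length := by
    rw [hl]
    exact (le_four_pow σ.κ).trans (Nat.le_mul_of_pos_left _ hK)
  have hnil : IsData ([] : List Sym) := by intro x hx; simp at hx
  -- the length in terms of the bottom level
  have hlb : l.length = K * 4 ^ (σ.κ - bot σ.κ) * 4 ^ bot σ.κ := by
    rw [hl, Nat.mul_assoc, ← pow_add, Nat.sub_add_cancel (bot_le σ.κ)]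
  have hKb : 1 ≤ K * 4 ^ (σ.κ - bot σ.κ) := Nat.mul_pos hK (by positivity)
  have hdn := length_dnL σ.κ K l hl
  have hbt := length_btm (bot σ.κ) _ (bot_lt σ.κ) (dnL σ.κ l) (by rw [hdn]; exact hlb)
  rw [hdn] at hbt
  have c0 := halve_κ (W := W) σ (l.map bit) [] [] 0 0 σ.κ 0 0
  have c1 := does_loop1 hSW hclean σ.κ l K [] hl hK hnil (by simpa using hκl)
  have c2 := does_bottom (W := W) σ (bot σ.κ) (bot_lt σ.κ) (dnL σ.κ l) _ (by rw [hdn]; exact hlb) hKb
    ([] ++ parL σ.κ) (hnil.append (isData_parL σ.κ))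
  have c3 := does_loop2 hSW hclean σ.κ (btm (bot σ.κ) (dnL σ.κ l)) K [] (by rw [hbt]; exact hl) hK
    hnil (by rw [hbt]; simpa using hκl) 1 _
    (Does.loop_false (c := fun s => s 18 != Sym.org)
      (σ := st σ ((upA σ.κ (btm (bot σ.κ) (dnL σ.κ l))).map bit) [] [] 0 0 σ.κ 0 (ne01 []) 0 0)
      cnt_test_zero)
  rw [hdn] at c2
  rw [hbt, ← algL_eq_loops] at c3
  have key := c0.seq (c1.seq (c2.seq c3))
  have h1 : st σ (l.map bit) [] [] 0 0 σ.κ 0 0 0 0 = σ := by
    obtain ⟨hE1, -, -, -, -, -, -, -, -, -, hh, he⟩ := hclean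
    cases σ
    simp only at hD ha hρ hu hv hstk hE1 hh he
    subst hD ha hρ hu hv hstk hE1 hh he
    rfl
  have h2 : st σ ((algL σ.κ l).map bit) [] [] 0 0 σ.κ 0 (ne01 []) 0 0
      = { σ with D := (algL σ.κ l).map bit } := by
    obtain ⟨hE1, -, -, -, -, -, -, -, -, -, hh, he⟩ := hclean
    cases σ
    simp only at hD ha hρ hu hv hstk hE1 hh he
    subst ha hρ hu hv hstk hE1 hh he
    rfl
  rw [h1, h2] at key
  refine key.mono ?_
  have w1 := Wrec_add (2 * Cs + 2) (Cs + 2) (144 * l.length) (TA (144 * l.length)) σ.κ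
  have w2 := Wrec_add (2 * Cs + 2 + (Cs + 2)) 2 (144 * l.length) (TA (144 * l.length)) σ.κ
  have w3 := le_Wrec 2 (144 * l.length) (TA (144 * l.length)) σ.κ
  have e : 2 * Cs + 2 + (Cs + 2) + 2 = 3 * Cs + 6 := by ring
  rw [e] at w2
  omega

end Vale.Agent.P338
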