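import Vale.Agent.P338.TM.MathAsym

/-!
TASK F2.  The asymptotic deduction: a lower bound for transposition gives a lower bound for the
multiplier.  `TA`, `TB` are the worst-case running times.
-/

namespace Vale.Agent.P338

/-- If `TB (2 ^ κ)` is bounded by the cost recursion and `TB n ≥ c n² log n`, then
`TA N ≥ c' N log N` for `N = 144 * 4 ^ κ`, `κ` large. -/
theorem lower_of_reduction (TA TB : ℕ → ℕ) (Ct : ℕ)
    (hred : ∀ κ : ℕ, TB (2 ^ κ) ≤ Wrec Ct (144 * 4 ^ κ) (TA (144 * 4 ^ κ)) κ + Ct * 4 ^ κ)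
    (c : ℝ) (hc : 0 < c) (n₀ : ℕ)
    (hlow : ∀ n : ℕ, n₀ ≤ n → c * (n : ℝ) ^ 2 * Real.log n ≤ TB n) :
    ∃ c' : ℝ, 0 < c' ∧ ∃ κ₀ : ℕ, ∀ κ : ℕ, κ₀ ≤ κ →
      c' * ((144 * 4 ^ κ : ℕ) : ℝ) * Real.log ((144 * 4 ^ κ : ℕ) : ℝ) ≤ TA (144 * 4 ^ κ) := by
  have hl2 : 0 < Real.log 2 := Real.log_pos one_lt_two
  have hl2' : Real.log 2 < 1 := lt_of_lt_of_le Real.log_two_lt_d9 (by norm_num)
  set ε : ℝ := c * Real.log 2 / 288 with hε
  have hε0 : 0 < ε := by positivity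
  obtain ⟨δ, hδ, κ₁, hW⟩ := Wrec_small Ct ε hε0
  refine ⟨δ / 10, by positivity,
    max (max κ₁ n₀) (max 1 (⌈2 * (Ct : ℝ) / (c * Real.log 2)⌉₊ + 1)), ?_⟩
  intro κ hκ
  have hκ1 : κ₁ ≤ κ := le_trans (le_trans (le_max_left _ _) (le_max_left _ _)) hκ
  have hκn : n₀ ≤ κ := le_trans (le_trans (le_max_right _ _) (le_max_left _ _)) hκ
  have hκ2 : 1 ≤ κ := le_trans (le_trans (le_max_left _ _) (le_max_right _ _)) hκ
  have hκ3 : ⌈2 * (Ct : ℝ) / (c * Real.log 2)⌉₊ + 1 ≤ κ :=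
    le_trans (le_trans (le_max_right _ _) (le_max_right _ _)) hκ
  have hκ3' : 2 * (Ct : ℝ) < c * Real.log 2 * κ := by
    have h1 : 2 * (Ct : ℝ) / (c * Real.log 2) < κ := by
      calc 2 * (Ct : ℝ) / (c * Real.log 2) ≤ (⌈2 * (Ct : ℝ) / (c * Real.log 2)⌉₊ : ℝ) :=
            Nat.le_ceil _
        _ < ((⌈2 * (Ct : ℝ) / (c * Real.log 2)⌉₊ + 1 : ℕ) : ℝ) := by
            push_cast
            linarith
        _ ≤ κ := by exact_mod_cast hκ3
    rw [div_lt_iff₀ (by positivity)] at h1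
    linarith
  have hκR : (1 : ℝ) ≤ κ := by exact_mod_cast hκ2
  have h4 : (0 : ℝ) < 4 ^ κ := by positivity
  set N : ℕ := 144 * 4 ^ κ with hN
  have hNR : (N : ℝ) = 144 * 4 ^ κ := by
    rw [hN]
    push_cast
    ring
  -- the lower bound for `TB`
  have hn : n₀ ≤ 2 ^ κ := le_trans hκn (Nat.lt_two_pow_self).le
  have hB := hlow (2 ^ κ) hn
  have hB' : c * 4 ^ κ * (κ * Real.log 2) ≤ (TB (2 ^ κ) : ℝ) := by
    have e1 : (((2 ^ κ : ℕ) : ℝ)) ^ 2 = 4 ^ κ := by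
      push_cast
      rw [← pow_mul, mul_comm, pow_mul]
      norm_num
    have e2 : Real.log ((2 ^ κ : ℕ) : ℝ) = κ * Real.log 2 := by
      push_cast
      rw [Real.log_pow]
    rw [e1, e2] at hB
    exact hB
  have hR : (TB (2 ^ κ) : ℝ) ≤ (Wrec Ct N (TA N) κ : ℝ) + Ct * 4 ^ κ := by
    exact_mod_cast hred κ
  -- the multiplier cannot be fast
  have hfast : δ * κ * N < (TA N : ℝ) := by
    by_contra hcon
    rw [not_lt] at hcon
    have h1 := hW κ hκ1 N (TA N) hcon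
    have h2 : ε * κ * N = c * Real.log 2 * κ * 4 ^ κ / 2 := by
      rw [hε, hNR]
      ring
    have h3 : (Ct : ℝ) * 4 ^ κ < c * Real.log 2 * κ * 4 ^ κ / 2 := by
      have := mul_lt_mul_of_pos_right hκ3' h4
      linarith
    have h5 : c * 4 ^ κ * (κ * Real.log 2) = c * Real.log 2 * κ * 4 ^ κ := by ring
    linarith
  -- the logarithm
  have hlog : Real.log (N : ℝ) ≤ 10 * κ := by
    have h1 : (N : ℝ) ≤ 2 ^ (2 * κ + 8) := by
      rw [hNR, pow_add, pow_mul]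
      norm_num
      nlinarith
    have hNpos : (0 : ℝ) < N := by
      rw [hNR]
      positivity
    calc Real.log (N : ℝ) ≤ Real.log (2 ^ (2 * κ + 8)) := Real.log_le_log hNpos h1
      _ = ((2 * κ + 8 : ℕ) : ℝ) * Real.log 2 := by rw [Real.log_pow]
      _ ≤ ((2 * κ + 8 : ℕ) : ℝ) * 1 := by
          apply mul_le_mul_of_nonneg_left hl2'.le (Nat.cast_nonneg _)
      _ ≤ 10 * κ := by
          push_cast
          linarith
  have hN0 : (0 : ℝ) ≤ N := Nat.cast_nonneg _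
  calc δ / 10 * (N : ℝ) * Real.log (N : ℝ) ≤ δ / 10 * (N : ℝ) * (10 * κ) := by
        apply mul_le_mul_of_nonneg_left hlog
        positivity
    _ = δ * κ * N := by ring
    _ ≤ (TA N : ℝ) := hfast.le

/-- From the sparse sequence `144 * 4 ^ κ` to all lengths (monotone envelope). -/
theorem envelope_of_sparse (TA : ℕ → ℕ) (c' : ℝ) (hc' : 0 < c') (κ₀ : ℕ)
    (h : ∀ κ : ℕ, κ₀ ≤ κ →
      c' * ((144 * 4 ^ κ : ℕ) : ℝ) * Real.log ((144 * 4 ^ κ : ℕ) : ℝ) ≤ TA (144 * 4 ^ κ)) :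
    ∃ c'' : ℝ, 0 < c'' ∧ ∃ N₀ : ℕ, ∀ N : ℕ, N₀ ≤ N →
      ∃ N' : ℕ, N' ≤ N ∧ N ≤ 4 * N' ∧ c'' * (N : ℝ) * Real.log N ≤ TA N' := by
  refine ⟨c' / 8, by positivity, 144 * 4 ^ κ₀, ?_⟩
  intro N hN
  set κ : ℕ := Nat.log 4 (N / 144) with hκ
  have hq : 4 ^ κ₀ ≤ N / 144 := by
    rw [Nat.le_div_iff_mul_le (by norm_num)]
    linarith
  have hq0 : N / 144 ≠ 0 := by
    have : 0 < 4 ^ κ₀ := by positivity
    omega
  have h1 : 4 ^ κ ≤ N / 144 := Nat.pow_log_le_self 4 hq0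
  have h2 : N / 144 < 4 ^ (κ + 1) := Nat.lt_pow_succ_log_self (by norm_num) _
  have hκ0 : κ₀ ≤ κ := Nat.le_log_of_pow_le (by norm_num) hq
  have h1' : 144 * 4 ^ κ ≤ N := by
    rw [Nat.le_div_iff_mul_le (by norm_num)] at h1
    linarith
  have h2' : N ≤ 4 * (144 * 4 ^ κ) := by
    rw [Nat.div_lt_iff_lt_mul (by norm_num)] at h2
    rw [pow_succ] at h2
    linarith
  refine ⟨144 * 4 ^ κ, h1', h2', ?_⟩
  have hk := h κ hκ0
  set M : ℕ := 144 * 4 ^ κ with hM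
  have hM4 : 4 ≤ M := by
    have : 1 ≤ 4 ^ κ := Nat.one_le_pow _ _ (by norm_num)
    omega
  have hM4R : (4 : ℝ) ≤ M := by exact_mod_cast hM4
  have hMpos : (0 : ℝ) < M := by linarith
  have hNM : (N : ℝ) ≤ 4 * M := by exact_mod_cast h2'
  have hNpos : (0 : ℝ) < N := by
    have : (M : ℝ) ≤ N := by exact_mod_cast h1'
    linarith
  have hlogM : 0 ≤ Real.log (M : ℝ) := Real.log_nonneg (by linarith)
  have hlog : Real.log (N : ℝ) ≤ 2 * Real.log (M : ℝ) := by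
    calc Real.log (N : ℝ) ≤ Real.log ((M : ℝ) * M) :=
          Real.log_le_log hNpos (by nlinarith)
      _ = 2 * Real.log (M : ℝ) := by
          rw [Real.log_mul hMpos.ne' hMpos.ne']
          ring
  calc c' / 8 * (N : ℝ) * Real.log N ≤ c' / 8 * (4 * M) * (2 * Real.log (M : ℝ)) := by
        apply mul_le_mul _ hlog (Real.log_nonneg _) (by positivity)
        · apply mul_le_mul_of_nonneg_left hNM (by positivity)
        · have : (M : ℝ) ≤ N := by exact_mod_cast h1'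
          linarith
    _ = c' * (M : ℝ) * Real.log (M : ℝ) := by ring
    _ ≤ TA M := hk

end Vale.Agent.P338
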