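import Vale.Agent.P338.TM.ListLib

/-!
TASK M3.  Correctness of the reduction modulo `2 ^ m + 1` without subtraction.
-/

namespace Vale.Agent.P338

namespace Reduce

theorem acc_core (m : ℕ) (c : ℕ → ℕ) (hc : ∀ t, c t < 2 ^ m) :
    12 + ∑ t ∈ Finset.range 12, (if t % 2 = 0 then c t else 2 ^ m - 1 - c t)
      ≡ ∑ t ∈ Finset.range 12, c t * 2 ^ (m * t) [MOD 2 ^ m + 1] := by
  rw [← ZMod.natCast_eq_natCast_iff]
  have h : (2 : ZMod (2 ^ m + 1)) ^ m = -1 := by
    have := ZMod.natCast_self (2 ^ m + 1)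
    push_cast at this
    exact eq_neg_of_add_eq_zero_left this
  have e : ∀ t, ((2 ^ m - 1 - c t : ℕ) : ZMod (2 ^ m + 1)) = -2 - (c t : ZMod (2 ^ m + 1)) := by
    intro t
    have h1 := hc t
    rw [Nat.cast_sub (by omega), Nat.cast_sub (Nat.one_le_two_pow)]
    push_cast
    rw [h]
    ring
  simp only [Finset.sum_range_succ, Finset.sum_range_zero]
  norm_num
  simp only [e, pow_mul, h]
  ring

theorem valLE_chunk_lt (m : ℕ) (σ : List Bool) (t : ℕ) : valLE (chunk m σ t) < 2 ^ m := by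
  refine lt_of_lt_of_le (valLE_lt _) (Nat.pow_le_pow_right (by norm_num) ?_)
  simp only [chunk, List.length_take]
  omega

theorem valLE_eq_sum (m : ℕ) (σ : List Bool) (hσ : σ.length = 12 * m) :
    valLE σ = ∑ t ∈ Finset.range 12, valLE (chunk m σ t) * 2 ^ (m * t) := by
  have h1 : cat 12 (fun t => bitsLE m (valLE (chunk m σ t))) = σ := by
    conv_rhs => rw [← cat_chunk 12 m σ hσ]
    apply cat_congr
    intro j hj
    have h2 := length_chunk_of_lt 12 m σ hσ j hj
    have h3 := bitsLE_valLE (chunk m σ j)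
    rwa [h2] at h3
  conv_lhs => rw [← h1]
  exact valLE_slots m 12 _ (fun r _ => valLE_chunk_lt m σ r)

end Reduce

theorem accVal_modEq (m : ℕ) (σ : List Bool) (hσ : σ.length = 12 * m) :
    accVal m σ ≡ valLE σ [MOD 2 ^ m + 1] := by
  rw [Reduce.valLE_eq_sum m σ hσ]
  exact Reduce.acc_core m _ (Reduce.valLE_chunk_lt m σ)

theorem accVal_lt (m : ℕ) (hm : 4 ≤ m) (σ : List Bool) : accVal m σ < 13 * 2 ^ m := by
  have h1 : ∑ t ∈ Finset.range 12,
      (if t % 2 = 0 then valLE (chunk m σ t) else 2 ^ m - 1 - valLE (chunk m σ t))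
      ≤ ∑ _t ∈ Finset.range 12, (2 ^ m - 1) := by
    apply Finset.sum_le_sum
    intro t _
    have := Reduce.valLE_chunk_lt m σ t
    split_ifs <;> omega
  have h2 : 1 ≤ 2 ^ m := Nat.one_le_two_pow
  simp only [Finset.sum_const, Finset.card_range, smul_eq_mul] at h1
  unfold accVal
  omega

/-- If the slot represents `16 * 2 ^ a * x` modulo `2 ^ m + 1` with `x < 2 ^ w` and
`w + a + 5 ≤ m`, then the bits `a + 4, …, a + 4 + w - 1` of the accumulator are the bits of `x`. -/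
theorem reduce_slot (a w m x : ℕ) (hm : w + a + 5 ≤ m) (hx : x < 2 ^ w) (σ : List Bool)
    (hσ : σ.length = 12 * m) (h : valLE σ ≡ 16 * 2 ^ a * x [MOD 2 ^ m + 1]) :
    ((bitsLE (m + 4) (accVal m σ)).drop (a + 4)).take w = bitsLE w x := by
  obtain ⟨e, rfl⟩ : ∃ e, m = w + a + 5 + e := ⟨m - (w + a + 5), by omega⟩
  set m := w + a + 5 + e with hmdef
  have hX : 16 * 2 ^ a * x < 2 ^ m + 1 := by
    have h1 : 16 * 2 ^ a * x < 16 * 2 ^ a * 2 ^ w :=
      Nat.mul_lt_mul_of_pos_left hx (by positivity)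
    have h2 : 16 * 2 ^ a * 2 ^ w ≤ 2 ^ m := by
      have : (16 : ℕ) * 2 ^ a * 2 ^ w = 2 ^ (w + a + 4) := by
        rw [pow_add, pow_add]; ring
      rw [this]
      exact Nat.pow_le_pow_right (by norm_num) (by omega)
    omega
  have hacc := (accVal_modEq m σ hσ).trans h
  have hlt := accVal_lt m (by omega) σ
  have hmod : accVal m σ % (2 ^ m + 1) = 16 * 2 ^ a * x := by
    rw [hacc, Nat.mod_eq_of_lt hX]
  have hk : accVal m σ / (2 ^ m + 1) < 13 := by
    apply Nat.div_lt_of_lt_mul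
    have : (2 ^ m + 1) * 13 = 13 * 2 ^ m + 13 := by ring
    omega
  have hdecomp := Nat.div_add_mod (accVal m σ) (2 ^ m + 1)
  rw [hmod] at hdecomp
  generalize accVal m σ / (2 ^ m + 1) = k at hk hdecomp
  have hpow : 2 ^ m = 2 ^ (a + 4) * (2 ^ w * 2 ^ (e + 1)) := by
    rw [← pow_add, ← pow_add]
    congr 1
    omega
  have hform : accVal m σ = 2 ^ (a + 4) * (x + 2 ^ w * (2 ^ (e + 1) * k)) + k := by
    rw [← hdecomp, hpow, pow_add 2 a 4]
    ring
  have hkD : k < 2 ^ (a + 4) := by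
    have : 2 ^ 4 ≤ 2 ^ (a + 4) := Nat.pow_le_pow_right (by norm_num) (by omega)
    omega
  have hdiv : accVal m σ / 2 ^ (a + 4) = x + 2 ^ w * (2 ^ (e + 1) * k) := by
    rw [hform, Nat.mul_add_div (Nat.two_pow_pos _), Nat.div_eq_of_lt hkD, Nat.add_zero]
  have hlen : m + 4 = (a + 4) + (w + 5 + e) := by omega
  rw [hlen, drop_bitsLE, take_bitsLE w _ _ (by omega), hdiv, ← bitsLE_mod,
    Nat.add_mul_mod_self_left, bitsLE_mod]

end Vale.Agent.P338
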