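import Vale.Agent.P338.TM.Stream
import Vale.Agent.P338.TM.MathReduce

/-!
TASK T7.  The pass `reducePass`: reduction of every slot of `12 m` bits modulo `2 ^ m + 1`.
Tapes: `0` input, `1` output, `2` counter `a`, `3` counter `w`, `4` counter `m`, `5` shadow counter,
`6` accumulator, `7` carry.
-/

namespace Vale.Agent.P338
namespace Frag
open Matrix

/-! ### Ripple-carry addition, list level -/

/-- The carry into position `j` when `Y` is added to `V` (numbers of `n` bits). -/
def carryAt (n V Y j : ℕ) : Bool := BitVec.carry j (BitVec.ofNat n V) (BitVec.ofNat n Y) false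

theorem carryAt_zero (n V Y : ℕ) : carryAt n V Y 0 = false := by
  simp [carryAt]

theorem carryAt_succ (n V Y j : ℕ) (hj : j < n) : carryAt n V Y (j + 1)
    = Bool.atLeastTwo (V.testBit j) (Y.testBit j) (carryAt n V Y j) := by
  unfold carryAt
  rw [BitVec.carry_succ, BitVec.getLsbD_ofNat, BitVec.getLsbD_ofNat]
  simp [hj]

theorem testBit_add (n V Y j : ℕ) (hj : j < n) : (V + Y).testBit j
    = (V.testBit j ^^ (Y.testBit j ^^ carryAt n V Y j)) := by
  have h := BitVec.getLsbD_add hj (BitVec.ofNat n V) (BitVec.ofNat n Y)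
  rw [← BitVec.ofNat_add, BitVec.getLsbD_ofNat, BitVec.getLsbD_ofNat, BitVec.getLsbD_ofNat] at h
  simpa [hj, carryAt] using h

theorem bitsLE_succ (j x : ℕ) : bitsLE (j + 1) x = bitsLE j x ++ [x.testBit j] := by
  simp [bitsLE, List.range_succ]

theorem drop_bitsLE_cons (n V j : ℕ) (hj : j < n) :
    (bitsLE n V).drop j = V.testBit j :: (bitsLE n V).drop (j + 1) := by
  rw [List.drop_eq_getElem_cons (by simpa using hj)]
  simp [bitsLE]

/-! ### The adder steps -/

/-- Read a bit. -/
def isOne (x : Sym) : Bool := x == Sym.b1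

@[simp] theorem isOne_bit (b : Bool) : isOne (bit b) = b := by cases b <;> rfl

/-- Read the carry (a counter with value `0` or `1`). -/
def isCarry (x : Sym) : Bool := x != Sym.org

@[simp] theorem isCarry_cnt (c : Bool) : isCarry (cnt c.toNat).read = c := by cases c <;> rfl

/-- The movement of the carry head: old carry `c`, new carry `c'`. -/
def carryDir (c c' : Bool) : Dir :=
  if c = c' then Dir.stay else if c' then Dir.right else Dir.left

theorem carry_step (c c' : Bool) :
    (cnt c.toNat).step ((cnt c.toNat).read, carryDir c c') = cnt c'.toNat := by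
  cases c <;> cases c' <;> simp only [carryDir, Bool.toNat_false, Bool.toNat_true] <;>
    simp only [reduceIte, reduceCtorEq, cnt_stay, cnt_right, cnt_left]

/-- Tapes: input, output, accumulator, carry.  Add the scanned input bit (complemented if `compl`)
and the carry to the scanned bit of the accumulator. -/
def addStep (compl : Bool) : Frag Sym 4 := prim fun s =>
  ![(s 0, Dir.right), (s 1, Dir.stay),
    (bit (isOne (s 2) ^^ ((isOne (s 0) ^^ compl) ^^ isCarry (s 3))), Dir.right),
    (s 3, carryDir (isCarry (s 3))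
      (Bool.atLeastTwo (isOne (s 2)) (isOne (s 0) ^^ compl) (isCarry (s 3))))]

theorem stream_addStep (compl x y c : Bool) (A B : List Sym) :
    Stream (addStep compl) [bit x] [] ![zt A (bit y :: B), cnt c.toNat]
      ![zt (A ++ [bit (y ^^ ((x ^^ compl) ^^ c))]) B,
        cnt (Bool.atLeastTwo y (x ^^ compl) c).toNat] 1 := by
  intro L R O
  refine RunsLE.prim _ _ _ ?_
  simp only [reads_cons, reads_empty, acts_cons, acts_empty, cons_val_zero, cons_val_one, cons_val,
    List.singleton_append, zt_read_cons, isOne_bit, isCarry_cnt, carry_step, zt_right_cons,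
    Tape.step_read_stay, List.append_nil]

/-- The accumulator after `j` steps of the addition of `Y` to `V` (numbers of `n` bits). -/
def accSt (n V Y j : ℕ) : Tape Sym :=
  zt (Sym.org :: (bitsLE j (V + Y)).map bit) (((bitsLE n V).drop j).map bit)

/-- The carry tape after `j` steps. -/
def carSt (n V Y j : ℕ) : Tape Sym := cnt (carryAt n V Y j).toNat

theorem cat_bits (m X : ℕ) : cat m (fun j => [bit (X.testBit j)]) = (bitsLE m X).map bit := by
  induction m with
  | zero => simp [bitsLE]
  | succ m ih => rw [cat_succ, ih, bitsLE_succ, List.map_append, List.map_singleton]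

theorem cat_nil (m : ℕ) : cat m (fun _ => ([] : List Sym)) = [] := by
  have := cat_replicate m 0 Sym.blank
  simpa using this

theorem stream_addStep_st (compl : Bool) (n V X Y j : ℕ) (hj : j < n)
    (hY : Y.testBit j = (X.testBit j ^^ compl)) :
    Stream (addStep compl) [bit (X.testBit j)] [] ![accSt n V Y j, carSt n V Y j]
      ![accSt n V Y (j + 1), carSt n V Y (j + 1)] 1 := by
  have h := stream_addStep compl (X.testBit j) (V.testBit j) (carryAt n V Y j)
    (Sym.org :: (bitsLE j (V + Y)).map bit) (((bitsLE n V).drop (j + 1)).map bit)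
  unfold accSt carSt
  rw [drop_bitsLE_cons n V j hj, bitsLE_succ, testBit_add n V Y j hj, carryAt_succ n V Y j hj, hY,
    List.map_cons, List.map_append, List.map_singleton]
  exact h

/-- Tapes: input, output, counter `m`, shadow, accumulator, carry: add `m` input bits. -/
theorem stream_addLow (compl : Bool) (n m V X Y : ℕ) (hm : m ≤ n)
    (hY : ∀ j, j < m → Y.testBit j = (X.testBit j ^^ compl)) :
    Stream (repS (addStep compl)) ((bitsLE m X).map bit) []
      ![cnt m, cnt 0, accSt n V Y 0, carSt n V Y 0] ![cnt m, cnt 0, accSt n V Y m, carSt n V Y m]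
      (m * 5 + 2) := by
  have := Stream.rep (body := addStep compl) m (fun j => [bit (X.testBit j)]) (fun _ => [])
    (fun j => ![accSt n V Y j, carSt n V Y j]) 1
    (fun j hj => stream_addStep_st compl n V X Y j (by omega) (hY j hj))
  rwa [cat_bits, cat_nil] at this

/-- Tapes: accumulator, carry.  Add the carry to the scanned bit of the accumulator. -/
def carryStep : Frag Sym 2 := prim fun s =>
  ![(bit (isOne (s 0) ^^ (false ^^ isCarry (s 1))), Dir.right),
    (s 1, carryDir (isCarry (s 1)) (Bool.atLeastTwo (isOne (s 0)) false (isCarry (s 1))))]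

theorem runsLE_carryStep (y c : Bool) (A B : List Sym) :
    RunsLE carryStep ![zt A (bit y :: B), cnt c.toNat] 1
      ![zt (A ++ [bit (y ^^ (false ^^ c))]) B, cnt (Bool.atLeastTwo y false c).toNat] := by
  refine RunsLE.prim _ _ _ ?_
  simp only [reads_cons, reads_empty, acts_cons, acts_empty, cons_val_zero, cons_val_one,
    zt_read_cons, isOne_bit, isCarry_cnt, carry_step, zt_right_cons]

theorem runsLE_carryStep_st (n V Y j : ℕ) (hj : j < n) (hY : Y.testBit j = false) :
    RunsLE carryStep ![accSt n V Y j, carSt n V Y j] 1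
      ![accSt n V Y (j + 1), carSt n V Y (j + 1)] := by
  have h := runsLE_carryStep (V.testBit j) (carryAt n V Y j)
    (Sym.org :: (bitsLE j (V + Y)).map bit) (((bitsLE n V).drop (j + 1)).map bit)
  unfold accSt carSt
  rw [drop_bitsLE_cons n V j hj, bitsLE_succ, testBit_add n V Y j hj, carryAt_succ n V Y j hj, hY,
    List.map_cons, List.map_append, List.map_singleton]
  exact h

/-- Propagate the carry to the end of the accumulator. -/
def carryLoop : Frag Sym 2 := loop (fun s => s 0 != Sym.blank) carryStep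

theorem bit_ne_blank (b : Bool) : bit b ≠ Sym.blank := by cases b <;> simp [bit]
theorem bit_ne_org (b : Bool) : bit b ≠ Sym.org := by cases b <;> simp [bit]

theorem runsLE_carryLoop (n m V Y : ℕ) (hm : m ≤ n)
    (hY : ∀ j, m ≤ j → j < n → Y.testBit j = false) :
    RunsLE carryLoop ![accSt n V Y m, carSt n V Y m] ((n - m) * 2 + 1)
      ![accSt n V Y n, carSt n V Y n] := by
  have := RunsLE.loop (c := fun s : Fin 2 → Sym => s 0 != Sym.blank) (F := carryStep)
    (fun j => ![accSt n V Y (m + j), carSt n V Y (m + j)]) (n - m) 1 ?_ ?_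
  · have e : m + (n - m) = n := by omega
    simpa [e, carryLoop] using this
  · intro j hj
    refine ⟨?_, runsLE_carryStep_st n V Y (m + j) (by omega) (hY _ (by omega) (by omega))⟩
    simp only [reads_cons, cons_val_zero, accSt]
    rw [drop_bitsLE_cons n V (m + j) (by omega), List.map_cons, zt_read_cons]
    simpa using bit_ne_blank _
  · have e : m + (n - m) = n := by omega
    simp only [reads_cons, cons_val_zero, accSt, e]
    rw [List.drop_of_length_le (by simp)]
    simp

/-- The accumulator in working position. -/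
def accRest (n V : ℕ) : Tape Sym := zt [Sym.org] ((bitsLE n V).map bit)

theorem accSt_zero (n V Y : ℕ) : accSt n V Y 0 = accRest n V := by
  simp [accSt, accRest, bitsLE]

theorem carSt_zero (n V Y : ℕ) : carSt n V Y 0 = cnt 0 := by
  simp [carSt, carryAt_zero]

theorem accSt_end (n V Y : ℕ) : accSt n V Y n = zt (Sym.org :: (bitsLE n (V + Y)).map bit) [] := by
  unfold accSt
  rw [List.drop_of_length_le (by simp)]
  rfl

theorem org_not_mem_bits (l : List Bool) : Sym.org ∉ l.map bit := by
  intro h
  exact ((isData_map_bit l) _ h).2 rfl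

theorem blank_not_mem_bits (l : List Bool) : Sym.blank ∉ l.map bit := by
  intro h
  exact ((isData_map_bit l) _ h).1 rfl

/-- Tapes: accumulator, carry.  End of an addition: propagate the carry, forget it, rewind. -/
noncomputable def finishAdd : Frag Sym 2 :=
  seq carryLoop (seq (lift ![1] zero) (seq (lift ![0] rewind) (lift ![0] mvR)))

theorem runsLE_finishAdd (n m V Y : ℕ) (hm : m ≤ n)
    (hY : ∀ j, m ≤ j → j < n → Y.testBit j = false) :
    RunsLE finishAdd ![accSt n V Y m, carSt n V Y m] (4 * n + 8) ![accRest n (V + Y), cnt 0] := by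
  have h1 := runsLE_carryLoop n m V Y hm hY
  have h2 : RunsLE (lift ![1] zero : Frag Sym 2) ![accSt n V Y n, carSt n V Y n] 3
      ![accSt n V Y n, cnt 0] := by
    have h := runsLE_zero (carryAt n V Y n).toNat
    refine RunsLE.lift (by decide) (h.mono ?_) _ _ (by intro a; fin_cases a; rfl)
      (by intro a; fin_cases a; rfl)
      (by intro c hc; fin_cases c <;> first | (exfalso; revert hc; decide) | simp)
    cases carryAt n V Y n <;> simp
  have h3 : RunsLE (lift ![0] rewind : Frag Sym 2) ![accSt n V Y n, cnt 0] (2 * n + 3)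
      ![zt [] (Sym.org :: (bitsLE n (V + Y)).map bit), cnt 0] := by
    have h := runsLE_rewind ((bitsLE n (V + Y)).map bit) [] (org_not_mem_bits _) (by simp)
    rw [List.append_nil, List.length_map, length_bitsLE] at h
    rw [accSt_end]
    exact RunsLE.lift (by decide) h _ _ (by intro a; fin_cases a; rfl)
      (by intro a; fin_cases a; rfl)
      (by intro c hc; fin_cases c <;> first | (exfalso; revert hc; decide) | simp)
  have h4 : RunsLE (lift ![0] mvR : Frag Sym 2)
      ![zt [] (Sym.org :: (bitsLE n (V + Y)).map bit), cnt 0] 1 ![accRest n (V + Y), cnt 0] := by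
    have h := runsLE_mvR_cons [] ((bitsLE n (V + Y)).map bit) Sym.org
    exact RunsLE.lift (by decide) h _ _ (by intro a; fin_cases a; rfl)
      (by intro a; fin_cases a; rfl)
      (by intro c hc; fin_cases c <;> first | (exfalso; revert hc; decide) | simp)
  exact (h1.seq (h2.seq (h3.seq h4))).mono (by omega)

/-- The number added for a chunk with value `X`. -/
def addend (compl : Bool) (m X : ℕ) : ℕ := if compl then 2 ^ m - 1 - X else X

theorem addend_lt (compl : Bool) (m X : ℕ) (hX : X < 2 ^ m) : addend compl m X < 2 ^ m := by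
  unfold addend
  split_ifs <;> omega

theorem testBit_addend (compl : Bool) (m X j : ℕ) (hX : X < 2 ^ m) (hj : j < m) :
    (addend compl m X).testBit j = (X.testBit j ^^ compl) := by
  cases compl
  · simp [addend]
  · have e : 2 ^ m - 1 - X = 2 ^ m - (X + 1) := by omega
    simp only [addend, if_true, e, Nat.testBit_two_pow_sub_succ hX, hj, decide_true, Bool.true_and,
      Bool.xor_true]

theorem testBit_addend_high (compl : Bool) (m X j : ℕ) (hX : X < 2 ^ m) (hj : m ≤ j) :
    (addend compl m X).testBit j = false :=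
  Nat.testBit_lt_two_pow (lt_of_lt_of_le (addend_lt compl m X hX)
    (Nat.pow_le_pow_right (by norm_num) hj))

/-- Tapes: input, output, counter `m`, shadow, accumulator, carry: add one chunk. -/
noncomputable def addChunk (compl : Bool) : Frag Sym 6 :=
  seq (repS (addStep compl)) (onAuxAt ![2, 3] finishAdd)

theorem stream_addChunk (compl : Bool) (m V : ℕ) (c : List Bool) (hc : c.length = m) :
    Stream (addChunk compl) (c.map bit) [] ![cnt m, cnt 0, accRest (m + 4) V, cnt 0]
      ![cnt m, cnt 0, accRest (m + 4) (V + addend compl m (valLE c)), cnt 0] (9 * m + 26) := by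
  have hX : valLE c < 2 ^ m := hc ▸ valLE_lt c
  have h1 := stream_addLow compl (m + 4) m V (valLE c) (addend compl m (valLE c)) (by omega)
    (fun j hj => testBit_addend compl m _ j hX hj)
  have h2 := runsLE_finishAdd (m + 4) m V (addend compl m (valLE c)) (by omega)
    (fun j hj _ => testBit_addend_high compl m _ j hX hj)
  have h3 : Stream (onAuxAt (K := 4) ![2, 3] finishAdd) [] []
      ![cnt m, cnt 0, accSt (m + 4) V (addend compl m (valLE c)) m,
        carSt (m + 4) V (addend compl m (valLE c)) m]
      ![cnt m, cnt 0, accRest (m + 4) (V + addend compl m (valLE c)), cnt 0] (4 * (m + 4) + 8) :=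
    Stream.onAuxAt (by decide) h2 _ _ (by intro a; fin_cases a <;> rfl)
      (by intro a; fin_cases a <;> rfl)
      (by intro c hc; fin_cases c <;> first | (exfalso; revert hc; decide) | simp)
  have h4 := h1.seq h3
  have e : bitsLE m (valLE c) = c := hc ▸ bitsLE_valLE c
  rw [accSt_zero, carSt_zero, e, List.append_nil, List.append_nil] at h4
  exact h4.mono (by omega)

/-- `F 0; F 1; …; F (n - 1)` (`n` a constant of the program). -/
def seqF {k : ℕ} (F : ℕ → Frag Sym k) : ℕ → Frag Sym k
  | 0 => prim noop
  | n + 1 => seq (seqF F n) (F n)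

theorem Stream.seqF {k : ℕ} {F : ℕ → Frag Sym (k + 2)} (n : ℕ) (c d : ℕ → List Sym)
    (aux : ℕ → Fin k → Tape Sym) (τ : ℕ)
    (h : ∀ j, j < n → Stream (F j) (c j) (d j) (aux j) (aux (j + 1)) τ) :
    Stream (Frag.seqF F n) (cat n c) (cat n d) (aux 0) (aux n) (n * τ + 1) := by
  induction n with
  | zero =>
    intro L R O
    simpa [Frag.seqF] using RunsLE.prim noop _ _ (acts_noop _)
  | succ n ih =>
    have h1 := (ih fun j hj => h j (by omega)).seq (h n (by omega))
    rw [← cat_succ, ← cat_succ] at h1
    exact h1.mono (by rw [Nat.succ_mul]; omega)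

/-- The accumulator after `t` chunks. -/
def accPart (m : ℕ) (σ : List Bool) (t : ℕ) : ℕ :=
  12 + ∑ i ∈ Finset.range t,
    if i % 2 = 0 then valLE (chunk m σ i) else 2 ^ m - 1 - valLE (chunk m σ i)

theorem accPart_succ (m : ℕ) (σ : List Bool) (t : ℕ) :
    accPart m σ (t + 1) = accPart m σ t + addend (t % 2 != 0) m (valLE (chunk m σ t)) := by
  unfold accPart addend
  rw [Finset.sum_range_succ, Nat.add_assoc]
  congr 2
  by_cases h : t % 2 = 0 <;> simp [h]

/-- Tapes: input, output, counter `m`, shadow, accumulator, carry: add the twelve chunks. -/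
noncomputable def addAll : Frag Sym 6 := seqF (fun t => addChunk (t % 2 != 0)) 12

theorem stream_addAll (m : ℕ) (σ : List Bool) (hσ : σ.length = 12 * m) :
    Stream addAll (σ.map bit) [] ![cnt m, cnt 0, accRest (m + 4) 12, cnt 0]
      ![cnt m, cnt 0, accRest (m + 4) (accVal m σ), cnt 0] (108 * m + 313) := by
  have h := Stream.seqF (F := fun t => addChunk (t % 2 != 0)) 12
    (fun t => (chunk m σ t).map bit) (fun _ => [])
    (fun t => ![cnt m, cnt 0, accRest (m + 4) (accPart m σ t), cnt 0]) (9 * m + 26) ?_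
  · rw [cat_nil, ← map_cat, cat_chunk 12 m σ hσ] at h
    exact h.mono (by omega)
  · intro t ht
    have := stream_addChunk (t % 2 != 0) m (accPart m σ t) (chunk m σ t)
      (length_chunk_of_lt 12 m σ hσ t ht)
    rw [← accPart_succ] at this
    exact this

/-! ### Initialisation of the accumulator -/

/-- Write the four low bits of `12`. -/
def initHead : Frag Sym 1 :=
  seq mvR (seq (put Sym.b0) (seq (put Sym.b0) (seq (put Sym.b1) (put Sym.b1))))

theorem runsLE_initHead :
    RunsLE initHead ![cnt 0] 5 ![zt [Sym.org, Sym.b0, Sym.b0, Sym.b1, Sym.b1] []] :=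
  (runsLE_mvR_cons [] [] Sym.org).seq ((runsLE_put Sym.b0 _).seq ((runsLE_put Sym.b0 _).seq
    ((runsLE_put Sym.b1 _).seq (runsLE_put Sym.b1 _))))

/-- Rewind and step on the first data cell. -/
def backToWork : Frag Sym 1 := seq rewind mvR

theorem runsLE_backToWork (L : List Sym) (hL : Sym.org ∉ L) :
    RunsLE backToWork ![zt (Sym.org :: L) []] (2 * L.length + 4) ![zt [Sym.org] L] := by
  have h := runsLE_rewind L [] hL (by simp)
  rw [List.append_nil] at h
  exact h.seq (runsLE_mvR_cons [] L Sym.org)

theorem bits_twelve (m : ℕ) : (bitsLE (m + 4) 12).map bit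
    = [Sym.b0, Sym.b0, Sym.b1, Sym.b1] ++ List.replicate m Sym.b0 := by
  rw [Nat.add_comm, bitsLE_add]
  have e1 : bitsLE 4 12 = [false, false, true, true] := by decide
  have e2 : 12 / 2 ^ 4 = 0 := by norm_num
  rw [e1, e2, bitsLE_zero_right]
  simp [bit]

/-- Tapes: counter `m`, shadow, accumulator. -/
noncomputable def initAcc : Frag Sym 3 :=
  seq (lift ![2] initHead) (seq (rep (put Sym.b0)) (lift ![2] backToWork))

theorem runsLE_initAcc (m : ℕ) :
    RunsLE initAcc ![cnt m, cnt 0, cnt 0] (7 * m + 19) ![cnt m, cnt 0, accRest (m + 4) 12] := by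
  have h1 : RunsLE (lift ![2] initHead : Frag Sym 3) ![cnt m, cnt 0, cnt 0] 5
      ![cnt m, cnt 0, zt [Sym.org, Sym.b0, Sym.b0, Sym.b1, Sym.b1] []] :=
    RunsLE.lift (by decide) runsLE_initHead _ _ (by intro a; fin_cases a; rfl)
      (by intro a; fin_cases a; rfl)
      (by intro c hc; fin_cases c <;> first | (exfalso; revert hc; decide) | simp)
  have h2 := runsLE_putN Sym.b0 m [Sym.org, Sym.b0, Sym.b0, Sym.b1, Sym.b1]
  have h3 : RunsLE (lift ![2] backToWork : Frag Sym 3)
      ![cnt m, cnt 0, zt ([Sym.org, Sym.b0, Sym.b0, Sym.b1, Sym.b1] ++ List.replicate m Sym.b0) []]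
      (2 * (m + 4) + 4) ![cnt m, cnt 0, accRest (m + 4) 12] := by
    have h := runsLE_backToWork ((bitsLE (m + 4) 12).map bit) (org_not_mem_bits _)
    rw [List.length_map, length_bitsLE] at h
    refine RunsLE.lift (by decide) h _ _ ?_ (by intro a; fin_cases a; rfl)
      (by intro c hc; fin_cases c <;> first | (exfalso; revert hc; decide) | simp)
    intro a
    fin_cases a
    rw [bits_twelve]
    rfl
  exact (h1.seq (h2.seq h3)).mono (by omega)

/-! ### Extraction of the result -/

/-- Skip `c` cells (`c` a constant of the program). -/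
def skipC : ℕ → Frag Sym 1
  | 0 => prim noop
  | c + 1 => seq mvR (skipC c)

theorem runsLE_skipC (L A R : List Sym) :
    RunsLE (skipC A.length) ![zt L (A ++ R)] (A.length + 1) ![zt (L ++ A) R] := by
  induction A generalizing L with
  | nil => simpa [skipC] using RunsLE.prim noop _ _ (acts_noop _)
  | cons x A ih =>
    have h := (runsLE_mvR_cons L (A ++ R) x).seq (ih (L ++ [x]))
    rw [List.append_assoc, List.singleton_append] at h
    exact h.mono (by simp; omega)

/-- Erase a tape from any position. -/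
def eraseAll : Frag Sym 1 := seq toEnd eraseBack

theorem runsLE_eraseAll (L R : List Sym) (hL : Sym.org ∉ L) (hR : Sym.org ∉ R)
    (hR' : Sym.blank ∉ R) :
    RunsLE eraseAll ![zt (Sym.org :: L) R] (2 * L.length + 4 * R.length + 4) ![cnt 0] := by
  have h1 := runsLE_toEnd (Sym.org :: L) R hR'
  have h2 := runsLE_eraseBack (L ++ R) (by simp [hL, hR])
  exact (h1.seq h2).mono (by simp; omega)

theorem split_acc {α : Type} (B : List α) (a w m : ℕ) (hB : B.length = m + 4) (haw : a + w ≤ m) :
    ∃ A4 Aa Rest : List α, B = A4 ++ (Aa ++ ((B.drop (a + 4)).take w ++ Rest)) ∧ A4.length = 4 ∧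
      Aa.length = a ∧ ((B.drop (a + 4)).take w).length = w ∧ Rest.length = m - a - w := by
  refine ⟨B.take 4, (B.drop 4).take a, (B.drop (a + 4)).drop w, ?_, ?_, ?_, ?_, ?_⟩
  · rw [List.take_append_drop]
    have e : B.drop (a + 4) = (B.drop 4).drop a := by rw [List.drop_drop, Nat.add_comm]
    rw [e, List.take_append_drop, List.take_append_drop]
  · simp; omega
  · simp; omega
  · simp; omega
  · simp; omega

/-- One slot.  Tapes: input, output, `a`, `w`, `m`, shadow, accumulator, carry. -/
noncomputable def slotBody : Frag Sym 8 :=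
  seq (onAuxAt ![2, 3, 4] initAcc)
    (seq (liftS ![2, 3, 4, 5] addAll)
      (seq (onAuxAt ![4] (skipC 4))
        (seq (onAuxAt ![0, 3, 4] (rep mvR))
          (seq (lift ![3, 5, 6, 1] (rep copy1))
            (onAuxAt ![4] eraseAll)))))

theorem lift_2345 {F : Frag Sym 6} {c d : List Sym} {x0 x1 x2 x3 y0 y1 y2 y3 : Tape Sym} {τ : ℕ}
    (h : Stream F c d ![x0, x1, x2, x3] ![y0, y1, y2, y3] τ) (p q : Tape Sym) :
    Stream (liftS (K := 6) ![2, 3, 4, 5] F) c d ![p, q, x0, x1, x2, x3] ![p, q, y0, y1, y2, y3] τ :=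
  h.lift (by decide) _ _ (by intro a; fin_cases a <;> rfl)
    (by intro a; fin_cases a <;> rfl)
    (by intro c hc; fin_cases c <;> first | (exfalso; revert hc; decide) | simp)

theorem onAux_234 {G : Frag Sym 3} {x0 x1 x2 y0 y1 y2 : Tape Sym} {τ : ℕ}
    (h : RunsLE G ![x0, x1, x2] τ ![y0, y1, y2]) (p q r : Tape Sym) :
    Stream (onAuxAt (K := 6) ![2, 3, 4] G) [] [] ![p, q, x0, x1, x2, r] ![p, q, y0, y1, y2, r] τ :=
  Stream.onAuxAt (by decide) h _ _ (by intro a; fin_cases a <;> rfl)
    (by intro a; fin_cases a <;> rfl)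
    (by intro c hc; fin_cases c <;> first | (exfalso; revert hc; decide) | simp)

theorem onAux_034 {G : Frag Sym 3} {x0 x1 x2 y0 y1 y2 : Tape Sym} {τ : ℕ}
    (h : RunsLE G ![x0, x1, x2] τ ![y0, y1, y2]) (p q r : Tape Sym) :
    Stream (onAuxAt (K := 6) ![0, 3, 4] G) [] [] ![x0, p, q, x1, x2, r] ![y0, p, q, y1, y2, r] τ :=
  Stream.onAuxAt (by decide) h _ _ (by intro a; fin_cases a <;> rfl)
    (by intro a; fin_cases a <;> rfl)
    (by intro c hc; fin_cases c <;> first | (exfalso; revert hc; decide) | simp)

theorem onAux_4 {G : Frag Sym 1} {x y : Tape Sym} {τ : ℕ}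
    (h : RunsLE G ![x] τ ![y]) (p0 p1 p2 p3 p5 : Tape Sym) :
    Stream (onAuxAt (K := 6) ![4] G) [] [] ![p0, p1, p2, p3, x, p5] ![p0, p1, p2, p3, y, p5] τ :=
  Stream.onAuxAt (by decide) h _ _ (by intro a; fin_cases a; rfl)
    (by intro a; fin_cases a; rfl)
    (by intro c hc; fin_cases c <;> first | (exfalso; revert hc; decide) | simp)

theorem lift_3561 {G : Frag Sym 4} {x0 x1 x2 x3 y0 y1 y2 y3 : Tape Sym} {τ : ℕ}
    (h : RunsLE G ![x0, x1, x2, x3] τ ![y0, y1, y2, y3]) (t0 p2 p4 p7 : Tape Sym) :
    RunsLE (lift ![3, 5, 6, 1] G : Frag Sym 8) ![t0, x3, p2, x0, p4, x1, x2, p7] τ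
      ![t0, y3, p2, y0, p4, y1, y2, p7] :=
  RunsLE.lift (by decide) h _ _ (by intro a; fin_cases a <;> rfl)
    (by intro a; fin_cases a <;> rfl)
    (by intro c hc; fin_cases c <;> first | (exfalso; revert hc; decide) | simp)

theorem stream_slotBody (a w m : ℕ) (haw : a + w ≤ m) (σ : List Bool) (hσ : σ.length = 12 * m) :
    Stream slotBody (σ.map bit) ((((bitsLE (m + 4) (accVal m σ)).drop (a + 4)).take w).map bit)
      ![cnt a, cnt w, cnt m, cnt 0, cnt 0, cnt 0] ![cnt a, cnt w, cnt m, cnt 0, cnt 0, cnt 0]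
      (124 * m + 360) := by
  obtain ⟨A4, Aa, Rest, hB, h4, ha, hw, hr⟩ :=
    split_acc (bitsLE (m + 4) (accVal m σ)) a w m (length_bitsLE _ _) haw
  generalize hAw : ((bitsLE (m + 4) (accVal m σ)).drop (a + 4)).take w = Aw at hB hw
  have s1 := onAux_234 (runsLE_initAcc m) (cnt a) (cnt w) (cnt 0)
  have s2 := lift_2345 (stream_addAll m σ hσ) (cnt a) (cnt w)
  have e0 : accRest (m + 4) (accVal m σ)
      = zt [Sym.org] (A4.map bit ++ (Aa.map bit ++ (Aw.map bit ++ Rest.map bit))) := by
    unfold accRest
    rw [hB]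
    simp only [List.map_append]
  rw [e0] at s2
  have h3 := runsLE_skipC [Sym.org] (A4.map bit) (Aa.map bit ++ (Aw.map bit ++ Rest.map bit))
  rw [List.length_map, h4] at h3
  have s3 := onAux_4 h3 (cnt a) (cnt w) (cnt m) (cnt 0) (cnt 0)
  have h4' := runsLE_skipN ([Sym.org] ++ A4.map bit) (Aa.map bit) (Aw.map bit ++ Rest.map bit)
  rw [List.length_map, ha] at h4'
  have s4 := onAux_034 h4' (cnt w) (cnt m) (cnt 0)
  have s5 : Stream (lift ![3, 5, 6, 1] (rep copy1) : Frag Sym 8) [] (Aw.map bit)
      ![cnt a, cnt w, cnt m, cnt 0,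
        zt ([Sym.org] ++ A4.map bit ++ Aa.map bit) (Aw.map bit ++ Rest.map bit), cnt 0]
      ![cnt a, cnt w, cnt m, cnt 0,
        zt ([Sym.org] ++ A4.map bit ++ Aa.map bit ++ Aw.map bit) (Rest.map bit), cnt 0]
      (w * 5 + 2) := by
    intro L R O
    have h := runsLE_copyN ([Sym.org] ++ A4.map bit ++ Aa.map bit) (Aw.map bit) (Rest.map bit) O
    rw [List.length_map, hw] at h
    rw [List.nil_append, List.append_nil]
    exact lift_3561 h _ _ _ _
  have h6 := runsLE_eraseAll ((A4 ++ Aa ++ Aw).map bit) (Rest.map bit) (org_not_mem_bits _)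
      (org_not_mem_bits _) (blank_not_mem_bits _)
  have e6 : Sym.org :: (A4 ++ Aa ++ Aw).map bit
      = [Sym.org] ++ A4.map bit ++ Aa.map bit ++ Aw.map bit := by simp
  rw [e6] at h6
  have s6 := onAux_4 h6 (cnt a) (cnt w) (cnt m) (cnt 0) (cnt 0)
  have h := s1.seq (s2.seq (s3.seq (s4.seq (s5.seq s6))))
  simp only [List.nil_append, List.append_nil] at h
  refine h.mono ?_
  simp only [List.length_map, List.length_append, h4, ha, hw, hr]
  omega

/-- The pass.  Tapes: input, output, `a`, `w`, `m`, three scratch tapes. -/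
noncomputable def reducePass : Frag Sym 8 := pass slotBody

theorem runsLE_reducePass (a w m K : ℕ) (hK : 1 ≤ K) (hm : 4 ≤ m) (haw : a + w ≤ m)
    (l : List Bool) (hl : l.length = K * (12 * m)) :
    RunsLE reducePass
      ![zt [] (Sym.org :: l.map bit), zt [] [Sym.org], cnt a, cnt w, cnt m, cnt 0, cnt 0, cnt 0]
      (21 * l.length)
      ![zt [] (Sym.org :: l.map bit), zt [] (Sym.org :: (reduceSlots a w m l).map bit),
        cnt a, cnt w, cnt m, cnt 0, cnt 0, cnt 0] := by
  have hlen : ∀ j, j < K → (chunk (12 * m) l j).length = 12 * m :=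
    fun j hj => length_chunk_of_lt K (12 * m) l hl j hj
  have key := runsLE_pass (body := slotBody) K (fun j => (chunk (12 * m) l j).map bit)
    (fun j => (((bitsLE (m + 4) (accVal m (chunk (12 * m) l j))).drop (a + 4)).take w).map bit)
    (fun _ => ![cnt a, cnt w, cnt m, cnt 0, cnt 0, cnt 0]) (fun _ => 124 * m + 360) ?_ ?_
  · have e1 : cat K (fun j => (chunk (12 * m) l j).map bit) = l.map bit := by
      rw [← map_cat, cat_chunk K (12 * m) l hl]
    have e2 : cat K (fun j =>
        (((bitsLE (m + 4) (accVal m (chunk (12 * m) l j))).drop (a + 4)).take w).map bit)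
        = (reduceSlots a w m l).map bit := by
      rw [← map_cat]
      unfold reduceSlots
      rw [mapChunks_eq_cat K (12 * m) (by omega) _ l hl]
    have e3 : ((reduceSlots a w m l).map bit).length = K * w := by
      rw [← e2]
      apply length_cat
      intro j _
      simp
      omega
    rw [e1, e2, e3, List.length_map, hl] at key
    rw [hl]
    refine RunsLE.mono key ?_
    simp only [Finset.sum_const, Finset.card_range, smul_eq_mul]
    have h1 : K * w ≤ K * m := Nat.mul_le_mul_left K (by omega)
    have h2 : K * 4 ≤ K * m := Nat.mul_le_mul_left K hm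
    have e4 : K * (124 * m + 360) = 124 * (K * m) + 360 * K := by ring
    have e5 : K * (12 * m) = 12 * (K * m) := by ring
    rw [e4, e5]
    omega
  · intro j hj
    refine ⟨?_, isData_map_bit _, isData_map_bit _⟩
    intro h0
    have := hlen j hj
    have h1 : (chunk (12 * m) l j).length = 0 := by
      have := congrArg List.length h0
      simpa using this
    omega
  · intro j hj
    exact stream_slotBody a w m haw _ (hlen j hj)

end Frag
end Vale.Agent.P338
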