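import Vale.Agent.P338.TM.SwapPlace3
import Vale.Agent.P338.TM.PassReduce

/-!
TASK T14.  The swap program and its specification.
-/

set_option linter.unusedSimpArgs false

namespace Vale.Agent.P338
open Frag Matrix

theorem reduce_place {W : World} (σ : OS) (D E1 E3 : List Bool) (f R N : ℕ) (haρ : σ.a ≤ σ.ρ)
    (hl : E1.length = R * (12 * (4 * 2 ^ σ.ρ))) (hR : 1 ≤ R) (hN : E1.length ≤ N) :
    W.Does (W.emb (lift ![3, 4, 7, 10, 12, 21, 22, 23] reducePass))
      (bst σ true D E1 [] E3 f) (100 * N)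
      (bst σ true D E1 (reduceSlots σ.a (2 ^ σ.ρ) (4 * 2 ^ σ.ρ) E1) E3 f) := by
  have hw : 0 < 2 ^ σ.ρ := Nat.two_pow_pos _
  have haw : σ.a + 2 ^ σ.ρ ≤ 4 * 2 ^ σ.ρ := by
    have : σ.ρ < 2 ^ σ.ρ := Nat.lt_two_pow_self
    omega
  have h := runsLE_reducePass σ.a (2 ^ σ.ρ) (4 * 2 ^ σ.ρ) R hR (by omega) haw E1 hl
  refine (World.Does.place (by decide) h _ _ ?_ ?_ ?_).mono ?_
  · simp [Fin.forall_fin_succ, bst, dat]
  · simp [Fin.forall_fin_succ, bst, dat]
  · intro c hc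
    exact bst_vec_congr σ _ _ _ _ _ _ _ _ _ _ _ _ c (fun _ => rfl) (fun _ => rfl)
      (fun h => absurd h.symm (hc 1)) (fun _ => rfl) (fun _ => rfl) (fun _ => rfl)
  · omega

/-- The operations of the swap program: the passes placed on the own tapes. -/
noncomputable def swapOps (W : World) : SwapOps W where
  C := 300
  setup := W.emb (lift ![7, 8, 9, 10, 11, 12, 13, 14, 21, 22, 23, 24] setupP)
  teardown := W.emb (lift ![7, 8, 9, 10, 11, 12, 13, 14, 21, 22, 23, 24] teardownP)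
  rotF := W.emb (lift ![2, 3, 9, 10, 21, 22, 23, 24, 25, 26] (rotPass false))
  rotT := W.emb (lift ![4, 3, 9, 10, 21, 22, 23, 24, 25, 26] (rotPass true))
  pad := W.emb (lift ![3, 4, 10, 14, 21] padPass)
  shiftCH := W.emb (lift ![4, 3, 9, 21, 22, 23, 24, 25, 26, 27, 28, 11, 29, 30] (shiftPass false))
  shiftB := W.emb (lift ![4, 3, 9, 21, 22, 23, 24, 25, 26, 27, 28, 11, 29, 30] (shiftPass true))
  padRows := W.emb (lift ![3, 4, 9, 13, 21, 22, 23, 24] padRowsPass)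
  kernel := W.emb (lift ![4, 5, 9, 11, 21, 22, 23, 24, 25, 26, 27, 28, 29, 30] kernelPass)
  selRows := W.emb (lift ![3, 4, 9, 13, 21, 22, 23, 24, 25, 26] selRowsPass)
  reduce := W.emb (lift ![3, 4, 7, 10, 12, 21, 22, 23] reducePass)
  er1 := W.emb (lift ![3] eraseTape)
  er2 := W.emb (lift ![4] eraseTape)
  er3 := W.emb (lift ![5] eraseTape)
  zflag := W.emb (lift ![15] zero)
  moveD := seq (W.emb (lift ![2] eraseTape)) (W.emb (lift ![3, 2] moveTape))
  classic := W.emb (lift ![2, 3, 7, 8, 21, 22, 23, 24, 25, 26, 27, 28, 29] classPass)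
  setup_spec := fun σ D E1 E2 E3 f N h1 h2 => setup_place σ D E1 E2 E3 f N h1 h2
  teardown_spec := fun σ D E1 E2 E3 f N h1 h2 => teardown_place σ D E1 E2 E3 f N h1 h2
  rotF_spec := fun σ D E2 E3 f K N h1 h2 h3 => (rotF_place σ D E2 E3 f K N h1 h2 h3).mono (by omega)
  rotT_spec := fun σ D E2 E3 f K N h1 h2 h3 => (rotT_place σ D E2 E3 f K N h1 h2 h3).mono (by omega)
  pad_spec := fun σ D E1 E3 f R N h1 h2 h3 => (pad_place σ D E1 E3 f R N h1 h2 h3).mono (by omega)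
  shiftCH_spec := fun σ D E2 E3 f K N _ h2 h3 h4 h5 =>
    (shift_place false σ D E2 E3 f K N h2 h3 h5 (by
      have : 0 < K * (2 ^ σ.a * 2 ^ σ.a * (12 * (4 * 2 ^ σ.ρ))) := Nat.mul_pos h4 (by positivity)
      omega)).mono (by omega)
  shiftB_spec := fun σ D E2 E3 f K N _ h2 h3 h4 h5 =>
    (shift_place true σ D E2 E3 f K N h2 h3 h5 (by
      have : 0 < K * (2 ^ σ.a * 2 ^ σ.a * (12 * (4 * 2 ^ σ.ρ))) := Nat.mul_pos h4 (by positivity)
      omega)).mono (by omega)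
  padRows_spec := fun σ D E1 E3 f K N h1 h2 h3 =>
    (padRows_place σ D E1 E3 f K N h1 h2 h3).mono (by omega)
  kernel_spec := fun σ D E1 E2 f K N h1 h2 h3 h4 h5 =>
    (kernel_place σ D E1 E2 f K N h1 h2 h3 h4 h5).mono (by omega)
  selRows_spec := fun σ D E1 E3 f K N h1 h2 h3 =>
    (selRows_place σ D E1 E3 f K N h1 h2 h3).mono (by omega)
  reduce_spec := fun σ D E1 E3 f R N h1 h2 h3 h4 =>
    (reduce_place σ D E1 E3 f R N h1 h2 h3 h4).mono (by omega)
  er1_spec := fun σ on D E1 E2 E3 f N h1 h2 => (er1_place σ on D E1 E2 E3 f N h1 h2).mono (by omega)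
  er2_spec := fun σ on D E1 E2 E3 f N h1 h2 => (er2_place σ on D E1 E2 E3 f N h1 h2).mono (by omega)
  er3_spec := fun σ on D E1 E2 E3 f N h1 h2 => (er3_place σ on D E1 E2 E3 f N h1 h2).mono (by omega)
  zflag_spec := fun σ on D E1 E2 E3 N h1 => (zflag_place σ on D E1 E2 E3 N h1).mono (by omega)
  moveD_spec := fun σ on D E1 E2 E3 f N h1 h2 h3 =>
    (moveD_place σ on D E1 E2 E3 f N h1 h2 h3).mono (by omega)
  classic_spec := fun σ D K N h1 h2 h3 h4 => (classic_place σ D K N h1 h2 h3 h4).mono (by omega)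

/-- The swap program. -/
noncomputable def swapFrag (W : World) (MUL : Frag W.Γ W.K) : Frag W.Γ W.K := (swapOps W).prog MUL

theorem swapSpec_of_mulSpec (W : World) (MUL : Frag W.Γ W.K) (TA : ℕ → ℕ) (Cm : ℕ)
    (h : MulSpec W MUL TA Cm) : ∃ Cs, SwapSpec W (swapFrag W MUL) TA Cs :=
  ⟨_, swapSpec_core (swapOps W) MUL TA Cm h⟩

end Vale.Agent.P338
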