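import Vale.Agent.P338.TM.Spec

/-!
TASK L0.  Basic lemmas about `cat`, `chunk`, `mapChunks`, `reindex`, `valLE`, `bitsLE`.
Everybody imports this file: keep the statements, all proofs are complete; add more lemmas at the end.
-/

namespace Vale.Agent.P338

variable {α β : Type}

@[simp] theorem cat_zero (f : ℕ → List α) : cat 0 f = [] := by simp [cat]

theorem cat_succ (n : ℕ) (f : ℕ → List α) : cat (n + 1) f = cat n f ++ f n := by
  simp [cat, List.range_succ]

theorem cat_succ' (n : ℕ) (f : ℕ → List α) : cat (n + 1) f = f 0 ++ cat n (fun j => f (j + 1)) := by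
  induction n with
  | zero => simp [cat_succ]
  | succ n ih => rw [cat_succ, ih, cat_succ, List.append_assoc]

theorem cat_add (a b : ℕ) (f : ℕ → List α) : cat (a + b) f = cat a f ++ cat b (fun j => f (a + j)) := by
  induction b with
  | zero => simp
  | succ b ih => rw [← Nat.add_assoc, cat_succ, ih, cat_succ, List.append_assoc]

theorem cat_congr {n : ℕ} {f g : ℕ → List α} (h : ∀ j, j < n → f j = g j) : cat n f = cat n g := by
  induction n with
  | zero => simp
  | succ n ih =>
    rw [cat_succ, cat_succ, ih (fun j hj => h j (Nat.lt_succ_of_lt hj)), h n (Nat.lt_succ_self n)]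

theorem length_cat (n L : ℕ) (f : ℕ → List α) (h : ∀ j, j < n → (f j).length = L) :
    (cat n f).length = n * L := by
  induction n with
  | zero => simp
  | succ n ih =>
    rw [cat_succ, List.length_append, ih (fun j hj => h j (Nat.lt_succ_of_lt hj)),
      h n (Nat.lt_succ_self n), Nat.succ_mul]

theorem map_cat (e : α → β) (n : ℕ) (f : ℕ → List α) :
    (cat n f).map e = cat n (fun j => (f j).map e) := by
  induction n with
  | zero => simp
  | succ n ih => rw [cat_succ, cat_succ, List.map_append, ih]

/-- `cat` of `cat`: rows of `b` blocks. -/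
theorem cat_cat (a b : ℕ) (f : ℕ → List α) :
    cat a (fun i => cat b (fun j => f (i * b + j))) = cat (a * b) f := by
  induction a with
  | zero => simp
  | succ a ih => rw [cat_succ, ih, Nat.succ_mul, cat_add]

theorem cat_replicate (n L : ℕ) (z : α) :
    cat n (fun _ => List.replicate L z) = List.replicate (n * L) z := by
  induction n with
  | zero => simp
  | succ n ih => rw [cat_succ, ih, Nat.succ_mul, List.replicate_add]

theorem mem_cat {n : ℕ} {f : ℕ → List α} {x : α} : x ∈ cat n f ↔ ∃ j, j < n ∧ x ∈ f j := by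
  simp [cat, List.mem_flatMap, List.mem_range]

theorem length_chunk (L : ℕ) (l : List α) (j : ℕ) (h : (j + 1) * L ≤ l.length) :
    (chunk L l j).length = L := by
  rw [Nat.succ_mul] at h
  simp only [chunk, List.length_take, List.length_drop]
  omega

theorem chunk_cat (n L : ℕ) (f : ℕ → List α) (h : ∀ j, j < n → (f j).length = L) (j : ℕ)
    (hj : j < n) : chunk L (cat n f) j = f j := by
  obtain ⟨k, rfl⟩ : ∃ k, n = j + (k + 1) := ⟨n - j - 1, by omega⟩
  have h1 : (cat j f).length = j * L := length_cat j L f (fun i hi => h i (by omega))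
  rw [cat_add, cat_succ', chunk, List.drop_append_of_le_length (by omega), ← h1, List.drop_length,
    List.nil_append, Nat.add_zero, ← h j hj, List.take_left]

theorem chunk_succ (L : ℕ) (l : List α) (j : ℕ) : chunk L l (j + 1) = chunk L (l.drop L) j := by
  simp only [chunk, List.drop_drop, Nat.succ_mul]
  rw [Nat.add_comm]

theorem cat_chunk (n L : ℕ) (l : List α) (h : l.length = n * L) : cat n (chunk L l) = l := by
  induction n generalizing l with
  | zero =>
    simp only [Nat.zero_mul, List.length_eq_zero_iff] at h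
    simp [h]
  | succ n ih =>
    rw [cat_succ']
    have h2 : (l.drop L).length = n * L := by
      rw [List.length_drop, h, Nat.succ_mul]; omega
    have h3 : cat n (fun j => chunk L l (j + 1)) = cat n (chunk L (l.drop L)) :=
      cat_congr (fun j _ => chunk_succ L l j)
    rw [h3, ih _ h2]
    simp [chunk]

/-- A chunk of a chunk. -/
theorem chunk_chunk (L b : ℕ) (l : List α) (i j : ℕ) (hj : j < b) :
    chunk L (chunk (b * L) l i) j = chunk L l (i * b + j) := by
  obtain ⟨k, rfl⟩ : ∃ k, b = j + 1 + k := ⟨b - j - 1, by omega⟩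
  simp only [chunk, List.drop_take, List.take_take, List.drop_drop]
  have h1 : min L ((j + 1 + k) * L - j * L) = L := by
    have : (j + 1 + k) * L = j * L + L + k * L := by ring
    omega
  have h2 : i * ((j + 1 + k) * L) + j * L = (i * (j + 1 + k) + j) * L := by ring
  rw [h1, h2]

theorem map_chunk (e : α → β) (L : ℕ) (l : List α) (j : ℕ) :
    (chunk L l j).map e = chunk L (l.map e) j := by
  simp [chunk, List.map_take, List.map_drop]

theorem mapChunks_cat (n L : ℕ) (hL : 0 < L) (F : ℕ → List α → List α) (f : ℕ → List α)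
    (h : ∀ j, j < n → (f j).length = L) :
    mapChunks L F (cat n f) = cat n (fun j => F j (f j)) := by
  rw [mapChunks, length_cat n L f h, Nat.mul_div_cancel _ hL]
  exact cat_congr (fun j hj => by rw [chunk_cat n L f h j hj])

theorem reindex_cat (n L : ℕ) (hL : 0 < L) (π : ℕ → ℕ) (f : ℕ → List α)
    (h : ∀ j, j < n → (f j).length = L) (hπ : ∀ j, j < n → π j < n) :
    reindex L π (cat n f) = cat n (fun j => f (π j)) := by
  rw [reindex, length_cat n L f h, Nat.mul_div_cancel _ hL]
  exact cat_congr (fun j hj => by rw [chunk_cat n L f h _ (hπ j hj)])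

theorem length_chunk_of_lt (n L : ℕ) (l : List α) (h : l.length = n * L) (j : ℕ) (hj : j < n) :
    (chunk L l j).length = L := by
  apply length_chunk
  rw [h]
  exact Nat.mul_le_mul_right L hj

theorem length_mapChunks (n L L' : ℕ) (hL : 0 < L) (F : ℕ → List α → List α) (l : List α)
    (h : l.length = n * L) (hF : ∀ j c, j < n → c.length = L → (F j c).length = L') :
    (mapChunks L F l).length = n * L' := by
  rw [mapChunks, h, Nat.mul_div_cancel _ hL]
  exact length_cat n L' _ (fun j hj => hF j _ hj (length_chunk_of_lt n L l h j hj))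

theorem length_reindex (n L : ℕ) (hL : 0 < L) (π : ℕ → ℕ) (l : List α) (h : l.length = n * L)
    (hπ : ∀ j, j < n → π j < n) : (reindex L π l).length = n * L := by
  rw [reindex, h, Nat.mul_div_cancel _ hL]
  exact length_cat n L _ (fun j hj => length_chunk_of_lt n L l h _ (hπ j hj))

/-- Naturality of `mapChunks`. -/
theorem map_mapChunks (e : α → β) (L : ℕ) (F : ℕ → List α → List α) (G : ℕ → List β → List β)
    (h : ∀ j c, (F j c).map e = G j (c.map e)) (l : List α) :
    (mapChunks L F l).map e = mapChunks L G (l.map e) := by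
  rw [mapChunks, mapChunks, map_cat, List.length_map]
  exact cat_congr (fun j _ => by rw [h, map_chunk])

theorem map_reindex (e : α → β) (L : ℕ) (π : ℕ → ℕ) (l : List α) :
    (reindex L π l).map e = reindex L π (l.map e) := by
  rw [reindex, reindex, map_cat, List.length_map]
  exact cat_congr (fun j _ => by rw [map_chunk])

theorem reindex_eq_cat (n L : ℕ) (hL : 0 < L) (π : ℕ → ℕ) (l : List α) (h : l.length = n * L) :
    reindex L π l = cat n (fun j => chunk L l (π j)) := by
  rw [reindex, h, Nat.mul_div_cancel _ hL]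

theorem mapChunks_eq_cat (n L : ℕ) (hL : 0 < L) (F : ℕ → List α → List α) (l : List α)
    (h : l.length = n * L) : mapChunks L F l = cat n (fun j => F j (chunk L l j)) := by
  rw [mapChunks, h, Nat.mul_div_cancel _ hL]

/-- Composition of reindexings. -/
theorem reindex_reindex (n L : ℕ) (hL : 0 < L) (π π' : ℕ → ℕ) (l : List α) (h : l.length = n * L)
    (hπ : ∀ j, j < n → π j < n) (hπ' : ∀ j, j < n → π' j < n) :
    reindex L π' (reindex L π l) = reindex L (fun j => π (π' j)) l := by
  rw [reindex_eq_cat n L hL π l h, reindex_eq_cat n L hL _ l h,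
    reindex_cat n L hL π' _ (fun j hj => length_chunk_of_lt n L l h _ (hπ j hj)) hπ']

/-- A reindexing of blocks of length `b * L` is a reindexing of blocks of length `L`. -/
theorem reindex_refine (L b : ℕ) (hb : 0 < b) (hL : 0 < L) (π : ℕ → ℕ) (n : ℕ) (l : List α)
    (h : l.length = n * (b * L)) (hπ : ∀ j, j < n → π j < n) :
    reindex (b * L) π l = reindex L (fun j => π (j / b) * b + j % b) l := by
  have h' : l.length = (n * b) * L := by rw [h, Nat.mul_assoc]
  rw [reindex_eq_cat n (b * L) (Nat.mul_pos hb hL) π l h, reindex_eq_cat (n * b) L hL _ l h',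
    ← cat_cat]
  refine cat_congr (fun i hi => ?_)
  have h1 : (chunk (b * L) l (π i)).length = b * L := length_chunk_of_lt n (b * L) l h _ (hπ i hi)
  rw [← cat_chunk b L _ h1]
  refine cat_congr (fun j hj => ?_)
  have h2 : (i * b + j) / b = i := by
    rw [Nat.mul_comm, Nat.mul_add_div hb, Nat.div_eq_of_lt hj, Nat.add_zero]
  have h3 : (i * b + j) % b = j := by
    rw [Nat.mul_comm, Nat.mul_add_mod, Nat.mod_eq_of_lt hj]
  rw [chunk_chunk L b l _ j hj, h2, h3]

theorem reindex_congr (n L : ℕ) (hL : 0 < L) (π π' : ℕ → ℕ) (l : List α) (h : l.length = n * L)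
    (hπ : ∀ j, j < n → π j = π' j) : reindex L π l = reindex L π' l := by
  rw [reindex_eq_cat n L hL π l h, reindex_eq_cat n L hL π' l h]
  exact cat_congr (fun j hj => by rw [hπ j hj])

theorem reindex_id (n L : ℕ) (hL : 0 < L) (π : ℕ → ℕ) (l : List α) (h : l.length = n * L)
    (hπ : ∀ j, j < n → π j = j) : reindex L π l = l := by
  rw [reindex_eq_cat n L hL π l h]
  conv_rhs => rw [← cat_chunk n L l h]
  exact cat_congr (fun j hj => by rw [hπ j hj])

/-! ### Numbers -/

@[simp] theorem length_bitsLE (len x : ℕ) : (bitsLE len x).length = len := by simp [bitsLE]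

theorem valLE_lt (l : List Bool) : valLE l < 2 ^ l.length := by
  induction l with
  | nil => simp [valLE]
  | cons b l ih =>
    simp only [valLE, List.length_cons, pow_succ]
    cases b <;> simp <;> omega

theorem valLE_append (l l' : List Bool) : valLE (l ++ l') = valLE l + 2 ^ l.length * valLE l' := by
  induction l with
  | nil => simp [valLE]
  | cons b l ih =>
    simp only [List.cons_append, valLE, List.length_cons, ih, pow_succ]
    ring

@[simp] theorem valLE_replicate_false (k : ℕ) : valLE (List.replicate k false) = 0 := by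
  induction k with
  | zero => simp [valLE]
  | succ k ih => simp [List.replicate_succ, valLE, ih]

theorem bitsLE_succ' (len x : ℕ) : bitsLE (len + 1) x = x.testBit 0 :: bitsLE len (x / 2) := by
  simp only [bitsLE, List.range_succ_eq_map, List.map_cons, List.map_map]
  congr 1
  apply List.map_congr_left
  intro i _
  simp [Nat.testBit_succ]

theorem valLE_bitsLE (len x : ℕ) : valLE (bitsLE len x) = x % 2 ^ len := by
  induction len generalizing x with
  | zero => simp [bitsLE, valLE, Nat.mod_one]
  | succ len ih =>
    rw [bitsLE_succ', valLE, ih, pow_succ', Nat.mod_mul, Nat.testBit_zero]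
    congr 1
    rcases Nat.mod_two_eq_zero_or_one x with h | h <;> simp [h]

theorem bitsLE_valLE (l : List Bool) : bitsLE l.length (valLE l) = l := by
  induction l with
  | nil => simp [bitsLE]
  | cons b l ih =>
    rw [List.length_cons, bitsLE_succ', valLE]
    have h1 : (b.toNat + 2 * valLE l) / 2 = valLE l := by
      cases b
      · simp
      · simp only [Bool.toNat_true]
        omega
    have h2 : (b.toNat + 2 * valLE l).testBit 0 = b := by
      rw [Nat.testBit_zero]
      cases b <;> simp
    rw [h1, h2, ih]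

theorem bitsLE_mod (len x : ℕ) : bitsLE len (x % 2 ^ len) = bitsLE len x := by
  apply List.map_congr_left
  intro i hi
  rw [List.mem_range] at hi
  simp [Nat.testBit_mod_two_pow, hi]

theorem bitsLE_add (a b x : ℕ) : bitsLE (a + b) x = bitsLE a x ++ bitsLE b (x / 2 ^ a) := by
  simp only [bitsLE, List.range_add, List.map_append, List.map_map]
  congr 1
  apply List.map_congr_left
  intro i _
  simp [Nat.testBit_div_two_pow, Nat.add_comm]

theorem take_bitsLE (a b x : ℕ) (h : a ≤ b) : (bitsLE b x).take a = bitsLE a x := by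
  obtain ⟨c, rfl⟩ := Nat.exists_eq_add_of_le h
  rw [bitsLE_add]
  conv_lhs => rw [← length_bitsLE a x]
  rw [length_bitsLE]
  have := List.take_left (l₁ := bitsLE a x) (l₂ := bitsLE c (x / 2 ^ a))
  rwa [length_bitsLE] at this

theorem drop_bitsLE (a b x : ℕ) : (bitsLE (a + b) x).drop a = bitsLE b (x / 2 ^ a) := by
  rw [bitsLE_add]
  have := List.drop_left (l₁ := bitsLE a x) (l₂ := bitsLE b (x / 2 ^ a))
  rwa [length_bitsLE] at this

theorem bitsLE_zero_right (len : ℕ) : bitsLE len 0 = List.replicate len false := by
  apply List.ext_getElem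
  · simp
  · intro i h1 h2
    simp [bitsLE]

/-- Shifting: `e` zeros in front multiply by `2 ^ e`. -/
theorem bitsLE_shift (e len x : ℕ) :
    List.replicate e false ++ bitsLE len x = bitsLE (e + len) (x % 2 ^ len * 2 ^ e) := by
  rw [bitsLE_add, Nat.mul_div_cancel _ (Nat.two_pow_pos e), bitsLE_mod, ← bitsLE_mod e,
    Nat.mul_mod_left, bitsLE_zero_right]

theorem bitsLE_eq_append_zeros (a b x : ℕ) (h : x < 2 ^ a) :
    bitsLE (a + b) x = bitsLE a x ++ List.replicate b false := by
  rw [bitsLE_add, Nat.div_eq_of_lt h, bitsLE_zero_right]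

/-- Value of a sequence of slots. -/
theorem valLE_slots (s R : ℕ) (x : ℕ → ℕ) (h : ∀ r, r < R → x r < 2 ^ s) :
    valLE (cat R fun r => bitsLE s (x r)) = ∑ r ∈ Finset.range R, x r * 2 ^ (s * r) := by
  induction R with
  | zero => simp [valLE]
  | succ R ih =>
    rw [cat_succ, valLE_append, ih (fun r hr => h r (Nat.lt_succ_of_lt hr)), Finset.sum_range_succ,
      length_cat R s _ (fun j _ => length_bitsLE s _), valLE_bitsLE,
      Nat.mod_eq_of_lt (h R (Nat.lt_succ_self R)), Nat.mul_comm R s, Nat.mul_comm (2 ^ (s * R))]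

/-- Slots of a sum. -/
theorem bitsLE_slots (s R : ℕ) (x : ℕ → ℕ) (h : ∀ r, r < R → x r < 2 ^ s) (y : ℕ) :
    bitsLE (R * s) (∑ r ∈ Finset.range R, x r * 2 ^ (s * r) + 2 ^ (s * R) * y)
      = cat R fun r => bitsLE s (x r) := by
  have h1 : (cat R fun r => bitsLE s (x r)).length = R * s :=
    length_cat R s _ (fun j _ => length_bitsLE s _)
  rw [← bitsLE_mod, Nat.mul_comm s R, Nat.add_mul_mod_self_left, bitsLE_mod, Nat.mul_comm R s,
    ← valLE_slots s R x h, Nat.mul_comm s R]
  conv_lhs => rw [← h1]
  exact bitsLE_valLE _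

end Vale.Agent.P338
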