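import Vale.Agent.P338.TM.Stream

/-!
The global layout of the own tapes of the big machine (`OS`, `OS.vec`) and the abstract interface
(`World`) through which own-level fragments are run inside the big machine.
-/

namespace Vale.Agent.P338
open Frag Matrix

/-- Number of own tapes. -/
abbrev nOwn : ℕ := 45

/-- A data tape in rest position. -/
def dat (l : List Sym) : Tape Sym := zt [] (Sym.org :: l)

theorem dat_nil : dat [] = cnt 0 := rfl

/-- The state of the own tapes between two passes.  `inp`, `out` are the input and output tape of the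
machine (raw, no origin mark), `D E1 E2 E3 stk` hold data lists in rest position, the other fields are
counters; there are `24` scratch tapes, all `cnt 0`. -/
structure OS where
  inp : Tape Sym
  out : Tape Sym
  D : List Sym
  E1 : List Sym
  E2 : List Sym
  E3 : List Sym
  stk : List Sym
  a : ℕ
  ρ : ℕ
  n : ℕ
  w : ℕ
  g : ℕ
  m : ℕ
  s : ℕ
  z : ℕ
  flag : ℕ
  κ : ℕ
  u : ℕ
  v : ℕ
  h : ℕ
  e : ℕ

/-- Tape numbers: 0 inp, 1 out, 2 D, 3 E1, 4 E2, 5 E3, 6 stk, 7 a, 8 ρ, 9 n, 10 w, 11 g, 12 m, 13 s,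
14 z, 15 flag, 16 κ, 17 u, 18 v, 19 h, 20 e, 21-44 scratch. -/
def OS.vec (σ : OS) : Fin nOwn → Tape Sym := fun i =>
  match i.val with
  | 0 => σ.inp
  | 1 => σ.out
  | 2 => dat σ.D
  | 3 => dat σ.E1
  | 4 => dat σ.E2
  | 5 => dat σ.E3
  | 6 => dat σ.stk
  | 7 => cnt σ.a
  | 8 => cnt σ.ρ
  | 9 => cnt σ.n
  | 10 => cnt σ.w
  | 11 => cnt σ.g
  | 12 => cnt σ.m
  | 13 => cnt σ.s
  | 14 => cnt σ.z
  | 15 => cnt σ.flag
  | 16 => cnt σ.κ
  | 17 => cnt σ.u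
  | 18 => cnt σ.v
  | 19 => cnt σ.h
  | 20 => cnt σ.e
  | _ => cnt 0

@[simp] theorem OS.vec_0 (σ : OS) : σ.vec 0 = σ.inp := rfl
@[simp] theorem OS.vec_1 (σ : OS) : σ.vec 1 = σ.out := rfl
@[simp] theorem OS.vec_2 (σ : OS) : σ.vec 2 = dat σ.D := rfl
@[simp] theorem OS.vec_3 (σ : OS) : σ.vec 3 = dat σ.E1 := rfl
@[simp] theorem OS.vec_4 (σ : OS) : σ.vec 4 = dat σ.E2 := rfl
@[simp] theorem OS.vec_5 (σ : OS) : σ.vec 5 = dat σ.E3 := rfl
@[simp] theorem OS.vec_6 (σ : OS) : σ.vec 6 = dat σ.stk := rfl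
@[simp] theorem OS.vec_7 (σ : OS) : σ.vec 7 = cnt σ.a := rfl
@[simp] theorem OS.vec_8 (σ : OS) : σ.vec 8 = cnt σ.ρ := rfl
@[simp] theorem OS.vec_9 (σ : OS) : σ.vec 9 = cnt σ.n := rfl
@[simp] theorem OS.vec_10 (σ : OS) : σ.vec 10 = cnt σ.w := rfl
@[simp] theorem OS.vec_11 (σ : OS) : σ.vec 11 = cnt σ.g := rfl
@[simp] theorem OS.vec_12 (σ : OS) : σ.vec 12 = cnt σ.m := rfl
@[simp] theorem OS.vec_13 (σ : OS) : σ.vec 13 = cnt σ.s := rfl
@[simp] theorem OS.vec_14 (σ : OS) : σ.vec 14 = cnt σ.z := rfl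
@[simp] theorem OS.vec_15 (σ : OS) : σ.vec 15 = cnt σ.flag := rfl
@[simp] theorem OS.vec_16 (σ : OS) : σ.vec 16 = cnt σ.κ := rfl
@[simp] theorem OS.vec_17 (σ : OS) : σ.vec 17 = cnt σ.u := rfl
@[simp] theorem OS.vec_18 (σ : OS) : σ.vec 18 = cnt σ.v := rfl
@[simp] theorem OS.vec_19 (σ : OS) : σ.vec 19 = cnt σ.h := rfl
@[simp] theorem OS.vec_20 (σ : OS) : σ.vec 20 = cnt σ.e := rfl
@[simp] theorem OS.vec_21 (σ : OS) : σ.vec 21 = cnt 0 := rfl
@[simp] theorem OS.vec_22 (σ : OS) : σ.vec 22 = cnt 0 := rfl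
@[simp] theorem OS.vec_23 (σ : OS) : σ.vec 23 = cnt 0 := rfl
@[simp] theorem OS.vec_24 (σ : OS) : σ.vec 24 = cnt 0 := rfl
@[simp] theorem OS.vec_25 (σ : OS) : σ.vec 25 = cnt 0 := rfl
@[simp] theorem OS.vec_26 (σ : OS) : σ.vec 26 = cnt 0 := rfl
@[simp] theorem OS.vec_27 (σ : OS) : σ.vec 27 = cnt 0 := rfl
@[simp] theorem OS.vec_28 (σ : OS) : σ.vec 28 = cnt 0 := rfl
@[simp] theorem OS.vec_29 (σ : OS) : σ.vec 29 = cnt 0 := rfl
@[simp] theorem OS.vec_30 (σ : OS) : σ.vec 30 = cnt 0 := rfl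
@[simp] theorem OS.vec_31 (σ : OS) : σ.vec 31 = cnt 0 := rfl
@[simp] theorem OS.vec_32 (σ : OS) : σ.vec 32 = cnt 0 := rfl
@[simp] theorem OS.vec_33 (σ : OS) : σ.vec 33 = cnt 0 := rfl
@[simp] theorem OS.vec_34 (σ : OS) : σ.vec 34 = cnt 0 := rfl
@[simp] theorem OS.vec_35 (σ : OS) : σ.vec 35 = cnt 0 := rfl
@[simp] theorem OS.vec_36 (σ : OS) : σ.vec 36 = cnt 0 := rfl
@[simp] theorem OS.vec_37 (σ : OS) : σ.vec 37 = cnt 0 := rfl
@[simp] theorem OS.vec_38 (σ : OS) : σ.vec 38 = cnt 0 := rfl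
@[simp] theorem OS.vec_39 (σ : OS) : σ.vec 39 = cnt 0 := rfl
@[simp] theorem OS.vec_40 (σ : OS) : σ.vec 40 = cnt 0 := rfl
@[simp] theorem OS.vec_41 (σ : OS) : σ.vec 41 = cnt 0 := rfl
@[simp] theorem OS.vec_42 (σ : OS) : σ.vec 42 = cnt 0 := rfl
@[simp] theorem OS.vec_43 (σ : OS) : σ.vec 43 = cnt 0 := rfl
@[simp] theorem OS.vec_44 (σ : OS) : σ.vec 44 = cnt 0 := rfl

/-- The big machine seen from the own tapes. -/
structure World where
  Γ : Type
  K : ℕ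
  /-- global tapes when the own tapes are `T` and everything else is at rest -/
  G : (Fin nOwn → Tape Sym) → Fin K → Tape Γ
  /-- run an own-level fragment -/
  emb : Frag Sym nOwn → Frag Γ K
  /-- a test on the own scanned symbols -/
  cond : ((Fin nOwn → Sym) → Bool) → (Fin K → Γ) → Bool
  emb_spec : ∀ {F : Frag Sym nOwn} {T T' : Fin nOwn → Tape Sym} {b : ℕ},
    RunsLE F T b T' → RunsLE (emb F) (G T) b (G T')
  cond_spec : ∀ (c : (Fin nOwn → Sym) → Bool) (T : Fin nOwn → Tape Sym),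
    cond c (reads (G T)) = c (reads T)

namespace World
variable (W : World)

/-- `F` transforms the own state `σ` into `σ'` in at most `b` steps (everything else at rest before
and after). -/
def Does (F : Frag W.Γ W.K) (σ : OS) (b : ℕ) (σ' : OS) : Prop :=
  RunsLE F (W.G σ.vec) b (W.G σ'.vec)

variable {W}

theorem Does.mono {F : Frag W.Γ W.K} {σ σ' : OS} {b b' : ℕ} (h : W.Does F σ b σ') (hb : b ≤ b') :
    W.Does F σ b' σ' := RunsLE.mono h hb

theorem Does.seq {F G : Frag W.Γ W.K} {σ σ' σ'' : OS} {b b' : ℕ} (h : W.Does F σ b σ')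
    (h' : W.Does G σ' b' σ'') : W.Does (Frag.seq F G) σ (b + b') σ'' := RunsLE.seq h h'

theorem Does.emb {F : Frag Sym nOwn} {σ σ' : OS} {b : ℕ} (h : RunsLE F σ.vec b σ'.vec) :
    W.Does (W.emb F) σ b σ' := W.emb_spec h

/-- Run a small own-level fragment with its tapes placed at `ι`. -/
theorem Does.place {k : ℕ} {ι : Fin k → Fin nOwn} (hι : Function.Injective ι) {F : Frag Sym k}
    {T₀ T₀' : Fin k → Tape Sym} {b : ℕ} (h : RunsLE F T₀ b T₀') (σ σ' : OS)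
    (h0 : ∀ a, σ.vec (ι a) = T₀ a) (h1 : ∀ a, σ'.vec (ι a) = T₀' a)
    (h2 : ∀ c, (∀ a, ι a ≠ c) → σ'.vec c = σ.vec c) :
    W.Does (W.emb (Frag.lift ι F)) σ b σ' :=
  Does.emb (RunsLE.lift hι h _ _ h0 h1 h2)

theorem Does.ite_true {c : (Fin nOwn → Sym) → Bool} {F G : Frag W.Γ W.K} {σ σ' : OS} {b : ℕ}
    (hc : c (reads σ.vec) = true) (h : W.Does F σ b σ') :
    W.Does (Frag.ite (W.cond c) F G) σ (b + 1) σ' :=
  RunsLE.ite_true (by rw [W.cond_spec]; exact hc) h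

theorem Does.ite_false {c : (Fin nOwn → Sym) → Bool} {F G : Frag W.Γ W.K} {σ σ' : OS} {b : ℕ}
    (hc : c (reads σ.vec) = false) (h : W.Does G σ b σ') :
    W.Does (Frag.ite (W.cond c) F G) σ (b + 1) σ' :=
  RunsLE.ite_false (by rw [W.cond_spec]; exact hc) h

theorem Does.loop_false {c : (Fin nOwn → Sym) → Bool} {F : Frag W.Γ W.K} {σ : OS}
    (hc : c (reads σ.vec) = false) : W.Does (Frag.loop (W.cond c) F) σ 1 σ :=
  RunsLE.loop_false (by rw [W.cond_spec]; exact hc)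

theorem Does.loop_true {c : (Fin nOwn → Sym) → Bool} {F : Frag W.Γ W.K} {σ σ' σ'' : OS} {b b' : ℕ}
    (hc : c (reads σ.vec) = true) (h : W.Does F σ b σ')
    (h' : W.Does (Frag.loop (W.cond c) F) σ' b' σ'') :
    W.Does (Frag.loop (W.cond c) F) σ (b + b' + 1) σ'' :=
  RunsLE.loop_true (by rw [W.cond_spec]; exact hc) h h'

end World

end Vale.Agent.P338
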