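import Vale.Agent.P338.TM.SimDefs
import Vale.Agent.P338.TM.World

/-!
Mixed tape vectors `Fin.append small aT` (a few named tapes followed by the tapes of `A`), and the
concrete `World` of a multiplying machine `A`.
-/

namespace Vale.Agent.P338
open GB Frag Matrix

namespace Frag
variable {Γ : Type} {p q : ℕ}

theorem reads_append (S : Fin p → Tape Γ) (T : Fin q → Tape Γ) :
    reads (Fin.append S T) = Fin.append (reads S) (reads T) := by
  funext i
  refine Fin.addCases (fun j => ?_) (fun j => ?_) i <;> simp [reads]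

theorem acts_append (S : Fin p → Tape Γ) (T : Fin q → Tape Γ) (a : Fin p → Γ × Dir)
    (b : Fin q → Γ × Dir) :
    acts (Fin.append S T) (Fin.append a b) = Fin.append (acts S a) (acts T b) := by
  funext i
  refine Fin.addCases (fun j => ?_) (fun j => ?_) i <;> simp [acts]

/-- A fragment on the first `p` tapes. -/
noncomputable def onLeft (q : ℕ) (F : Frag Γ p) : Frag Γ (p + q) := lift (Fin.castAdd q) F

theorem RunsLE.onLeft {F : Frag Γ p} {S S' : Fin p → Tape Γ} {b : ℕ} (h : RunsLE F S b S')
    (T : Fin q → Tape Γ) : RunsLE (Frag.onLeft q F) (Fin.append S T) b (Fin.append S' T) := by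
  refine RunsLE.lift (Fin.castAdd_injective p q) h _ _ (fun a => by simp) (fun a => by simp) ?_
  intro c
  refine Fin.addCases (fun j hj => absurd rfl (hj j)) (fun j _ => by simp) c

/-- A fragment on the last `q` tapes. -/
noncomputable def onRight (p : ℕ) (F : Frag Γ q) : Frag Γ (p + q) := lift (Fin.natAdd p) F

theorem RunsLE.onRight {F : Frag Γ q} {T T' : Fin q → Tape Γ} {b : ℕ} (h : RunsLE F T b T')
    (S : Fin p → Tape Γ) : RunsLE (Frag.onRight p F) (Fin.append S T) b (Fin.append S T') := by
  refine RunsLE.lift (Fin.natAdd_injective q p) h _ _ (fun a => by simp) (fun a => by simp) ?_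
  intro c
  refine Fin.addCases (fun j _ => by simp) (fun j hj => absurd rfl (hj j)) c

/-- Index map: the first `p` tapes are placed at `ι`, the last `q` tapes stay the last `q` tapes. -/
def leftMap {P : ℕ} (q : ℕ) (ι : Fin p → Fin P) : Fin (p + q) → Fin (P + q) :=
  Fin.addCases (fun a => Fin.castAdd q (ι a)) (fun b => Fin.natAdd P b)

theorem leftMap_injective {P : ℕ} {ι : Fin p → Fin P} (hι : Function.Injective ι) :
    Function.Injective (leftMap q ι) := by
  intro x y
  refine Fin.addCases (fun a => ?_) (fun a => ?_) x <;> refine Fin.addCases (fun b => ?_) (fun b => ?_) y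
  · intro h
    simp only [leftMap, Fin.addCases_left] at h
    rw [hι (Fin.castAdd_injective _ _ h)]
  · intro h
    simp only [leftMap, Fin.addCases_left, Fin.addCases_right] at h
    have := congrArg Fin.val h
    simp at this
    omega
  · intro h
    simp only [leftMap, Fin.addCases_left, Fin.addCases_right] at h
    have := congrArg Fin.val h
    simp at this
    omega
  · intro h
    simp only [leftMap, Fin.addCases_right] at h
    rw [Fin.natAdd_injective _ _ h]

/-- Place the first `p` tapes of a fragment at the positions `ι` among `P` tapes. -/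
noncomputable def liftLeft {P : ℕ} (ι : Fin p → Fin P) (F : Frag Γ (p + q)) : Frag Γ (P + q) :=
  lift (leftMap q ι) F

theorem RunsLE.liftLeft {P : ℕ} {ι : Fin p → Fin P} (hι : Function.Injective ι) {F : Frag Γ (p + q)}
    {S S' : Fin p → Tape Γ} {R R' : Fin q → Tape Γ} {b : ℕ}
    (h : RunsLE F (Fin.append S R) b (Fin.append S' R')) (O O' : Fin P → Tape Γ)
    (h0 : ∀ a, O (ι a) = S a) (h1 : ∀ a, O' (ι a) = S' a)
    (h2 : ∀ c, (∀ a, ι a ≠ c) → O' c = O c) :
    RunsLE (Frag.liftLeft ι F) (Fin.append O R) b (Fin.append O' R') := by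
  refine RunsLE.lift (leftMap_injective hι) h _ _ ?_ ?_ ?_
  · intro a
    refine Fin.addCases (fun a => ?_) (fun a => ?_) a <;> simp [leftMap, h0]
  · intro a
    refine Fin.addCases (fun a => ?_) (fun a => ?_) a <;> simp [leftMap, h1]
  · intro c
    refine Fin.addCases (fun c hc => ?_) (fun c hc => ?_) c
    · simp only [Fin.append_left]
      exact h2 c fun a ha => hc (Fin.castAdd q a) (by simp [leftMap, ha])
    · exact absurd (by simp [leftMap]) (hc (Fin.natAdd p c))

end Frag

variable {kA : ℕ} (A : Machine kA)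

/-- Run an own-level fragment on some of the first `p` tapes. -/
noncomputable def ownP {k p : ℕ} (q : ℕ) (ι : Fin k → Fin p) (F : Frag Sym k) : Frag (GB A) (p + q) :=
  Frag.onLeft q (Frag.lift ι (Frag.mapΓ (own A) (unown A) F))

theorem runsLE_ownP {k p q : ℕ} {ι : Fin k → Fin p} (hι : Function.Injective ι) {F : Frag Sym k}
    {T₀ T₀' : Fin k → Tape Sym} {b : ℕ} (h : RunsLE F T₀ b T₀') (S S' : Fin p → Tape (GB A))
    (h0 : ∀ a, S (ι a) = ownT A (T₀ a)) (h1 : ∀ a, S' (ι a) = ownT A (T₀' a))
    (h2 : ∀ c, (∀ a, ι a ≠ c) → S' c = S c) (T : Fin q → Tape (GB A)) :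
    RunsLE (ownP A q ι F) (Fin.append S T) b (Fin.append S' T) :=
  RunsLE.onLeft (RunsLE.lift hι (RunsLE.mapΓ (e := own A) (p := unown A) (fun _ => rfl) h) _ _ h0 h1 h2) T

theorem ownT_read (t : Tape Sym) : (ownT A t).read = own A t.read := rfl

/-- The world of `A`: the own tapes, a register tape, the tapes of `A`. -/
noncomputable def worldOf : World where
  Γ := GB A
  K := nOwn + (kA + 1)
  G := fun T => Fin.append (fun j => ownT A (T j)) (fun _ => blankTape A)
  emb := fun F => Frag.onLeft (kA + 1) (Frag.mapΓ (own A) (unown A) F)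
  cond := fun c s => c fun j => unown A (s (Fin.castAdd (kA + 1) j))
  emb_spec := by
    intro F T T' b h
    exact RunsLE.onLeft (RunsLE.mapΓ (e := own A) (p := unown A) (fun _ => rfl) h) _
  cond_spec := by
    intro c T
    congr 1
    funext j
    simp [reads, ownT_read]

end Vale.Agent.P338
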