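import Mathlib

/-!
TASK M7.  The cost recursion of the algorithm and its asymptotic analysis.
`N` = length of the operands, `t` = worst-case time of the multiplier on operands of length `N`,
`κ` = current level.
-/

namespace Vale.Agent.P338

/-- Cost recursion: a level costs `C * (min t (κ * N) + N)`; the next level is `κ - κ / 2`. -/
def Wrec (C N t : ℕ) (κ : ℕ) : ℕ :=
  if h : κ < 2 then C * N
  else C * (min t (κ * N) + N) + Wrec C N t (κ - κ / 2)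
termination_by κ
decreasing_by omega

namespace Asym

/-- The next level. -/
def hf (k : ℕ) : ℕ := k - k / 2

theorem Wrec_lin (C N t : ℕ) : ∀ k, Wrec C N t k ≤ C * N * (6 * k + 1) := by
  intro k
  induction k using Nat.strong_induction_on with
  | _ k ih =>
    rw [Wrec]
    split_ifs with h
    · exact Nat.le_mul_of_pos_right _ (by omega)
    · have h1 := ih (k - k / 2) (by omega)
      have h2 : min t (k * N) ≤ k * N := min_le_right _ _
      have h3 : k + 1 + (6 * (k - k / 2) + 1) ≤ 6 * k + 1 := by omega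
      calc C * (min t (k * N) + N) + Wrec C N t (k - k / 2)
          ≤ C * (k * N + N) + C * N * (6 * (k - k / 2) + 1) :=
            add_le_add (Nat.mul_le_mul_left _ (by omega)) h1
        _ = C * N * (k + 1 + (6 * (k - k / 2) + 1)) := by ring
        _ ≤ C * N * (6 * k + 1) := Nat.mul_le_mul_left _ h3

theorem Wrec_unroll (C N t : ℕ) (l : ℕ) :
    ∀ k, Wrec C N t k ≤ l * (C * (t + N)) + C * N * (6 * hf^[l] k + 1) := by
  induction l with
  | zero =>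
    intro k
    simpa using Wrec_lin C N t k
  | succ l ih =>
    intro k
    rw [Function.iterate_succ_apply]
    by_cases h : k < 2
    · rw [Wrec, dif_pos h]
      calc C * N ≤ C * N * (6 * hf^[l] (hf k) + 1) := Nat.le_mul_of_pos_right _ (by omega)
        _ ≤ _ := Nat.le_add_left _ _
    · rw [Wrec, dif_neg h]
      have h1 := ih (k - k / 2)
      have h2 : min t (k * N) ≤ t := min_le_left _ _
      calc C * (min t (k * N) + N) + Wrec C N t (k - k / 2)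
          ≤ C * (t + N) + (l * (C * (t + N)) + C * N * (6 * hf^[l] (hf k) + 1)) :=
            add_le_add (Nat.mul_le_mul_left _ (by omega)) h1
        _ = (l + 1) * (C * (t + N)) + C * N * (6 * hf^[l] (hf k) + 1) := by ring

theorem hf_iter (l k : ℕ) : ((hf^[l] k : ℕ) : ℝ) - 1 ≤ ((k : ℝ) - 1) / 2 ^ l := by
  induction l with
  | zero => simp
  | succ l ih =>
    rw [Function.iterate_succ_apply']
    have h1 : ∀ m : ℕ, ((hf m : ℕ) : ℝ) - 1 ≤ ((m : ℝ) - 1) / 2 := by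
      intro m
      have h2 : 2 * hf m ≤ m + 1 := by
        unfold hf
        omega
      have h3 : (2 : ℝ) * (hf m : ℝ) ≤ m + 1 := by exact_mod_cast h2
      linarith
    calc ((hf (hf^[l] k) : ℕ) : ℝ) - 1 ≤ (((hf^[l] k : ℕ) : ℝ) - 1) / 2 := h1 _
      _ ≤ (((k : ℝ) - 1) / 2 ^ l) / 2 := by linarith
      _ = ((k : ℝ) - 1) / 2 ^ (l + 1) := by
        rw [pow_succ]
        field_simp

end Asym

open Asym in
/-- If the multiplier is fast (`t ≤ δ κ N`) then the whole recursion is cheap (`≤ ε κ N`). -/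
theorem Wrec_small (C : ℕ) (ε : ℝ) (hε : 0 < ε) :
    ∃ δ : ℝ, 0 < δ ∧ ∃ κ₁ : ℕ, ∀ κ : ℕ, κ₁ ≤ κ → ∀ N t : ℕ, (t : ℝ) ≤ δ * κ * N →
      (Wrec C N t κ : ℝ) ≤ ε * κ * N := by
  obtain ⟨l, hl⟩ : ∃ l : ℕ, 18 * (C : ℝ) / ε < 2 ^ l := pow_unbounded_of_one_lt _ one_lt_two
  have hC0 : (0 : ℝ) ≤ C := Nat.cast_nonneg C
  have hl0 : (0 : ℝ) ≤ l := Nat.cast_nonneg l
  have hden : (0 : ℝ) < 3 * ((C : ℝ) + 1) * ((l : ℝ) + 1) := by positivity
  refine ⟨ε / (3 * ((C : ℝ) + 1) * ((l : ℝ) + 1)), by positivity,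
    ⌈3 * (C : ℝ) * ((l : ℝ) + 7) / ε⌉₊, ?_⟩
  intro κ hκ N t ht
  set δ : ℝ := ε / (3 * ((C : ℝ) + 1) * ((l : ℝ) + 1)) with hδ
  have hκ0 : (0 : ℝ) ≤ κ := Nat.cast_nonneg κ
  have hN0 : (0 : ℝ) ≤ N := Nat.cast_nonneg N
  have h2l : (0 : ℝ) < 2 ^ l := by positivity
  have A1 : (l : ℝ) * C * δ ≤ ε / 3 := by
    rw [hδ, mul_div_assoc', div_le_iff₀ hden]
    have : (l : ℝ) * C ≤ ((C : ℝ) + 1) * ((l : ℝ) + 1) := by nlinarith
    nlinarith
  have A2 : 6 * (C : ℝ) / 2 ^ l ≤ ε / 3 := by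
    rw [div_lt_iff₀ hε] at hl
    rw [div_le_iff₀ h2l]
    linarith
  have A3 : (C : ℝ) * ((l : ℝ) + 7) ≤ ε / 3 * κ := by
    have h1 : 3 * (C : ℝ) * ((l : ℝ) + 7) / ε ≤ κ :=
      le_trans (Nat.le_ceil _) (by exact_mod_cast hκ)
    rw [div_le_iff₀ hε] at h1
    linarith
  have hW : (Wrec C N t κ : ℝ)
      ≤ (l : ℝ) * ((C : ℝ) * ((t : ℝ) + N)) + (C : ℝ) * N * (6 * ((hf^[l] κ : ℕ) : ℝ) + 1) := by
    exact_mod_cast Wrec_unroll C N t l κ
  have ha : ((hf^[l] κ : ℕ) : ℝ) ≤ (κ : ℝ) / 2 ^ l + 1 := by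
    have h1 := hf_iter l κ
    have h2 : ((κ : ℝ) - 1) / 2 ^ l ≤ (κ : ℝ) / 2 ^ l :=
      div_le_div_of_nonneg_right (by linarith) h2l.le
    linarith
  have hκN : (0 : ℝ) ≤ (κ : ℝ) * N := mul_nonneg hκ0 hN0
  calc (Wrec C N t κ : ℝ)
      ≤ (l : ℝ) * ((C : ℝ) * ((t : ℝ) + N)) + (C : ℝ) * N * (6 * ((hf^[l] κ : ℕ) : ℝ) + 1) := hW
    _ ≤ (l : ℝ) * ((C : ℝ) * (δ * κ * N + N)) + (C : ℝ) * N * (6 * ((κ : ℝ) / 2 ^ l + 1) + 1) := by
        gcongr
    _ = ((l : ℝ) * C * δ) * (κ * N) + (6 * (C : ℝ) / 2 ^ l) * (κ * N)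
          + ((C : ℝ) * ((l : ℝ) + 7)) * N := by
        field_simp
        ring
    _ ≤ (ε / 3) * (κ * N) + (ε / 3) * (κ * N) + (ε / 3 * κ) * N := by
        gcongr
    _ = ε * κ * N := by ring

end Vale.Agent.P338
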