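import Vale.Agent.P338.TM.World
import Vale.Agent.P338.TM.MathAsym

/-!
Specifications of the upper layers (everything is stated in an abstract `World`).
-/

namespace Vale.Agent.P338
open Frag Matrix

/-- All work tapes and derived parameters are at rest. -/
def OS.Clean (σ : OS) : Prop :=
  σ.E1 = [] ∧ σ.E2 = [] ∧ σ.E3 = [] ∧ σ.n = 0 ∧ σ.w = 0 ∧ σ.g = 0 ∧ σ.m = 0 ∧ σ.s = 0 ∧ σ.z = 0 ∧
    σ.flag = 0 ∧ σ.h = 0 ∧ σ.e = 0

/-- Specification of the capped multiplication `MUL`: operands on `E2`, `E3` (equal lengths), cap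
`σ.a * length` steps of the multiplier.  Either the low half of the product is written on `E1` and the
flag is set, or nothing changes and the multiplier needs at least `σ.a * length` steps on some input of
this length.  `TA` is the worst-case running time of the multiplier. -/
def MulSpec (W : World) (MUL : Frag W.Γ W.K) (TA : ℕ → ℕ) (Cm : ℕ) : Prop :=
  ∀ (σ : OS) (X Y : List Bool), σ.E2 = X.map bit → σ.E3 = Y.map bit → σ.E1 = [] → σ.flag = 0 →
    Y.length = X.length → 1 ≤ X.length →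
    W.Does MUL σ (Cm * (min (TA X.length) (σ.a * X.length) + X.length))
        { σ with E1 := (multL X Y).map bit, flag := 1 } ∨
    (σ.a * X.length ≤ TA X.length ∧ W.Does MUL σ (Cm * (σ.a * X.length + X.length)) σ)

/-- Specification of the swap: `[x:a][y:a][rest:ρ] ↦ [y][x][rest]` on the data tape `D`. -/
def SwapSpec (W : World) (SWAP : Frag W.Γ W.K) (TA : ℕ → ℕ) (Cs : ℕ) : Prop :=
  ∀ (σ : OS) (l : List Bool) (K : ℕ), σ.D = l.map bit → l.length = K * (2 ^ σ.a * 2 ^ σ.a * 2 ^ σ.ρ) →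
    1 ≤ K → 1 ≤ σ.a → σ.a ≤ σ.ρ → σ.Clean →
    W.Does SWAP σ (Cs * (min (TA (144 * l.length)) (σ.a * (144 * l.length)) + 144 * l.length))
      { σ with D := (swapL (2 ^ σ.a) (2 ^ σ.ρ) l).map bit }

/-- Specification of the control: the recursion `algL` on the data tape. -/
def CtrlSpec (W : World) (CTRL : Frag W.Γ W.K) (TA : ℕ → ℕ) (Cc : ℕ) : Prop :=
  ∀ (σ : OS) (l : List Bool) (K : ℕ), σ.D = l.map bit → l.length = K * 4 ^ σ.κ → 1 ≤ K → σ.Clean →
    σ.a = 0 → σ.ρ = 0 → σ.u = 0 → σ.v = 0 → σ.stk = [] →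
    W.Does CTRL σ (Wrec Cc (144 * l.length) (TA (144 * l.length)) σ.κ)
      { σ with D := (algL σ.κ l).map bit }

/-- The own tapes at the very beginning: the input word on tape `0`, everything else blank. -/
def initOwn (l : List Sym) : Fin nOwn → Tape Sym := fun i => if i.val = 0 then tp l 0 else tp [] 0

/-- Specification of the whole program: for every `n ≥ 1` the `n × n` bit matrix `M` (row major) is
transposed onto tape `1` (from cell `0`); for `n = 2 ^ κ` the running time is bounded by the cost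
recursion. -/
def TopSpec (W : World) (TOP : Frag W.Γ W.K) (TA : ℕ → ℕ) (Ct : ℕ) : Prop :=
  ∀ (n : ℕ) (M : List Bool), 1 ≤ n → M.length = n * n →
    ∃ (b : ℕ) (T' : Fin nOwn → Tape Sym), RunsLE TOP (W.G (initOwn (M.map bit))) b (W.G T') ∧
      (∀ j, j < n * n → (T' 1).cells j = ((swapL n 1 M).map bit)[j]?.getD Sym.blank) ∧
      ∀ κ, n = 2 ^ κ → b ≤ Wrec Ct (144 * 4 ^ κ) (TA (144 * 4 ^ κ)) κ + Ct * 4 ^ κ

end Vale.Agent.P338
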