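import Vale.Agent.P338.Transpose
import Vale.Agent.P338.Bridge
import Vale.Agent.P338.TM.Mix
import Vale.Agent.P338.TM.SwapSpec
import Vale.Agent.P338.TM.ListLib

namespace Vale.Agent.P338
open GB Frag Matrix

/-- A fragment as a machine: the state `none` is the halting state. -/
def Frag.toMachine {Γ : Type} {k : ℕ} (F : Frag Γ k) (finΓ : Fintype Γ) (blank : Γ)
    (sym : Option Bool → Γ) (sym_inj : Function.Injective sym) (sym_ne : ∀ s, sym s ≠ blank)
    (out : Fin k) : Machine k where
  Γ := Γ
  Q := Option F.Q
  finΓ := finΓ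
  finQ := @instFintypeOption _ F.finQ
  blank := blank
  sym := sym
  sym_inj := sym_inj
  sym_ne_blank := sym_ne
  start := some F.start
  δ := fun q s =>
    match q with
    | none => none
    | some q => some ((F.δ q s).1, fun i => ((F.δ q s).2 i).1, fun i => ((F.δ q s).2 i).2)
  out := out

section generic
variable {Γ : Type} {k : ℕ} (F : Frag Γ k) (finΓ : Fintype Γ) (blank : Γ)
    (sym : Option Bool → Γ) (sym_inj : Function.Injective sym) (sym_ne : ∀ s, sym s ≠ blank)
    (out : Fin k)

/-- Configuration of the machine from a state and a tape vector. -/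
def cfgOf (q : Option F.Q) (T : Fin k → Tape Γ) :
    Cfg (F.toMachine finΓ blank sym sym_inj sym_ne out) :=
  ⟨q, fun i => (T i).cells, fun i => (T i).head⟩

theorem step_cfgOf_some (q : F.Q) (T : Fin k → Tape Γ) :
    step _ (cfgOf F finΓ blank sym sym_inj sym_ne out (some q) T)
      = some (cfgOf F finΓ blank sym sym_inj sym_ne out (F.δ q (reads T)).1
          (acts T (F.δ q (reads T)).2)) := rfl

theorem step_cfgOf_none (T : Fin k → Tape Γ) :
    step _ (cfgOf F finΓ blank sym sym_inj sym_ne out none T) = none := rfl

theorem iter_of_reach {q : F.Q} {T T' : Fin k → Tape Γ} {t : ℕ} (h : Reach F q T t T') :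
    iter _ t (cfgOf F finΓ blank sym sym_inj sym_ne out (some q) T)
      = some (cfgOf F finΓ blank sym sym_inj sym_ne out none T') := by
  induction h with
  | exit h =>
    simp only [iter, step_cfgOf_some, h]
    rfl
  | step h _ ih =>
    simp only [iter, step_cfgOf_some, h]
    exact ih

theorem haltsAt_of_runs {T T' : Fin k → Tape Γ} {t : ℕ} (h : Runs F T t T') :
    HaltsAt _ (cfgOf F finΓ blank sym sym_inj sym_ne out (some F.start) T) t
      (cfgOf F finΓ blank sym sym_inj sym_ne out none T') :=
  ⟨iter_of_reach F finΓ blank sym sym_inj sym_ne out h, rfl⟩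

end generic

theorem getElem?_chunk_one {α : Type} (l : List α) (j : ℕ) : (chunk 1 l j)[0]? = l[j]? := by
  simp [chunk, List.getElem?_drop]

theorem getElem?_reindex_one {α : Type} (π : ℕ → ℕ) (l : List α) (p : ℕ) (hp : p < l.length)
    (hπ : ∀ j, j < l.length → π j < l.length) : (reindex 1 π l)[p]? = l[π p]? := by
  rw [← getElem?_chunk_one, reindex_eq_cat l.length 1 one_pos π l (by simp),
    chunk_cat l.length 1 _ (fun j hj => length_chunk_of_lt l.length 1 l (by simp) _ (hπ j hj)) p hp,
    getElem?_chunk_one]

theorem getElem?_swapL_one {α : Type} (n : ℕ) (l : List α) (hl : l.length = n * n) (i j : ℕ)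
    (hi : i < n) (hj : j < n) : (swapL n 1 l)[j * n + i]? = l[i * n + j]? := by
  have hn : 0 < n := by omega
  have hlt : ∀ a b, a < n → b < n → a * n + b < n * n := by
    intro a b ha hb
    calc a * n + b < a * n + n := by omega
      _ = (a + 1) * n := by ring
      _ ≤ n * n := Nat.mul_le_mul_right _ ha
  unfold swapL
  rw [getElem?_reindex_one _ l _ (by rw [hl]; exact hlt j i hj hi)]
  · have h1 : (j * n + i) / (n * n) = 0 := Nat.div_eq_of_lt (hlt j i hj hi)
    have h2 : (j * n + i) % n = i := by
      rw [Nat.add_comm, Nat.add_mul_mod_self_right, Nat.mod_eq_of_lt hi]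
    have h3 : (j * n + i) / n = j := by
      rw [Nat.add_comm, Nat.add_mul_div_right _ _ hn, Nat.div_eq_of_lt hi, Nat.zero_add]
    rw [h1, h2, h3, Nat.mod_eq_of_lt hj]
    simp
  · intro p hp
    rw [hl] at hp ⊢
    rw [Nat.div_eq_of_lt hp, Nat.zero_mul, Nat.zero_add]
    exact hlt _ _ (Nat.mod_lt _ hn) (Nat.mod_lt _ hn)

/-- The symbols of the input and output alphabet inside `Sym`. -/
def symOf : Option Bool → Sym
  | some b => bit b
  | none => Sym.sep

theorem symOf_injective : Function.Injective symOf := by
  intro a b h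
  rcases a with _ | a <;> rcases b with _ | b <;> first | rfl | skip
  · cases b <;> simp [symOf, bit] at h
  · cases a <;> simp [symOf, bit] at h
  · cases a <;> cases b <;> first | rfl | simp [symOf, bit] at h

theorem symOf_ne_blank (s : Option Bool) : symOf s ≠ Sym.blank := by
  rcases s with _ | b
  · simp [symOf]
  · cases b <;> simp [symOf, bit]

section concrete
variable {kA : ℕ} (A : Machine kA) (TOP : Frag (GB A) (nOwn + (kA + 1)))

/-- The alphabet of the big machine is finite. -/
noncomputable def finGB : Fintype (GB A) :=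
  @instFintypeSum _ _ inferInstance
    (@instFintypeSum _ _ (@instFintypeProd _ _ A.finΓ inferInstance) A.finQ)

/-- The big machine. -/
noncomputable def bigMachine : Machine (nOwn + (kA + 1)) :=
  TOP.toMachine (finGB A) (own A Sym.blank) (fun s => own A (symOf s))
    (fun _ _ h => symOf_injective (Sum.inl_injective h))
    (fun s h => symOf_ne_blank s (Sum.inl_injective h))
    (Fin.castAdd (kA + 1) 1)

/-- The matrix as a list, row by row. -/
def matList {n : ℕ} (M : Fin n → Fin n → Bool) : List Bool :=
  List.ofFn fun p : Fin (n * n) =>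
    M ⟨p.val / n, Nat.div_lt_of_lt_mul p.2⟩
      ⟨p.val % n, Nat.mod_lt _ (Nat.pos_of_ne_zero fun e => by
        have := p.2
        subst e
        simp at this)⟩

theorem length_matList {n : ℕ} (M : Fin n → Fin n → Bool) : (matList M).length = n * n := by
  simp [matList]

theorem getElem?_matList {n : ℕ} (M : Fin n → Fin n → Bool) (i j : Fin n) :
    (matList M)[i.val * n + j.val]? = some (M i j) := by
  have hn : 0 < n := i.pos
  have hlt : i.val * n + j.val < n * n := by
    calc i.val * n + j.val < i.val * n + n := by have := j.2; omega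
      _ = (i.val + 1) * n := by ring
      _ ≤ n * n := Nat.mul_le_mul_right _ i.2
  unfold matList
  rw [List.getElem?_ofFn, dif_pos hlt]
  congr 2
  · apply Fin.ext
    show (i.val * n + j.val) / n = i.val
    rw [Nat.add_comm, Nat.add_mul_div_right _ _ hn, Nat.div_eq_of_lt j.2, Nat.zero_add]
  · apply Fin.ext
    show (i.val * n + j.val) % n = j.val
    rw [Nat.add_comm, Nat.add_mul_mod_self_right, Nat.mod_eq_of_lt j.2]

theorem initT_eq {n : ℕ} (M : Fin n → Fin n → Bool) :
    initT (bigMachine A TOP) M = cfgOf TOP (finGB A) (own A Sym.blank) (fun s => own A (symOf s))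
      (fun _ _ h => symOf_injective (Sum.inl_injective h))
      (fun s h => symOf_ne_blank s (Sum.inl_injective h))
      (Fin.castAdd (kA + 1) 1) (some TOP.start)
      ((worldOf A).G (initOwn ((matList M).map bit))) := by
  unfold initT cfgOf
  congr 1
  · funext i p
    show (if (i : ℕ) = 0 then matTape (bigMachine A TOP) M
        else fun _ => (bigMachine A TOP).blank) p
      = ((Fin.append (fun j => ownT A (initOwn ((matList M).map bit) j))
          (fun _ => blankTape A) : Fin (nOwn + (kA + 1)) → Tape (GB A)) i).cells p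
    by_cases hi : (i : ℕ) = 0
    · rw [if_pos hi]
      have e : i = Fin.castAdd (kA + 1) (0 : Fin nOwn) := Fin.ext hi
      rw [e, Fin.append_left]
      show matTape (bigMachine A TOP) M p = own A (((matList M).map bit)[p]?.getD Sym.blank)
      unfold matTape
      by_cases hp : p < n * n
      · rw [dif_pos hp]
        have : (matList M)[p]? = some (M ⟨p / n, Nat.div_lt_of_lt_mul hp⟩
            ⟨p % n, Nat.mod_lt _ (Nat.pos_of_ne_zero fun e => by subst e; simp at hp)⟩) := by
          unfold matList
          rw [List.getElem?_ofFn, dif_pos hp]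
        rw [List.getElem?_map, this]
        rfl
      · rw [dif_neg hp, List.getElem?_eq_none (by simp [length_matList]; omega)]
        rfl
    · rw [if_neg hi]
      revert hi
      refine Fin.addCases (fun j hj => ?_) (fun j _ => ?_) i
      · rw [Fin.append_left]
        have hj' : ¬ j.val = 0 := hj
        simp only [initOwn, if_neg hj']
        rfl
      · rw [Fin.append_right]
        rfl
  · funext i
    show 0 = ((Fin.append (fun j => ownT A (initOwn ((matList M).map bit) j))
          (fun _ => blankTape A) : Fin (nOwn + (kA + 1)) → Tape (GB A)) i).head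
    refine Fin.addCases (fun j => ?_) (fun j => ?_) i
    · rw [Fin.append_left]
      simp only [initOwn]
      split_ifs <;> rfl
    · rw [Fin.append_right]
      rfl

/-- Configurations of the big machine. -/
noncomputable def bigCfg (q : Option TOP.Q) (T : Fin (nOwn + (kA + 1)) → Tape (GB A)) :
    Cfg (bigMachine A TOP) :=
  cfgOf TOP (finGB A) (own A Sym.blank) (fun s => own A (symOf s))
    (fun _ _ h => symOf_injective (Sum.inl_injective h))
    (fun s h => symOf_ne_blank s (Sum.inl_injective h)) (Fin.castAdd (kA + 1) 1) q T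

theorem haltsAt_big {n : ℕ} (M : Fin n → Fin n → Bool) {t : ℕ}
    {T' : Fin (nOwn + (kA + 1)) → Tape (GB A)}
    (hr : Runs TOP ((worldOf A).G (initOwn ((matList M).map bit))) t T') :
    HaltsAt (bigMachine A TOP) (initT (bigMachine A TOP) M) t (bigCfg A TOP none T') := by
  rw [initT_eq]
  exact haltsAt_of_runs TOP _ _ _ _ _ _ hr

end concrete

/-- Main statement of F1. -/
theorem exists_transposer {kA : ℕ} (A : Machine kA) (TOP : Frag (worldOf A).Γ (worldOf A).K)
    (TA : ℕ → ℕ) (Ct : ℕ) (h : TopSpec (worldOf A) TOP TA Ct) :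
    ∃ B : Machine (nOwn + (kA + 1)), Transposes B ∧
      ∀ κ : ℕ, transTime B (2 ^ κ) ≤ Wrec Ct (144 * 4 ^ κ) (TA (144 * 4 ^ κ)) κ + Ct * 4 ^ κ := by
  refine ⟨bigMachine A TOP, ?_, ?_⟩
  · intro n hn M
    obtain ⟨b, T', ⟨t, _, hr⟩, hout, _⟩ := h n (matList M) hn (length_matList M)
    refine ⟨t, bigCfg A TOP none ((worldOf A).G T'), haltsAt_big A TOP M hr, ?_⟩
    intro i j
    have hlt : j.val * n + i.val < n * n := by
      calc j.val * n + i.val < j.val * n + n := by have := i.2; omega
        _ = (j.val + 1) * n := by ring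
        _ ≤ n * n := Nat.mul_le_mul_right _ j.2
    show ((Fin.append (fun j => ownT A (T' j)) (fun _ => blankTape A) :
        Fin (nOwn + (kA + 1)) → Tape (GB A)) (Fin.castAdd (kA + 1) 1)).cells (j.val * n + i.val)
      = own A (symOf (some (M i j)))
    rw [Fin.append_left]
    show own A ((T' 1).cells (j.val * n + i.val)) = own A (symOf (some (M i j)))
    rw [hout _ hlt, List.getElem?_map,
      getElem?_swapL_one n _ (length_matList M) i.val j.val i.2 j.2, getElem?_matList]
    rfl
  · intro κ
    refine Finset.sup_le fun M _ => ?_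
    obtain ⟨b, T', ⟨t, htb, hr⟩, _, hb⟩ := h (2 ^ κ) (matList M) Nat.one_le_two_pow (length_matList M)
    rw [haltTime_eq _ _ t _ (haltsAt_big A TOP M hr)]
    exact htb.trans (hb κ rfl)

end Vale.Agent.P338
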