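import Vale.Agent.P338.TM.ListLib

/-!
TASK M8.  Naturality: the structural passes commute with `List.map`.
-/

namespace Vale.Agent.P338

variable {α β : Type} (e : α → β)

theorem map_swapL (n w : ℕ) (l : List α) : (swapL n w l).map e = swapL n w (l.map e) :=
  map_reindex e _ _ l

theorem map_shufL (h c : ℕ) (l : List α) : (shufL h c l).map e = shufL h c (l.map e) :=
  map_reindex e _ _ l

theorem map_unshufL (h c : ℕ) (l : List α) : (unshufL h c l).map e = unshufL h c (l.map e) :=
  map_reindex e _ _ l

theorem map_rowRot (dir : Bool) (n w : ℕ) (l : List α) :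
    (rowRot dir n w l).map e = rowRot dir n w (l.map e) :=
  map_mapChunks e _ _ _ (fun _ c => List.map_rotate e c _) l

theorem map_padSlots (z : α) (w s : ℕ) (l : List α) :
    (padSlots z w s l).map e = padSlots (e z) w s (l.map e) :=
  map_mapChunks e _ _ _ (fun _ c => by simp) l

theorem map_shiftSlots (z : α) (n g s : ℕ) (ε : ℕ → ℕ → ℕ) (l : List α) :
    (shiftSlots z n g s ε l).map e = shiftSlots (e z) n g s ε (l.map e) :=
  map_mapChunks e _ _ _ (fun _ c => by simp [List.map_take]) l

theorem map_padRows (z : α) (n s : ℕ) (l : List α) :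
    (padRows z n s l).map e = padRows (e z) n s (l.map e) :=
  map_mapChunks e _ _ _ (fun _ c => by simp) l

theorem map_selRows (n s : ℕ) (l : List α) : (selRows n s l).map e = selRows n s (l.map e) :=
  map_mapChunks e _ _ _ (fun _ c => by simp [List.map_take, List.map_drop]) l

theorem map_kernelL (z o : α) (n g s total : ℕ) :
    (kernelL z o n g s total).map e = kernelL (e z) (e o) n g s total := by
  simp [kernelL, map_cat]

theorem map_downL (κ : ℕ) (l : List α) : (downL κ l).map e = downL κ (l.map e) := by
  simp only [downL]
  split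
  · exact map_swapL e _ _ l
  · rw [map_shufL, map_swapL]

theorem map_midL (κ : ℕ) (l : List α) : (midL κ l).map e = midL κ (l.map e) :=
  map_swapL e _ _ l

theorem map_upL (κ : ℕ) (l : List α) : (upL κ l).map e = upL κ (l.map e) := by
  simp only [upL]
  split
  · exact map_swapL e _ _ l
  · rw [map_swapL, map_unshufL]

theorem map_algL (κ : ℕ) (l : List α) : (algL κ l).map e = algL κ (l.map e) := by
  induction κ using Nat.strong_induction_on generalizing l with
  | _ κ ih =>
    rw [algL.eq_1 κ l, algL.eq_1 κ (l.map e)]
    split
    · split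
      · rfl
      · exact map_shufL e _ _ l
    · rw [map_upL, ih (κ - κ / 2) (by omega), map_midL, map_downL]

end Vale.Agent.P338
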