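import Vale.Agent.P338.TM.ListLib

/-!
TASK M5.  Transposition = row shear, column operation, row shear.
-/

namespace Vale.Agent.P338

variable {α : Type}

/-- Rotating a row of `n` entries of `w` symbols by `k ≤ n` entries. -/
theorem rotate_row (n w k : ℕ) (hk : k ≤ n) (row : List α) (h : row.length = n * w) :
    row.rotate (k * w) = cat n (fun j => chunk w row ((j + k) % n)) := by
  obtain ⟨m, rfl⟩ := Nat.exists_eq_add_of_le hk
  have h1 : (cat k (chunk w row)).length = k * w :=
    length_cat k w _ (fun j hj => length_chunk_of_lt (k + m) w row h j (by omega))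
  conv_lhs => rw [← cat_chunk (k + m) w row h, cat_add, ← h1, List.rotate_append_length_eq]
  rw [Nat.add_comm k m, cat_add]
  congr 1
  · refine cat_congr (fun j hj => ?_)
    rw [Nat.mod_eq_of_lt (by omega), Nat.add_comm]
  · refine cat_congr (fun j hj => ?_)
    have : (m + j + k) % (m + k) = j := by
      have : m + j + k = j + (m + k) := by omega
      rw [this, Nat.add_mod_right, Nat.mod_eq_of_lt (by omega)]
    rw [this]

/-- `rowRot` as a reindexing of entries. -/
theorem rowRot_eq_reindex (dir : Bool) (n w K : ℕ) (hn : 0 < n) (hw : 0 < w) (l : List α)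
    (hl : l.length = K * (n * n * w)) :
    rowRot dir n w l = reindex w (fun idx => (idx / n) * n +
      (if dir then (idx % n + (idx / n) % n) % n else (idx % n + n - (idx / n) % n) % n)) l := by
  have h1 : l.length = (K * n) * (n * w) := by rw [hl]; ring
  have h2 : l.length = (K * n * n) * w := by rw [hl]; ring
  rw [rowRot, mapChunks_eq_cat (K * n) (n * w) (Nat.mul_pos hn hw) _ l h1,
    reindex_eq_cat (K * n * n) w hw _ l h2, ← cat_cat (K * n) n]
  refine cat_congr (fun i hi => ?_)
  have hlt : i % n < n := Nat.mod_lt _ hn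
  rw [rotate_row n w _ (by split <;> omega) _ (length_chunk_of_lt (K * n) (n * w) l h1 i hi)]
  refine cat_congr (fun j hj => ?_)
  have h3 : (i * n + j) / n = i := by
    rw [Nat.mul_comm, Nat.mul_add_div hn, Nat.div_eq_of_lt hj, Nat.add_zero]
  have h4 : (i * n + j) % n = j := by
    rw [Nat.mul_comm, Nat.mul_add_mod, Nat.mod_eq_of_lt hj]
  rw [chunk_chunk w n l i _ (Nat.mod_lt _ hn), h3, h4]
  cases dir
  · simp only [Bool.false_eq_true, if_false]
    rw [show j + (n - i % n) = j + n - i % n by omega]
  · simp only [if_true]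

theorem length_rowRot (dir : Bool) (n w K : ℕ) (l : List α) (hl : l.length = K * (n * n * w)) :
    (rowRot dir n w l).length = K * (n * n * w) := by
  rcases Nat.eq_zero_or_pos n with rfl | hn
  · simp [rowRot, mapChunks]
  rcases Nat.eq_zero_or_pos w with rfl | hw
  · simp [rowRot, mapChunks]
  have h1 : l.length = (K * n) * (n * w) := by rw [hl]; ring
  rw [rowRot, length_mapChunks (K * n) (n * w) (n * w) (Nat.mul_pos hn hw) _ l h1
    (fun j c _ hc => by rw [List.length_rotate, hc])]
  ring

/-- Decomposition of an entry index. -/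
theorem idx_decomp (n K idx : ℕ) (hn : 0 < n) (h : idx < K * n * n) :
    ∃ b p q, b < K ∧ p < n ∧ q < n ∧ idx = (b * n + p) * n + q := by
  refine ⟨idx / n / n, idx / n % n, idx % n, ?_, Nat.mod_lt _ hn, Nat.mod_lt _ hn, ?_⟩
  · rw [Nat.div_lt_iff_lt_mul hn, Nat.div_lt_iff_lt_mul hn]
    exact h
  · rw [Nat.div_add_mod' (idx / n) n, Nat.div_add_mod' idx n]

theorem idx_lt (n K b p q : ℕ) (hb : b < K) (hp : p < n) (hq : q < n) :
    (b * n + p) * n + q < K * n * n := by
  have h1 : b * n + p + 1 ≤ K * n := by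
    have : (b + 1) * n ≤ K * n := Nat.mul_le_mul_right n hb
    rw [Nat.succ_mul] at this
    omega
  have h2 : (b * n + p + 1) * n ≤ K * n * n := Nat.mul_le_mul_right n h1
  rw [Nat.succ_mul] at h2
  omega

theorem idx_mod (n b p q : ℕ) (hq : q < n) : ((b * n + p) * n + q) % n = q := by
  rw [Nat.mul_comm, Nat.mul_add_mod, Nat.mod_eq_of_lt hq]

theorem idx_div (n b p q : ℕ) (hq : q < n) : ((b * n + p) * n + q) / n = b * n + p := by
  have hn : 0 < n := by omega
  rw [Nat.mul_comm, Nat.mul_add_div hn, Nat.div_eq_of_lt hq, Nat.add_zero]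

theorem idx_div_mod (n b p q : ℕ) (hp : p < n) (hq : q < n) :
    ((b * n + p) * n + q) / n % n = p := by
  rw [idx_div n b p q hq, Nat.mul_comm, Nat.mul_add_mod, Nat.mod_eq_of_lt hp]

theorem idx_div_sq (n b p q : ℕ) (hp : p < n) (hq : q < n) :
    ((b * n + p) * n + q) / (n * n) = b := by
  have hn : 0 < n := by omega
  rw [← Nat.div_div_eq_div_mul, idx_div n b p q hq, Nat.mul_comm, Nat.mul_add_div hn,
    Nat.div_eq_of_lt hp, Nat.add_zero]

theorem colPerm_lt (n K : ℕ) (hn : 0 < n) (idx : ℕ) (h : idx < K * n * n) :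
    (idx / (n * n)) * (n * n) + ((idx % n + n - (idx / n) % n) % n) * n + idx % n < K * n * n := by
  obtain ⟨b, p, q, hb, hp, hq, rfl⟩ := idx_decomp n K idx hn h
  rw [idx_div_sq n b p q hp hq, idx_mod n b p q hq, idx_div_mod n b p q hp hq]
  have := idx_lt n K b ((q + n - p) % n) q hb (Nat.mod_lt _ hn) hq
  calc _ = (b * n + (q + n - p) % n) * n + q := by ring
    _ < _ := this

theorem swapL_lt (n K : ℕ) (hn : 0 < n) (idx : ℕ) (h : idx < K * n * n) :
    (idx / (n * n)) * (n * n) + (idx % n) * n + (idx / n) % n < K * n * n := by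
  obtain ⟨b, p, q, hb, hp, hq, rfl⟩ := idx_decomp n K idx hn h
  rw [idx_div_sq n b p q hp hq, idx_mod n b p q hq, idx_div_mod n b p q hp hq]
  have := idx_lt n K b q p hb hq hp
  calc _ = (b * n + q) * n + p := by ring
    _ < _ := this

theorem rowRot_lt (dir : Bool) (n K : ℕ) (hn : 0 < n) (idx : ℕ) (h : idx < K * n * n) :
    (idx / n) * n +
      (if dir then (idx % n + (idx / n) % n) % n else (idx % n + n - (idx / n) % n) % n)
      < K * n * n := by
  obtain ⟨b, p, q, hb, hp, hq, rfl⟩ := idx_decomp n K idx hn h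
  rw [idx_div n b p q hq]
  exact idx_lt n K b p _ hb hp (by split <;> exact Nat.mod_lt _ hn)

theorem length_colPerm (n w K : ℕ) (l : List α) (hl : l.length = K * (n * n * w)) :
    (colPerm n w l).length = K * (n * n * w) := by
  rcases Nat.eq_zero_or_pos w with rfl | hw
  · simp [colPerm, reindex]
  rcases Nat.eq_zero_or_pos n with rfl | hn
  · simp only [Nat.mul_zero, Nat.zero_mul, List.length_eq_zero_iff] at hl
    subst hl
    simp [colPerm, reindex]
  have h2 : l.length = (K * n * n) * w := by rw [hl]; ring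
  rw [colPerm, length_reindex (K * n * n) w hw _ l h2 (colPerm_lt n K hn)]
  ring

theorem length_swapL (n w K : ℕ) (l : List α) (hl : l.length = K * (n * n * w)) :
    (swapL n w l).length = K * (n * n * w) := by
  rcases Nat.eq_zero_or_pos w with rfl | hw
  · simp [swapL, reindex]
  rcases Nat.eq_zero_or_pos n with rfl | hn
  · simp only [Nat.mul_zero, Nat.zero_mul, List.length_eq_zero_iff] at hl
    subst hl
    simp [swapL, reindex]
  have h2 : l.length = (K * n * n) * w := by rw [hl]; ring
  rw [swapL, length_reindex (K * n * n) w hw _ l h2 (swapL_lt n K hn)]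
  ring

theorem shear_swap (n w K : ℕ) (hn : 0 < n) (hw : 0 < w) (l : List α)
    (hl : l.length = K * (n * n * w)) :
    rowRot true n w (colPerm n w (rowRot false n w l)) = swapL n w l := by
  have h2 : l.length = (K * n * n) * w := by rw [hl]; ring
  have hA := length_rowRot false n w K l hl
  have hB := length_colPerm n w K _ hA
  rw [rowRot_eq_reindex true n w K hn hw _ hB]
  rw [rowRot_eq_reindex false n w K hn hw l hl]
  rw [colPerm]
  rw [reindex_reindex (K * n * n) w hw _ _ l h2 (rowRot_lt false n K hn) (colPerm_lt n K hn)]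
  rw [reindex_reindex (K * n * n) w hw _ _ l h2
    (fun j hj => rowRot_lt false n K hn _ (colPerm_lt n K hn j hj)) (rowRot_lt true n K hn)]
  rw [swapL]
  refine reindex_congr (K * n * n) w hw _ _ l h2 (fun idx hidx => ?_)
  obtain ⟨b, p, q, hb, hp, hq, rfl⟩ := idx_decomp n K idx hn hidx
  simp only [Bool.false_eq_true, if_false, if_true]
  rw [idx_div n b p q hq, idx_mod n b p q hq, idx_div_sq n b p q hp hq,
    show (b * n + p) % n = p by rw [Nat.mul_comm, Nat.mul_add_mod, Nat.mod_eq_of_lt hp]]
  -- first: the position read by the outer shear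
  set q1 := (q + p) % n with hq1
  have hq1lt : q1 < n := Nat.mod_lt _ hn
  rw [idx_div_sq n b p q1 hp hq1lt, idx_mod n b p q1 hq1lt, idx_div_mod n b p q1 hp hq1lt]
  have hp1 : (q1 + n - p) % n = q := by
    rw [hq1]
    rcases Nat.lt_or_ge (q + p) n with h | h
    · rw [Nat.mod_eq_of_lt h, show q + p + n - p = q + n by omega, Nat.add_mod_right,
        Nat.mod_eq_of_lt hq]
    · have : (q + p) % n = q + p - n := by
        rw [Nat.mod_eq_sub_mod h, Nat.mod_eq_of_lt (by omega)]
      rw [this, show q + p - n + n - p = q by omega, Nat.mod_eq_of_lt hq]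
  rw [hp1]
  have e1 : b * (n * n) + q * n + q1 = (b * n + q) * n + q1 := by ring
  rw [e1, idx_div n b q q1 hq1lt, idx_mod n b q q1 hq1lt,
    show (b * n + q) % n = q by rw [Nat.mul_comm, Nat.mul_add_mod, Nat.mod_eq_of_lt hq]]
  have hp2 : (q1 + n - q) % n = p := by
    rw [hq1]
    rcases Nat.lt_or_ge (q + p) n with h | h
    · rw [Nat.mod_eq_of_lt h, show q + p + n - q = p + n by omega, Nat.add_mod_right,
        Nat.mod_eq_of_lt hp]
    · have : (q + p) % n = q + p - n := by
        rw [Nat.mod_eq_sub_mod h, Nat.mod_eq_of_lt (by omega)]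
      rw [this, show q + p - n + n - q = p by omega, Nat.mod_eq_of_lt hp]
  rw [hp2]
  ring

end Vale.Agent.P338
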