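import Vale.Agent.P338.TM.Stream

/-!
TASK T17.  Own-level programs used by the top level:
* `sqrtP`   : from a data tape holding `l` with `l.length = n * n` compute the counter `n`;
* `log2P`   : from the counter `n` decide whether `n` is a power of two and compute the exponent;
* `naivePass` : transposition of an `n × n` matrix by `n` sweeps (cubic time).
-/

namespace Vale.Agent.P338
namespace Frag
open Matrix

/-! ### Steps of counters with evaluated scanned symbol -/

@[simp] theorem nv_zero_stay : (cnt 0).step (Sym.org, Dir.stay) = cnt 0 := cnt_stay 0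
@[simp] theorem nv_zero_right : (cnt 0).step (Sym.org, Dir.right) = cnt 1 := cnt_right 0
@[simp] theorem nv_zero_left : (cnt 0).step (Sym.org, Dir.left) = cnt 0 := cnt_left 0
@[simp] theorem nv_succ_stay (c : ℕ) : (cnt (c + 1)).step (Sym.blank, Dir.stay) = cnt (c + 1) := by
  have := cnt_stay (c + 1)
  rwa [cnt_read_succ] at this
@[simp] theorem nv_succ_right (c : ℕ) :
    (cnt (c + 1)).step (Sym.blank, Dir.right) = cnt (c + 1 + 1) := by
  have := cnt_right (c + 1)
  rwa [cnt_read_succ] at this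
@[simp] theorem nv_succ_left (c : ℕ) : (cnt (c + 1)).step (Sym.blank, Dir.left) = cnt c := by
  have := cnt_left (c + 1)
  rwa [cnt_read_succ] at this

/-! ### Square root -/

/-- Tapes `X, r, shadow`: skip `2 r + 1` symbols of `X`, then `r := r + 1`. -/
noncomputable def sqrtBody : Frag Sym 3 :=
  seq (lift ![1, 2, 0] (rep mvR))
    (seq (lift ![1, 2, 0] (rep mvR))
      (prim fun s => ![(s 0, Dir.right), (s 1, Dir.right), (s 2, Dir.stay)]))

theorem runsLE_sqrtBody (L A B R : List Sym) (x : Sym) (hB : B.length = A.length) :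
    RunsLE sqrtBody ![zt L (A ++ (B ++ x :: R)), cnt A.length, cnt 0] (10 * A.length + 5)
      ![zt (L ++ (A ++ (B ++ [x]))) R, cnt (A.length + 1), cnt 0] := by
  have h1 : RunsLE (lift ![1, 2, 0] (rep mvR) : Frag Sym 3)
      ![zt L (A ++ (B ++ x :: R)), cnt A.length, cnt 0] (A.length * 5 + 2)
      ![zt (L ++ A) (B ++ x :: R), cnt A.length, cnt 0] :=
    RunsLE.lift (by decide) (runsLE_skipN L A (B ++ x :: R)) _ _
      (by simp [Fin.forall_fin_succ]) (by simp [Fin.forall_fin_succ])
      (by simp [Fin.forall_fin_succ])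
  have h2 : RunsLE (lift ![1, 2, 0] (rep mvR) : Frag Sym 3)
      ![zt (L ++ A) (B ++ x :: R), cnt A.length, cnt 0] (A.length * 5 + 2)
      ![zt (L ++ A ++ B) (x :: R), cnt A.length, cnt 0] := by
    have := runsLE_skipN (L ++ A) B (x :: R)
    rw [hB] at this
    exact RunsLE.lift (by decide) this _ _
      (by simp [Fin.forall_fin_succ]) (by simp [Fin.forall_fin_succ])
      (by simp [Fin.forall_fin_succ])
  have h3 : RunsLE (prim fun s : Fin 3 → Sym =>
      ![(s 0, Dir.right), (s 1, Dir.right), (s 2, Dir.stay)])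
      ![zt (L ++ A ++ B) (x :: R), cnt A.length, cnt 0] 1
      ![zt (L ++ (A ++ (B ++ [x]))) R, cnt (A.length + 1), cnt 0] := by
    refine RunsLE.prim _ _ _ ?_
    simp only [reads_cons, cons_val_zero, cons_val_one, acts_cons, cnt_right,
      zt_read_cons, zt_right_cons]
    simp
  exact (h1.seq (h2.seq h3)).mono (by omega)

theorem runsLE_sqrtLoop (m : ℕ) : ∀ (r : ℕ) (L R : List Sym), R.length = m * (2 * r + m) →
    IsData R →
    RunsLE (loop (fun s => s 0 != Sym.blank) sqrtBody) ![zt L R, cnt r, cnt 0]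
      (m * (10 * (r + m) + 10) + 1) ![zt (L ++ R) [], cnt (r + m), cnt 0] := by
  induction m with
  | zero =>
    intro r L R hR _
    have : R = [] := by simpa using hR
    subst this
    simpa using RunsLE.loop_false (c := fun s : Fin 3 → Sym => s 0 != Sym.blank) (F := sqrtBody)
      (T := ![zt L [], cnt r, cnt 0]) (by simp)
  | succ m ih =>
    intro r L R hR hd
    have hlen : R.length = r + (r + (1 + m * (2 * (r + 1) + m))) := by rw [hR]; ring
    obtain ⟨A, R1, rfl, hA⟩ : ∃ A R1, R = A ++ R1 ∧ A.length = r :=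
      ⟨R.take r, R.drop r, (List.take_append_drop r R).symm, by simp; omega⟩
    rw [List.length_append, hA] at hlen
    obtain ⟨B, R2, rfl, hB⟩ : ∃ B R2, R1 = B ++ R2 ∧ B.length = r :=
      ⟨R1.take r, R1.drop r, (List.take_append_drop r R1).symm, by simp; omega⟩
    rw [List.length_append, hB] at hlen
    obtain ⟨x, R3, rfl⟩ : ∃ x R3, R2 = x :: R3 := by
      cases R2 with
      | nil => simp at hlen
      | cons x R3 => exact ⟨x, R3, rfl⟩
    rw [List.length_cons] at hlen
    have hx : x ≠ Sym.blank := (hd x (by simp)).1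
    have hne : (A ++ (B ++ x :: R3)).head? ≠ some Sym.blank := by
      intro h
      have hm : Sym.blank ∈ A ++ (B ++ x :: R3) := List.mem_of_head? h
      exact (hd _ hm).1 rfl
    have hc : (reads ![zt L (A ++ (B ++ x :: R3)), cnt r, cnt 0] 0 != Sym.blank) = true := by
      cases h : A ++ (B ++ x :: R3) with
      | nil => simp at h
      | cons y t =>
        rw [h] at hne
        simpa using hne
    have h1 := runsLE_sqrtBody L A B R3 x (by omega)
    rw [hA] at h1
    have h2 := ih (r + 1) (L ++ (A ++ (B ++ [x]))) R3 (by omega)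
      (fun y hy => hd y (by simp [hy]))
    have e1 : L ++ (A ++ (B ++ [x])) ++ R3 = L ++ (A ++ (B ++ x :: R3)) := by simp
    have e2 : r + 1 + m = r + (m + 1) := by omega
    rw [e1, e2] at h2
    refine (RunsLE.loop_true hc h1 h2).mono ?_
    have : (m + 1) * (10 * (r + (m + 1)) + 10) = m * (10 * (r + (m + 1)) + 10)
        + (10 * (r + (m + 1)) + 10) := by ring
    rw [this]
    omega

/-- Tapes `X` (data tape in rest position, preserved), `r` (result), shadow. -/
noncomputable def sqrtP : Frag Sym 3 :=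
  seq (lift ![0] mvR) (seq (loop (fun s => s 0 != Sym.blank) sqrtBody) (lift ![0] rewind))

theorem runsLE_sqrtP (n : ℕ) (l : List Sym) (hl : l.length = n * n) (hd : IsData l) :
    RunsLE sqrtP ![zt [] (Sym.org :: l), cnt 0, cnt 0] (22 * l.length + 16)
      ![zt [] (Sym.org :: l), cnt n, cnt 0] := by
  have h1 : RunsLE (lift ![0] mvR : Frag Sym 3) ![zt [] (Sym.org :: l), cnt 0, cnt 0] 1
      ![zt [Sym.org] l, cnt 0, cnt 0] :=
    RunsLE.lift (by decide) (runsLE_mvR_cons [] l Sym.org) _ _
      (by simp [Fin.forall_fin_succ]) (by simp [Fin.forall_fin_succ])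
      (by simp [Fin.forall_fin_succ])
  have h2 := runsLE_sqrtLoop n 0 [Sym.org] l (by rw [hl]; ring) hd
  have h3 : RunsLE (lift ![0] rewind : Frag Sym 3) ![zt ([Sym.org] ++ l) [], cnt (0 + n), cnt 0]
      (2 * l.length + 3) ![zt [] (Sym.org :: l), cnt n, cnt 0] := by
    have := runsLE_rewind l [] (fun hh => (hd _ hh).2 rfl) (by simp)
    rw [List.append_nil] at this
    exact RunsLE.lift (by decide) this _ _
      (by simp [Fin.forall_fin_succ]) (by simp [Fin.forall_fin_succ])
      (by simp [Fin.forall_fin_succ])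
  refine (h1.seq (h2.seq h3)).mono ?_
  have : n * (10 * (0 + n) + 10) = 10 * (n * n) + 10 * n := by ring
  rw [this, hl]
  have : n ≤ n * n := Nat.le_mul_self n
  omega

/-! ### Binary logarithm -/

/-- Tapes `p, t, q`: while both `p` and `t` are positive: `p -= 1`, `t -= 1`, `q += 2`. -/
def logInner : Frag Sym 3 :=
  loop (fun s => s 0 != Sym.org && s 1 != Sym.org)
    (seq (prim fun s => ![(s 0, Dir.left), (s 1, Dir.left), (s 2, Dir.right)])
      (prim fun s => ![(s 0, Dir.stay), (s 1, Dir.stay), (s 2, Dir.right)]))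

theorem runsLE_logInner (p : ℕ) : ∀ t q : ℕ,
    RunsLE logInner ![cnt p, cnt t, cnt q] (3 * min p t + 1)
      ![cnt (p - min p t), cnt (t - min p t), cnt (q + 2 * min p t)] := by
  unfold logInner
  induction p with
  | zero =>
    intro t q
    simpa using RunsLE.loop_false (T := ![cnt 0, cnt t, cnt q]) (by simp)
  | succ p ih =>
    intro t q
    cases t with
    | zero => simpa using RunsLE.loop_false (T := ![cnt (p + 1), cnt 0, cnt q]) (by simp)
    | succ t =>
      have h1 : RunsLE (seq (prim fun s : Fin 3 → Sym =>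
            ![(s 0, Dir.left), (s 1, Dir.left), (s 2, Dir.right)])
          (prim fun s => ![(s 0, Dir.stay), (s 1, Dir.stay), (s 2, Dir.right)]))
          ![cnt (p + 1), cnt (t + 1), cnt q] (1 + 1) ![cnt p, cnt t, cnt (q + 2)] := by
        refine RunsLE.seq (T' := ![cnt p, cnt t, cnt (q + 1)]) (RunsLE.prim _ _ _ ?_)
          (RunsLE.prim _ _ _ ?_)
        · have e : (![(cnt (p + 1)).read, (cnt (t + 1)).read, (cnt q).read] : Fin 3 → Sym) 2
              = (cnt q).read := rfl
          simp only [reads_cons, cons_val_zero, cons_val_one, acts_cons, cnt_left, e, cnt_right]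
          simp
        · have e : (![(cnt p).read, (cnt t).read, (cnt (q + 1)).read] : Fin 3 → Sym) 2
              = (cnt (q + 1)).read := rfl
          simp only [reads_cons, cons_val_zero, cons_val_one, acts_cons, cnt_stay, e, cnt_right]
          simp
      have h2 := ih t (q + 2)
      have e1 : min (p + 1) (t + 1) = min p t + 1 := by omega
      have e2 : p + 1 - (min p t + 1) = p - min p t := by omega
      have e3 : t + 1 - (min p t + 1) = t - min p t := by omega
      have e4 : q + 2 * (min p t + 1) = q + 2 + 2 * min p t := by omega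
      rw [e1, e2, e3, e4]
      exact (RunsLE.loop_true (by simp) h1 h2).mono (by omega)

/-- Tapes `κ, p, t, q`: one round of the doubling loop. -/
noncomputable def logBody : Frag Sym 4 :=
  seq (lift ![1, 2, 3] logInner)
    (ite (fun s => s 1 == Sym.org)
      (seq (lift ![3, 1] moveCnt) (lift ![0] mvR)) (prim noop))

theorem runsLE_logBody_ge (κ p t : ℕ) (h : p ≤ t) :
    RunsLE logBody ![cnt κ, cnt p, cnt t, cnt 0] (7 * p + 4)
      ![cnt (κ + 1), cnt (2 * p), cnt (t - p), cnt 0] := by
  have h1 : RunsLE (lift ![1, 2, 3] logInner : Frag Sym 4) ![cnt κ, cnt p, cnt t, cnt 0]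
      (3 * p + 1) ![cnt κ, cnt 0, cnt (t - p), cnt (2 * p)] := by
    have := runsLE_logInner p t 0
    rw [Nat.min_eq_left h, Nat.sub_self, Nat.zero_add] at this
    exact RunsLE.lift (by decide) this _ _
      (by simp [Fin.forall_fin_succ]) (by simp [Fin.forall_fin_succ])
      (by simp [Fin.forall_fin_succ])
  have h2 : RunsLE (lift ![3, 1] moveCnt : Frag Sym 4) ![cnt κ, cnt 0, cnt (t - p), cnt (2 * p)]
      (2 * (2 * p) + 1) ![cnt κ, cnt (2 * p), cnt (t - p), cnt 0] := by
    have := runsLE_moveCnt (2 * p) 0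
    rw [Nat.zero_add] at this
    exact RunsLE.lift (by decide) this _ _
      (by simp [Fin.forall_fin_succ]) (by simp [Fin.forall_fin_succ])
      (by simp [Fin.forall_fin_succ])
  have h3 : RunsLE (lift ![0] mvR : Frag Sym 4) ![cnt κ, cnt (2 * p), cnt (t - p), cnt 0]
      1 ![cnt (κ + 1), cnt (2 * p), cnt (t - p), cnt 0] :=
    RunsLE.lift (by decide) (runsLE_mvR_cnt κ) _ _
      (by simp [Fin.forall_fin_succ]) (by simp [Fin.forall_fin_succ])
      (by simp [Fin.forall_fin_succ])
  exact (h1.seq (RunsLE.ite_true (by simp) (h2.seq h3))).mono (by omega)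

theorem runsLE_logBody_lt (κ p t : ℕ) (h : t < p) :
    RunsLE logBody ![cnt κ, cnt p, cnt t, cnt 0] (3 * t + 3)
      ![cnt κ, cnt (p - t), cnt 0, cnt (2 * t)] := by
  have h1 : RunsLE (lift ![1, 2, 3] logInner : Frag Sym 4) ![cnt κ, cnt p, cnt t, cnt 0]
      (3 * t + 1) ![cnt κ, cnt (p - t), cnt 0, cnt (2 * t)] := by
    have := runsLE_logInner p t 0
    rw [Nat.min_eq_right h.le, Nat.sub_self, Nat.zero_add] at this
    exact RunsLE.lift (by decide) this _ _
      (by simp [Fin.forall_fin_succ]) (by simp [Fin.forall_fin_succ])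
      (by simp [Fin.forall_fin_succ])
  obtain ⟨u, hu⟩ : ∃ u, p - t = u + 1 := ⟨p - t - 1, by omega⟩
  exact (h1.seq (RunsLE.ite_false (by simp [hu]) (RunsLE.prim _ _ _ (acts_noop _)))).mono
    (by omega)

/-- The doubling loop. -/
theorem runsLE_logLoop (t : ℕ) : ∀ κ p : ℕ, 1 ≤ p → ∃ κ' p' q' : ℕ,
    RunsLE (loop (fun s => s 2 != Sym.org) logBody) ![cnt κ, cnt p, cnt t, cnt 0] (12 * t + 1)
      ![cnt κ', cnt p', cnt 0, cnt q'] ∧ p' ≤ p + t ∧ q' ≤ 2 * t ∧
      ((q' = 0 ∧ ∃ j, κ' = κ + j ∧ p + t = 2 ^ j * p) ∨ (q' ≠ 0 ∧ ∀ j, p + t ≠ 2 ^ j * p)) := by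
  induction t using Nat.strong_induction_on with
  | _ t ih =>
    intro κ p hp
    rcases Nat.eq_zero_or_pos t with rfl | ht
    · exact ⟨κ, p, 0, RunsLE.loop_false (by simp), by omega, by omega,
        Or.inl ⟨rfl, 0, rfl, by simp⟩⟩
    obtain ⟨t', rfl⟩ : ∃ t', t = t' + 1 := ⟨t - 1, by omega⟩
    by_cases h : p ≤ t' + 1
    · obtain ⟨κ', p', q', hr, hp', hq', hres⟩ := ih (t' + 1 - p) (by omega) (κ + 1) (2 * p) (by omega)
      have e : 2 * p + (t' + 1 - p) = p + (t' + 1) := by clear hres; omega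
      have b1 : 7 * p + 4 + (12 * (t' + 1 - p) + 1) + 1 ≤ 12 * (t' + 1) + 1 := by clear hres; omega
      have b2 : p' ≤ p + (t' + 1) := by clear hres; omega
      have b3 : q' ≤ 2 * (t' + 1) := by clear hres; omega
      refine ⟨κ', p', q', (RunsLE.loop_true (by simp) (runsLE_logBody_ge κ p (t' + 1) h) hr).mono
        b1, b2, b3, ?_⟩
      rw [e] at hres
      rcases hres with ⟨hq, j, hj, hj'⟩ | ⟨hq, hj⟩
      · exact Or.inl ⟨hq, j + 1, by omega, by rw [hj', pow_succ]; ring⟩
      · refine Or.inr ⟨hq, fun j => ?_⟩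
        cases j with
        | zero => simp
        | succ j =>
          intro hh
          exact hj j (by rw [hh, pow_succ]; ring)
    · have h' : t' + 1 < p := by omega
      refine ⟨κ, p - (t' + 1), 2 * (t' + 1), (RunsLE.loop_true (by simp)
        (runsLE_logBody_lt κ p (t' + 1) h') (RunsLE.loop_false (by simp))).mono (by omega),
        by omega, by omega, Or.inr ⟨by omega, fun j => ?_⟩⟩
      cases j with
      | zero => simp
      | succ j =>
        have : 2 * p ≤ 2 ^ (j + 1) * p := by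
          rw [pow_succ]
          have : 1 ≤ 2 ^ j := Nat.one_le_two_pow
          nlinarith
        omega

/-- Tapes `n` (preserved), `flag`, `κ`, and four scratch tapes `p, t, q`, shadow. -/
noncomputable def log2P : Frag Sym 7 :=
  seq (lift ![0, 6, 4] (rep (incBy 1)))
    (seq (lift ![3] mvR)
      (seq (lift ![4] mvL)
        (seq (lift ![2, 3, 4, 5] (loop (fun s => s 2 != Sym.org) logBody))
          (seq (ite (fun s => s 5 == Sym.org) (lift ![1] mvR) (prim noop))
            (seq (lift ![3] zero) (lift ![5] zero))))))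

theorem runsLE_log2P (n : ℕ) (hn : 1 ≤ n) : ∃ f κ : ℕ,
    RunsLE log2P ![cnt n, cnt 0, cnt 0, cnt 0, cnt 0, cnt 0, cnt 0] (24 * n + 12)
      ![cnt n, cnt f, cnt κ, cnt 0, cnt 0, cnt 0, cnt 0] ∧
      ((f = 1 ∧ n = 2 ^ κ) ∨ (f = 0 ∧ ∀ k, n ≠ 2 ^ k)) := by
  obtain ⟨κ', p', q', hr, hp', hq', hres⟩ := runsLE_logLoop (n - 1) 0 1 le_rfl
  have e : 1 + (n - 1) = n := by clear hres; omega
  rw [e] at hp' hres
  have s1 : RunsLE (lift ![0, 6, 4] (rep (incBy 1)) : Frag Sym 7)
      ![cnt n, cnt 0, cnt 0, cnt 0, cnt 0, cnt 0, cnt 0] (n * (1 + 5) + 2)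
      ![cnt n, cnt 0, cnt 0, cnt 0, cnt n, cnt 0, cnt 0] := by
    have := runsLE_addMul 1 n 0
    rw [Nat.zero_add, Nat.one_mul] at this
    exact RunsLE.lift (by decide) this _ _
      (by simp [Fin.forall_fin_succ]) (by simp [Fin.forall_fin_succ])
      (by simp [Fin.forall_fin_succ])
  have s2 : RunsLE (lift ![3] mvR : Frag Sym 7)
      ![cnt n, cnt 0, cnt 0, cnt 0, cnt n, cnt 0, cnt 0] 1
      ![cnt n, cnt 0, cnt 0, cnt 1, cnt n, cnt 0, cnt 0] :=
    RunsLE.lift (by decide) (runsLE_mvR_cnt 0) _ _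
      (by simp [Fin.forall_fin_succ]) (by simp [Fin.forall_fin_succ])
      (by simp [Fin.forall_fin_succ])
  have s3 : RunsLE (lift ![4] mvL : Frag Sym 7)
      ![cnt n, cnt 0, cnt 0, cnt 1, cnt n, cnt 0, cnt 0] 1
      ![cnt n, cnt 0, cnt 0, cnt 1, cnt (n - 1), cnt 0, cnt 0] :=
    RunsLE.lift (by decide) (runsLE_mvL_cnt n) _ _
      (by simp [Fin.forall_fin_succ]) (by simp [Fin.forall_fin_succ])
      (by simp [Fin.forall_fin_succ])
  have s4 : RunsLE (lift ![2, 3, 4, 5] (loop (fun s => s 2 != Sym.org) logBody) : Frag Sym 7)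
      ![cnt n, cnt 0, cnt 0, cnt 1, cnt (n - 1), cnt 0, cnt 0] (12 * (n - 1) + 1)
      ![cnt n, cnt 0, cnt κ', cnt p', cnt 0, cnt q', cnt 0] :=
    RunsLE.lift (by decide) hr _ _
      (by simp [Fin.forall_fin_succ]) (by simp [Fin.forall_fin_succ])
      (by simp [Fin.forall_fin_succ])
  have s6 : ∀ f : ℕ, RunsLE (seq (lift ![3] zero) (lift ![5] zero) : Frag Sym 7)
      ![cnt n, cnt f, cnt κ', cnt p', cnt 0, cnt q', cnt 0] (2 * p' + 1 + (2 * q' + 1))
      ![cnt n, cnt f, cnt κ', cnt 0, cnt 0, cnt 0, cnt 0] := by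
    intro f
    refine RunsLE.seq (T' := ![cnt n, cnt f, cnt κ', cnt 0, cnt 0, cnt q', cnt 0]) ?_ ?_
    · exact RunsLE.lift (by decide) (runsLE_zero p') _ _
        (by simp [Fin.forall_fin_succ]) (by simp [Fin.forall_fin_succ])
        (by simp [Fin.forall_fin_succ])
    · exact RunsLE.lift (by decide) (runsLE_zero q') _ _
        (by simp [Fin.forall_fin_succ]) (by simp [Fin.forall_fin_succ])
        (by simp [Fin.forall_fin_succ])
  have b : n * (1 + 5) + 2 + (1 + (1 + (12 * (n - 1) + 1 + (1 + 1 + (2 * p' + 1 + (2 * q' + 1))))))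
      ≤ 24 * n + 12 := by clear hres; omega
  rcases hres with ⟨hq, j, hj, hj'⟩ | ⟨hq, hj⟩
  · subst hq
    have s5 : RunsLE (ite (fun s => s 5 == Sym.org) (lift ![1] mvR) (prim noop) : Frag Sym 7)
        ![cnt n, cnt 0, cnt κ', cnt p', cnt 0, cnt 0, cnt 0] (1 + 1)
        ![cnt n, cnt 1, cnt κ', cnt p', cnt 0, cnt 0, cnt 0] :=
      RunsLE.ite_true (by simp) (RunsLE.lift (by decide) (runsLE_mvR_cnt 0) _ _
        (by simp [Fin.forall_fin_succ]) (by simp [Fin.forall_fin_succ])
        (by simp [Fin.forall_fin_succ]))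
    refine ⟨1, κ', (s1.seq (s2.seq (s3.seq (s4.seq (s5.seq (s6 1)))))).mono b, Or.inl ⟨rfl, ?_⟩⟩
    rw [hj', hj]
    simp
  · obtain ⟨u, rfl⟩ : ∃ u, q' = u + 1 := ⟨q' - 1, by omega⟩
    have s5 : RunsLE (ite (fun s => s 5 == Sym.org) (lift ![1] mvR) (prim noop) : Frag Sym 7)
        ![cnt n, cnt 0, cnt κ', cnt p', cnt 0, cnt (u + 1), cnt 0] (1 + 1)
        ![cnt n, cnt 0, cnt κ', cnt p', cnt 0, cnt (u + 1), cnt 0] :=
      RunsLE.ite_false (by simp) (RunsLE.prim _ _ _ (acts_noop _))
    refine ⟨0, κ', (s1.seq (s2.seq (s3.seq (s4.seq (s5.seq (s6 0)))))).mono b, Or.inr ⟨rfl, ?_⟩⟩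
    intro k hk
    exact hj k (by rw [hk]; simp)

/-! ### Naive transposition -/

/-- The main loop of a pass with arbitrary left contexts: apply `body` until the input is
exhausted. -/
theorem runsLE_streamLoop {k : ℕ} {body : Frag Sym (k + 2)} (n : ℕ) (c d : ℕ → List Sym)
    (aux : ℕ → Fin k → Tape Sym) (τ : ℕ → ℕ) (L O : List Sym)
    (hc : ∀ j, j < n → c j ≠ [] ∧ IsData (c j))
    (h : ∀ j, j < n → Stream body (c j) (d j) (aux j) (aux (j + 1)) (τ j)) :
    RunsLE (loop (fun s => s 0 != Sym.blank) body)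
      (vecCons (zt L (cat n c)) (vecCons (zt O []) (aux 0)))
      ((∑ j ∈ Finset.range n, τ j) + n + 1)
      (vecCons (zt (L ++ cat n c) []) (vecCons (zt (O ++ cat n d) []) (aux n))) := by
  have s2 := RunsLE.loop_sum (c := fun s : Fin (k + 2) → Sym => s 0 != Sym.blank) (F := body)
    (fun j => vecCons (zt (L ++ cat j c) (cat (n - j) (fun i => c (j + i))))
      (vecCons (zt (O ++ cat j d) []) (aux j))) n τ ?_ ?_
  · simp only [cat_zero, Nat.sub_zero, Nat.zero_add, Nat.sub_self, List.append_nil] at s2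
    refine RunsLE.mono s2 ?_
    simp only [Finset.sum_add_distrib, Finset.sum_const, Finset.card_range, smul_eq_mul]
    omega
  · intro j hj
    have e : cat (n - j) (fun i => c (j + i)) = c j ++ cat (n - (j + 1)) (fun i => c (j + 1 + i)) := by
      obtain ⟨u, hu⟩ : ∃ u, n - j = u + 1 := ⟨n - j - 1, by omega⟩
      have hu' : n - (j + 1) = u := by omega
      rw [hu, hu', cat_succ']
      simp only [Nat.add_zero]
      congr 1
      apply cat_congr
      intro i _
      congr 1
      omega
    constructor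
    · rw [e]
      obtain ⟨hne, hd⟩ := hc j hj
      obtain ⟨x, t, hx⟩ := List.exists_cons_of_ne_nil hne
      have hxb : x ≠ Sym.blank := (hd x (by simp [hx])).1
      simp [hx, hxb]
    · have h1 := h j hj (L ++ cat j c) (cat (n - (j + 1)) (fun i => c (j + 1 + i)))
        (O ++ cat j d)
      rw [e, cat_succ, cat_succ, ← List.append_assoc, ← List.append_assoc]
      exact h1
  · simp

/-- Tapes `X, Y, c1, c2`, shadow: of a row `A ++ [x] ++ B` with `|A| = c1`, `|B| = c2` copy `x`. -/
noncomputable def nvRow : Frag Sym 5 :=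
  seq (liftS ![0, 2] (repS skip1))
    (seq (liftS (k := 0) ![] copy1) (liftS ![1, 2] (repS skip1)))

theorem stream_nvRow (A B : List Sym) (x : Sym) :
    Stream nvRow (A ++ ([x] ++ B)) [x] ![cnt A.length, cnt B.length, cnt 0]
      ![cnt A.length, cnt B.length, cnt 0] (5 * A.length + 5 * B.length + 5) := by
  have h1 : Stream (liftS (K := 3) ![0, 2] (repS skip1)) A []
      ![cnt A.length, cnt B.length, cnt 0] ![cnt A.length, cnt B.length, cnt 0]
      (A.length * 5 + 2) :=
    (stream_skipN A).lift (by decide) _ _ (by simp [Fin.forall_fin_succ])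
      (by simp [Fin.forall_fin_succ]) (by simp [Fin.forall_fin_succ])
  have h2 : Stream (liftS (k := 0) (K := 3) ![] copy1) [x] [x]
      ![cnt A.length, cnt B.length, cnt 0] ![cnt A.length, cnt B.length, cnt 0] 1 :=
    (stream_copy1 x).lift (fun a => a.elim0) _ _ (fun a => a.elim0) (fun a => a.elim0)
      (fun _ _ => rfl)
  have h3 : Stream (liftS (K := 3) ![1, 2] (repS skip1)) B []
      ![cnt A.length, cnt B.length, cnt 0] ![cnt A.length, cnt B.length, cnt 0]
      (B.length * 5 + 2) :=
    (stream_skipN B).lift (by decide) _ _ (by simp [Fin.forall_fin_succ])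
      (by simp [Fin.forall_fin_succ]) (by simp [Fin.forall_fin_succ])
  have := h1.seq (h2.seq h3)
  simp only [List.nil_append, List.append_nil] at this
  exact this.mono (by omega)

theorem nv_split (row : List Sym) (p : ℕ) (hp : p < row.length) : ∃ (A B : List Sym) (x : Sym),
    row = A ++ ([x] ++ B) ∧ A.length = p ∧ B.length = row.length - 1 - p ∧ chunk 1 row p = [x] := by
  refine ⟨row.take p, row.drop (p + 1), row[p], ?_, ?_, ?_, ?_⟩
  · rw [List.singleton_append, ← List.drop_eq_getElem_cons hp, List.take_append_drop]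
  · simp; omega
  · simp; omega
  · unfold chunk
    rw [Nat.mul_one, List.drop_eq_getElem_cons hp]
    rfl

/-- Tapes `X, Y, c1, c2`, shadow: one sweep over `X` (rest position before and after), appending
column number `c1` to `Y`; then `c1 += 1`, `c2 -= 1`. -/
noncomputable def nvSweep : Frag Sym 5 :=
  seq (lift ![0] mvR)
    (seq (loop (fun s => s 0 != Sym.blank) nvRow)
      (seq (lift ![0] rewind) (seq (lift ![2] mvR) (lift ![3] mvL))))

theorem runsLE_nvSweep (n p : ℕ) (hp : p < n) (l O : List Sym) (hl : l.length = n * n)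
    (hd : IsData l) :
    RunsLE nvSweep ![zt [] (Sym.org :: l), zt O [], cnt p, cnt (n - 1 - p), cnt 0]
      (7 * (n * n) + n + 7)
      ![zt [] (Sym.org :: l), zt (O ++ cat n (fun j => chunk 1 l (j * n + p))) [], cnt (p + 1),
        cnt (n - 1 - (p + 1)), cnt 0] := by
  have hlen : ∀ j, j < n → (chunk n l j).length = n := fun j hj => length_chunk_of_lt n n l hl j hj
  have hmem : ∀ j, IsData (chunk n l j) := fun j x hx =>
    hd x (List.mem_of_mem_drop (List.mem_of_mem_take hx))
  have s1 : RunsLE (lift ![0] mvR : Frag Sym 5)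
      ![zt [] (Sym.org :: l), zt O [], cnt p, cnt (n - 1 - p), cnt 0] 1
      ![zt [Sym.org] l, zt O [], cnt p, cnt (n - 1 - p), cnt 0] :=
    RunsLE.lift (by decide) (runsLE_mvR_cons [] l Sym.org) _ _
      (by simp [Fin.forall_fin_succ]) (by simp [Fin.forall_fin_succ])
      (by simp [Fin.forall_fin_succ])
  have s2 := runsLE_streamLoop (body := nvRow) n (chunk n l) (fun j => chunk 1 l (j * n + p))
    (fun _ => ![cnt p, cnt (n - 1 - p), cnt 0]) (fun _ => 5 * n) [Sym.org] O ?_ ?_
  · rw [cat_chunk n n l hl] at s2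
    have s3 : RunsLE (lift ![0] rewind : Frag Sym 5)
        ![zt ([Sym.org] ++ l) [], zt (O ++ cat n (fun j => chunk 1 l (j * n + p))) [], cnt p,
          cnt (n - 1 - p), cnt 0] (2 * l.length + 3)
        ![zt [] (Sym.org :: l), zt (O ++ cat n (fun j => chunk 1 l (j * n + p))) [], cnt p,
          cnt (n - 1 - p), cnt 0] := by
      have := runsLE_rewind l [] (fun hh => (hd _ hh).2 rfl) (by simp)
      rw [List.append_nil] at this
      exact RunsLE.lift (by decide) this _ _
        (by simp [Fin.forall_fin_succ]) (by simp [Fin.forall_fin_succ])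
        (by simp [Fin.forall_fin_succ])
    have s4 : RunsLE (lift ![2] mvR : Frag Sym 5)
        ![zt [] (Sym.org :: l), zt (O ++ cat n (fun j => chunk 1 l (j * n + p))) [], cnt p,
          cnt (n - 1 - p), cnt 0] 1
        ![zt [] (Sym.org :: l), zt (O ++ cat n (fun j => chunk 1 l (j * n + p))) [], cnt (p + 1),
          cnt (n - 1 - p), cnt 0] :=
      RunsLE.lift (by decide) (runsLE_mvR_cnt p) _ _
        (by simp [Fin.forall_fin_succ]) (by simp [Fin.forall_fin_succ])
        (by simp [Fin.forall_fin_succ])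
    have s5 : RunsLE (lift ![3] mvL : Frag Sym 5)
        ![zt [] (Sym.org :: l), zt (O ++ cat n (fun j => chunk 1 l (j * n + p))) [], cnt (p + 1),
          cnt (n - 1 - p), cnt 0] 1
        ![zt [] (Sym.org :: l), zt (O ++ cat n (fun j => chunk 1 l (j * n + p))) [], cnt (p + 1),
          cnt (n - 1 - (p + 1)), cnt 0] := by
      have := runsLE_mvL_cnt (n - 1 - p)
      rw [Nat.sub_sub (n - 1) p 1] at this
      exact RunsLE.lift (by decide) this _ _
        (by simp [Fin.forall_fin_succ]) (by simp [Fin.forall_fin_succ])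
        (by simp [Fin.forall_fin_succ])
    refine (s1.seq (s2.seq (s3.seq (s4.seq s5)))).mono ?_
    simp only [Finset.sum_const, Finset.card_range, smul_eq_mul]
    rw [hl]
    have : n * (5 * n) = 5 * (n * n) := by ring
    omega
  · intro j hj
    refine ⟨?_, hmem j⟩
    intro h0
    have := hlen j hj
    rw [h0] at this
    simp at this
    omega
  · intro j hj
    obtain ⟨A, B, x, h1, h2, h3, h4⟩ := nv_split (chunk n l j) p (by rw [hlen j hj]; exact hp)
    have h5 : chunk 1 l (j * n + p) = [x] := by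
      rw [← h4]
      have := chunk_chunk 1 n l j p hp
      rw [Nat.mul_one] at this
      exact this.symm
    have h6 := stream_nvRow A B x
    rw [hlen j hj] at h3
    rw [h2, h3] at h6
    show Stream nvRow (chunk n l j) (chunk 1 l (j * n + p)) _ _ _
    rw [h1, h5]
    exact h6.mono (by omega)

theorem nv_swapL (n : ℕ) (hn : 1 ≤ n) (l : List Sym) (hl : l.length = n * n) :
    cat n (fun p => cat n (fun j => chunk 1 l (j * n + p))) = swapL n 1 l := by
  unfold swapL
  rw [reindex_eq_cat (n * n) 1 Nat.one_pos _ l (by rw [hl, Nat.mul_one]), ← cat_cat]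
  refine cat_congr fun i hi => cat_congr fun j hj => ?_
  have h1 : (i * n + j) % n = j := by
    rw [Nat.mul_comm, Nat.mul_add_mod, Nat.mod_eq_of_lt hj]
  have h2 : (i * n + j) / n = i := by
    rw [Nat.mul_comm, Nat.mul_add_div (by omega), Nat.div_eq_of_lt hj, Nat.add_zero]
  have h3 : (i * n + j) / (n * n) = 0 := by
    apply Nat.div_eq_of_lt
    nlinarith
  rw [h1, h2, h3, Nat.mod_eq_of_lt hi, Nat.zero_mul, Nat.zero_add]

/-- Tapes: `0` input, `1` output, `2` counter `n`, `3`-`6` scratch. -/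
noncomputable def naivePass : Frag Sym 7 :=
  seq (lift ![2, 3, 5] (rep (incBy 1)))
    (seq (lift ![5] mvL)
      (seq (lift ![1] mvR)
        (seq (lift ![2, 3, 0, 1, 4, 5, 6] (rep nvSweep))
          (seq (lift ![4] zero) (lift ![1] rewind)))))

theorem runsLE_naivePass (n : ℕ) (hn : 1 ≤ n) (l : List Sym) (hl : l.length = n * n)
    (hd : IsData l) :
    RunsLE naivePass ![zt [] (Sym.org :: l), zt [] [Sym.org], cnt n, cnt 0, cnt 0, cnt 0, cnt 0]
      (40 * (n * n * n) + 40)
      ![zt [] (Sym.org :: l), zt [] (Sym.org :: swapL n 1 l), cnt n, cnt 0, cnt 0, cnt 0, cnt 0] := by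
  have hcol : ∀ p, IsData (cat n (fun j => chunk 1 l (j * n + p))) := fun p =>
    IsData.cat fun j _ x hx => hd x (List.mem_of_mem_drop (List.mem_of_mem_take hx))
  have hout : IsData (swapL n 1 l) := by
    rw [← nv_swapL n hn l hl]
    exact IsData.cat fun p _ => hcol p
  have hlo : (swapL n 1 l).length = n * n := by
    rw [← nv_swapL n hn l hl]
    refine length_cat n n _ fun p hp => ?_
    have := length_cat n 1 (fun j => chunk 1 l (j * n + p)) fun j hj => ?_
    · rw [this, Nat.mul_one]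
    · apply length_chunk
      rw [hl, Nat.mul_one]
      nlinarith
  have s1 : RunsLE (lift ![2, 3, 5] (rep (incBy 1)) : Frag Sym 7)
      ![zt [] (Sym.org :: l), zt [] [Sym.org], cnt n, cnt 0, cnt 0, cnt 0, cnt 0] (n * (1 + 5) + 2)
      ![zt [] (Sym.org :: l), zt [] [Sym.org], cnt n, cnt 0, cnt 0, cnt n, cnt 0] := by
    have := runsLE_addMul 1 n 0
    rw [Nat.zero_add, Nat.one_mul] at this
    exact RunsLE.lift (by decide) this _ _
      (by simp [Fin.forall_fin_succ]) (by simp [Fin.forall_fin_succ])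
      (by simp [Fin.forall_fin_succ])
  have s2 : RunsLE (lift ![5] mvL : Frag Sym 7)
      ![zt [] (Sym.org :: l), zt [] [Sym.org], cnt n, cnt 0, cnt 0, cnt n, cnt 0] 1
      ![zt [] (Sym.org :: l), zt [] [Sym.org], cnt n, cnt 0, cnt 0, cnt (n - 1), cnt 0] :=
    RunsLE.lift (by decide) (runsLE_mvL_cnt n) _ _
      (by simp [Fin.forall_fin_succ]) (by simp [Fin.forall_fin_succ])
      (by simp [Fin.forall_fin_succ])
  have s3 : RunsLE (lift ![1] mvR : Frag Sym 7)
      ![zt [] (Sym.org :: l), zt [] [Sym.org], cnt n, cnt 0, cnt 0, cnt (n - 1), cnt 0] 1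
      ![zt [] (Sym.org :: l), zt [Sym.org] [], cnt n, cnt 0, cnt 0, cnt (n - 1), cnt 0] :=
    RunsLE.lift (by decide) (runsLE_mvR_cons [] [] Sym.org) _ _
      (by simp [Fin.forall_fin_succ]) (by simp [Fin.forall_fin_succ])
      (by simp [Fin.forall_fin_succ])
  have key := runsLE_rep (body := nvSweep)
    (fun p => ![zt [] (Sym.org :: l),
      zt ([Sym.org] ++ cat p (fun p => cat n (fun j => chunk 1 l (j * n + p)))) [],
      cnt p, cnt (n - 1 - p), cnt 0]) n (7 * (n * n) + n + 7) (fun p hp => by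
        have := runsLE_nvSweep n p hp l
          ([Sym.org] ++ cat p (fun p => cat n (fun j => chunk 1 l (j * n + p)))) hl hd
        rw [cat_succ, ← List.append_assoc]
        exact this)
  rw [nv_swapL n hn l hl] at key
  have e0 : n - 1 - n = 0 := by omega
  simp only [cat_zero, List.append_nil, Nat.sub_zero, e0] at key
  have s4 : RunsLE (lift ![2, 3, 0, 1, 4, 5, 6] (rep nvSweep) : Frag Sym 7)
      ![zt [] (Sym.org :: l), zt [Sym.org] [], cnt n, cnt 0, cnt 0, cnt (n - 1), cnt 0]
      (n * (7 * (n * n) + n + 7 + 4) + 2)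
      ![zt [] (Sym.org :: l), zt ([Sym.org] ++ swapL n 1 l) [], cnt n, cnt 0, cnt n, cnt 0,
        cnt 0] :=
    RunsLE.lift (by decide) key _ _
      (by simp [Fin.forall_fin_succ]) (by simp [Fin.forall_fin_succ])
      (by simp [Fin.forall_fin_succ])
  have s5 : RunsLE (lift ![4] zero : Frag Sym 7)
      ![zt [] (Sym.org :: l), zt ([Sym.org] ++ swapL n 1 l) [], cnt n, cnt 0, cnt n, cnt 0,
        cnt 0] (2 * n + 1)
      ![zt [] (Sym.org :: l), zt ([Sym.org] ++ swapL n 1 l) [], cnt n, cnt 0, cnt 0, cnt 0,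
        cnt 0] :=
    RunsLE.lift (by decide) (runsLE_zero n) _ _
      (by simp [Fin.forall_fin_succ]) (by simp [Fin.forall_fin_succ])
      (by simp [Fin.forall_fin_succ])
  have s6 : RunsLE (lift ![1] rewind : Frag Sym 7)
      ![zt [] (Sym.org :: l), zt ([Sym.org] ++ swapL n 1 l) [], cnt n, cnt 0, cnt 0, cnt 0,
        cnt 0] (2 * (swapL n 1 l).length + 3)
      ![zt [] (Sym.org :: l), zt [] (Sym.org :: swapL n 1 l), cnt n, cnt 0, cnt 0, cnt 0,
        cnt 0] := by
    have := runsLE_rewind (swapL n 1 l) [] (fun hh => (hout _ hh).2 rfl) (by simp)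
    rw [List.append_nil] at this
    exact RunsLE.lift (by decide) this _ _
      (by simp [Fin.forall_fin_succ]) (by simp [Fin.forall_fin_succ])
      (by simp [Fin.forall_fin_succ])
  refine (s1.seq (s2.seq (s3.seq (s4.seq (s5.seq s6))))).mono ?_
  rw [hlo]
  have h1 : n ≤ n * n := Nat.le_mul_self n
  have h2 : n * n ≤ n * n * n := Nat.le_mul_of_pos_right _ hn
  have h3 : n * (7 * (n * n) + n + 7 + 4) = 7 * (n * n * n) + n * n + 11 * n := by ring
  rw [h3]
  omega

end Frag
end Vale.Agent.P338
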