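import Vale.Agent.P338.TM.ListLib

/-!
TASK M6.  The recursion on index bits, and the classical algorithm (iterated perfect shuffles).
-/

namespace Vale.Agent.P338

variable {α : Type}

namespace Rec

/-- Index map of the transposition of `M × T` blocks:
`(b M + Y) T + z ↦ (b T + z) M + Y`. -/
def rotI (M T idx : ℕ) : ℕ := (idx / (M * T)) * (M * T) + (idx % T) * M + (idx % (M * T)) / T

theorem lt_mul2 {D U B V : ℕ} (hD : D < U) (hB : B < V) : D * V + B < U * V := by
  calc D * V + B < D * V + V := by omega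
    _ = (D + 1) * V := by ring
    _ ≤ U * V := Nat.mul_le_mul_right V hD

theorem rotI_eval (M T b Y z j : ℕ) (hj : j = (b * M + Y) * T + z) (hY : Y < M) (hz : z < T) :
    rotI M T j = (b * T + z) * M + Y := by
  subst hj
  have hT : 0 < T := by omega
  have hM : 0 < M := by omega
  have h0 : (b * M + Y) * T + z = (M * T) * b + (Y * T + z) := by ring
  have h1 : Y * T + z < M * T := lt_mul2 hY hz
  have e1 : ((b * M + Y) * T + z) / (M * T) = b := by
    rw [h0, Nat.mul_add_div (Nat.mul_pos hM hT), Nat.div_eq_of_lt h1, Nat.add_zero]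
  have e2 : ((b * M + Y) * T + z) % T = z := by
    rw [Nat.mul_comm, Nat.mul_add_mod, Nat.mod_eq_of_lt hz]
  have e3 : ((b * M + Y) * T + z) % (M * T) = Y * T + z := by
    rw [h0, Nat.mul_add_mod, Nat.mod_eq_of_lt h1]
  have e4 : (Y * T + z) / T = Y := by
    rw [Nat.mul_comm, Nat.mul_add_div hT, Nat.div_eq_of_lt hz, Nat.add_zero]
  unfold rotI
  rw [e1, e2, e3, e4]
  ring

theorem decomp (n j : ℕ) (hn : 0 < n) : ∃ x y, j = x * n + y ∧ y < n :=
  ⟨j / n, j % n, by rw [Nat.mul_comm]; exact (Nat.div_add_mod j n).symm, Nat.mod_lt _ hn⟩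

theorem rotI_lt (M T K idx : ℕ) (h : idx < K * (M * T)) : rotI M T idx < K * (M * T) := by
  have hMT : 0 < M * T := by
    rcases Nat.eq_zero_or_pos (M * T) with h0 | h0
    · rw [h0] at h; omega
    · exact h0
  have hM : 0 < M := Nat.pos_of_mul_pos_right hMT
  have hT : 0 < T := Nat.pos_of_mul_pos_left hMT
  obtain ⟨x, z, rfl, hz⟩ := decomp T idx hT
  obtain ⟨b, Y, rfl, hY⟩ := decomp M x hM
  rw [rotI_eval M T b Y z _ rfl hY hz]
  have hb : b < K := by
    by_contra hcon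
    have h1 : K * (M * T) ≤ b * (M * T) := Nat.mul_le_mul_right _ (by omega)
    have h2 : (b * M + Y) * T + z = b * (M * T) + (Y * T + z) := by ring
    omega
  calc (b * T + z) * M + Y < (b * T + T) * M := lt_mul2 (by omega) hY
    _ = (b + 1) * (M * T) := by ring
    _ ≤ K * (M * T) := Nat.mul_le_mul_right _ hb

/-- The index map `rotI` for entries of `w` symbols, at the level of symbols. -/
def rotW (M T w j : ℕ) : ℕ := rotI M T (j / w) * w + j % w

theorem rotW_eval (M T w b Y z r j : ℕ) (hj : j = ((b * M + Y) * T + z) * w + r) (hY : Y < M)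
    (hz : z < T) (hr : r < w) : rotW M T w j = ((b * T + z) * M + Y) * w + r := by
  subst hj
  have hw : 0 < w := by omega
  have e1 : (((b * M + Y) * T + z) * w + r) / w = (b * M + Y) * T + z := by
    rw [Nat.mul_comm, Nat.mul_add_div hw, Nat.div_eq_of_lt hr, Nat.add_zero]
  have e2 : (((b * M + Y) * T + z) * w + r) % w = r := by
    rw [Nat.mul_comm, Nat.mul_add_mod, Nat.mod_eq_of_lt hr]
  unfold rotW
  rw [e1, e2, rotI_eval M T b Y z _ rfl hY hz]

/-- `f` acts on lists of `N` blocks of length `L` as the reindexing by `π`. -/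
def Rx (L N : ℕ) (f : List α → List α) (π : ℕ → ℕ) : Prop :=
  (∀ l : List α, l.length = N * L → f l = reindex L π l) ∧ (∀ j, j < N → π j < N)

theorem Rx.length {L N : ℕ} {f : List α → List α} {π : ℕ → ℕ} (h : Rx L N f π) (hL : 0 < L)
    (l : List α) (hl : l.length = N * L) : (f l).length = N * L := by
  rw [h.1 l hl]
  exact length_reindex N L hL π l hl h.2

theorem Rx.comp {L N : ℕ} {f f' : List α → List α} {π π' : ℕ → ℕ} (hL : 0 < L)
    (h : Rx L N f π) (h' : Rx L N f' π') : Rx L N (fun l => f' (f l)) (fun j => π (π' j)) := by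
  refine ⟨fun l hl => ?_, fun j hj => h.2 _ (h'.2 j hj)⟩
  show f' (f l) = _
  rw [h'.1 _ (h.length hL l hl), h.1 l hl]
  exact reindex_reindex N L hL π π' l hl h.2 h'.2

theorem Rx.congr {L N : ℕ} {f : List α → List α} {π π' : ℕ → ℕ} (hL : 0 < L)
    (h : Rx L N f π) (hπ : ∀ j, j < N → π j = π' j) : Rx L N f π' := by
  refine ⟨fun l hl => ?_, fun j hj => ?_⟩
  · rw [h.1 l hl]
    exact reindex_congr N L hL π π' l hl hπ
  · rw [← hπ j hj]
    exact h.2 j hj

theorem Rx.congr_fun {L N : ℕ} {f f' : List α → List α} {π : ℕ → ℕ}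
    (h : Rx L N f π) (hf : ∀ l, f' l = f l) : Rx L N f' π :=
  ⟨fun l hl => by rw [hf, h.1 l hl], h.2⟩

theorem Rx_rotI (M T w K N : ℕ) (hN : N = K * (M * T)) :
    Rx (α := α) w N (reindex w (rotI M T)) (rotI M T) := by
  subst hN
  exact ⟨fun l _ => rfl, fun j hj => rotI_lt M T K j hj⟩

theorem Rx_rotW (M T w K N : ℕ) (hw : 0 < w) (hN : N = K * (M * T * w)) :
    Rx (α := α) 1 N (reindex w (rotI M T)) (rotW M T w) := by
  subst hN
  refine ⟨fun l hl => ?_, fun j hj => ?_⟩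
  · have h1 := reindex_refine 1 w hw Nat.one_pos (rotI M T) (K * (M * T)) l
      (by rw [hl]; ring) (fun j hj => rotI_lt M T K j hj)
    rw [Nat.mul_one] at h1
    exact h1
  · unfold rotW
    have h1 : j / w < K * (M * T) := by
      rw [Nat.div_lt_iff_lt_mul hw]
      calc j < K * (M * T * w) := hj
        _ = K * (M * T) * w := by ring
    have h2 := rotI_lt M T K _ h1
    calc rotI M T (j / w) * w + j % w < K * (M * T) * w := lt_mul2 h2 (Nat.mod_lt _ hw)
      _ = K * (M * T * w) := by ring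

theorem swapL_eq (n w : ℕ) (l : List α) : swapL n w l = reindex w (rotI n n) l := by
  unfold swapL
  congr 1
  funext idx
  unfold rotI
  rw [Nat.mod_mul_right_div_self]

theorem shufL_eq (h e : ℕ) (l : List α) : shufL h e l = reindex e (rotI h 2) l := by
  unfold shufL
  congr 1
  funext idx
  unfold rotI
  rw [Nat.mul_comm 2 h]

theorem unshufL_eq (h e : ℕ) (l : List α) : unshufL h e l = reindex e (rotI 2 h) l := by
  unfold unshufL
  congr 1
  funext idx
  unfold rotI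
  rw [Nat.mul_comm 2 (idx % h)]

theorem length_reindex_rotI (M T w K : ℕ) (l : List α) (hl : l.length = K * (M * T * w)) :
    (reindex w (rotI M T) l).length = K * (M * T * w) := by
  rcases Nat.eq_zero_or_pos w with hw | hw
  · subst hw
    simp [reindex]
  · have h := (Rx_rotI (α := α) M T w K _ rfl).length hw l (by rw [hl]; ring)
    rw [h]
    ring

theorem rot_inv (M T j : ℕ) (hM : 0 < M) (hT : 0 < T) : rotI M T (rotI T M j) = j := by
  obtain ⟨x, z, rfl, hz⟩ := decomp M j hM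
  obtain ⟨b, Y, rfl, hY⟩ := decomp T x hT
  rw [rotI_eval T M b Y z _ rfl hY hz, rotI_eval M T b z Y _ rfl hz hY]

theorem rot_step (M T j : ℕ) (hM : 0 < M) (hT : 0 < T) :
    rotI (2 * M) T (rotI (M * T) 2 j) = rotI M (2 * T) j := by
  obtain ⟨x, β, rfl, hβ⟩ := decomp 2 j (by norm_num)
  obtain ⟨x, z, rfl, hz⟩ := decomp T x hT
  obtain ⟨b, Y, rfl, hY⟩ := decomp M x hM
  rw [rotI_eval (M * T) 2 b (Y * T + z) β _ (by ring) (lt_mul2 hY hz) hβ,
    rotI_eval (2 * M) T b (β * M + Y) z _ (by ring) (lt_mul2 hβ hY) hz,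
    rotI_eval M (2 * T) b Y (z * 2 + β) _ (by ring) hY (by omega)]
  ring

theorem rotI_one_right (N j : ℕ) : rotI N 1 j = j := by
  unfold rotI
  simp only [Nat.mul_one, Nat.mod_one, Nat.zero_mul, Nat.add_zero, Nat.div_one]
  exact Nat.div_add_mod' j N

theorem comp_even (U j : ℕ) (hU : 0 < U) :
    rotW U U U (rotW U U (U * U) (rotW U U 1 (rotW U U U j))) = rotW (U * U) (U * U) 1 j := by
  obtain ⟨x, D, rfl, hD⟩ := decomp U j hU
  obtain ⟨x, C, rfl, hC⟩ := decomp U x hU
  obtain ⟨x, B, rfl, hB⟩ := decomp U x hU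
  obtain ⟨b, A, rfl, hA⟩ := decomp U x hU
  rw [rotW_eval U U U (b * U + A) B C D _ rfl hB hC hD,
    rotW_eval U U 1 ((b * U + A) * U + C) B D 0 _ (by ring) hB hD Nat.one_pos,
    rotW_eval U U (U * U) b A C (D * U + B) _ (by ring) hA hC (lt_mul2 hD hB),
    rotW_eval U U U (b * U + C) A D B _ (by ring) hA hD hB,
    rotW_eval (U * U) (U * U) 1 b (A * U + B) (C * U + D) 0 _ (by ring) (lt_mul2 hA hB)
      (lt_mul2 hC hD) Nat.one_pos]
  ring

theorem comp_odd (U j : ℕ) (hU : 0 < U) :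
    rotW U U (2 * U) (rotW U 2 (U * (2 * U)) (rotW U U (2 * U * (2 * U)) (rotW (2 * U) (2 * U) 1
      (rotW 2 U (U * (2 * U)) (rotW U U (2 * U) j))))) = rotW (U * (2 * U)) (U * (2 * U)) 1 j := by
  obtain ⟨x, D', rfl, hD'⟩ := decomp U j hU
  obtain ⟨x, δ, rfl, hδ⟩ := decomp 2 x (by norm_num)
  obtain ⟨x, C, rfl, hC⟩ := decomp U x hU
  obtain ⟨x, B', rfl, hB'⟩ := decomp U x hU
  obtain ⟨x, β, rfl, hβ⟩ := decomp 2 x (by norm_num)
  obtain ⟨b, A, rfl, hA⟩ := decomp U x hU
  have hz : δ * U + D' < 2 * U := lt_mul2 hδ hD'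
  have hY : β * U + B' < 2 * U := lt_mul2 hβ hB'
  rw [rotW_eval U U (2 * U) ((b * U + A) * 2 + β) B' C (δ * U + D')
      ((((((b * U + A) * 2 + β) * U + B') * U + C) * 2 + δ) * U + D') (by ring) hB' hC hz,
    rotW_eval 2 U (U * (2 * U)) (b * U + A) β C (B' * (2 * U) + (δ * U + D')) _ (by ring) hβ hC
      (lt_mul2 hB' hz),
    rotW_eval (2 * U) (2 * U) 1 ((b * U + A) * U + C) (β * U + B') (δ * U + D') 0 _ (by ring) hY hz
      Nat.one_pos,
    rotW_eval U U (2 * U * (2 * U)) b A C ((δ * U + D') * (2 * U) + (β * U + B')) _ (by ring) hA hC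
      (lt_mul2 hz hY),
    rotW_eval U 2 (U * (2 * U)) (b * U + C) A δ (D' * (2 * U) + (β * U + B')) _ (by ring) hA hδ
      (lt_mul2 hD' hY),
    rotW_eval U U (2 * U) ((b * U + C) * 2 + δ) A D' (β * U + B') _ (by ring) hA hD' hY,
    rotW_eval (U * (2 * U)) (U * (2 * U)) 1 b (A * (2 * U) + (β * U + B'))
      (C * (2 * U) + (δ * U + D')) 0 _ (by ring) (lt_mul2 hA hY) (lt_mul2 hC hz) Nat.one_pos]
  ring

end Rec

open Rec

theorem length_shufL (h e K : ℕ) (l : List α) (hl : l.length = K * (2 * h * e)) :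
    (shufL h e l).length = K * (2 * h * e) := by
  rw [shufL_eq, Nat.mul_comm 2 h]
  exact length_reindex_rotI h 2 e K l (by rw [hl, Nat.mul_comm 2 h])

theorem length_unshufL (h e K : ℕ) (l : List α) (hl : l.length = K * (2 * h * e)) :
    (unshufL h e l).length = K * (2 * h * e) := by
  rw [unshufL_eq]
  exact length_reindex_rotI 2 h e K l hl

theorem unshufL_shufL (h e K : ℕ) (hh : 0 < h) (he : 0 < e) (l : List α)
    (hl : l.length = K * (2 * h * e)) : unshufL h e (shufL h e l) = l := by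
  have h1 : Rx (α := α) e (K * (2 * h)) (reindex e (rotI h 2)) (rotI h 2) :=
    Rx_rotI h 2 e K _ (by ring)
  have h2 : Rx (α := α) e (K * (2 * h)) (reindex e (rotI 2 h)) (rotI 2 h) :=
    Rx_rotI 2 h e K _ rfl
  have hl' : l.length = K * (2 * h) * e := by rw [hl]; ring
  have h3 := (Rx.comp he h1 h2).1 l hl'
  rw [shufL_eq, unshufL_eq]
  exact h3.trans (reindex_id _ e he _ l hl' (fun j _ => rot_inv h 2 j hh (by norm_num)))

/-- The classical algorithm: `a` perfect shuffles of the `4 ^ a` entries of each batch. -/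
theorem iterate_shufL (a ρ K : ℕ) (ha : 1 ≤ a) (l : List α)
    (hl : l.length = K * (2 ^ a * 2 ^ a * 2 ^ ρ)) :
    (shufL (2 ^ (2 * a - 1)) (2 ^ ρ))^[a] l = swapL (2 ^ a) (2 ^ ρ) l := by
  have he : 0 < 2 ^ ρ := Nat.two_pow_pos ρ
  have key : ∀ t, t ≤ a → Rx (α := α) (2 ^ ρ) (K * (2 ^ a * 2 ^ a))
      ((shufL (2 ^ (2 * a - 1)) (2 ^ ρ))^[t]) (rotI (2 ^ (2 * a - t)) (2 ^ t)) := by
    intro t
    induction t with
    | zero =>
      intro _
      refine ⟨fun l hl => ?_, fun j hj => ?_⟩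
      · rw [Function.iterate_zero, id]
        exact (reindex_id _ _ he _ l hl (fun j _ => by rw [pow_zero, rotI_one_right])).symm
      · rw [pow_zero, rotI_one_right]
        exact hj
    | succ t ih =>
      intro ht
      have h1 := ih (by omega)
      have h2 : Rx (α := α) (2 ^ ρ) (K * (2 ^ a * 2 ^ a))
          (shufL (2 ^ (2 * a - 1)) (2 ^ ρ)) (rotI (2 ^ (2 * a - 1)) 2) := by
        refine (Rx_rotI (2 ^ (2 * a - 1)) 2 (2 ^ ρ) K _ ?_).congr_fun (fun l => shufL_eq _ _ l)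
        rw [← pow_add, ← pow_succ]
        congr 2
        omega
      have h3 := Rx.comp he h1 h2
      have h4 : (shufL (α := α) (2 ^ (2 * a - 1)) (2 ^ ρ))^[t + 1]
          = fun l => shufL (2 ^ (2 * a - 1)) (2 ^ ρ) ((shufL (2 ^ (2 * a - 1)) (2 ^ ρ))^[t] l) := by
        funext l
        rw [Function.iterate_succ_apply']
      rw [h4]
      refine h3.congr he (fun j _ => ?_)
      have e1 : 2 ^ (2 * a - t) = 2 * 2 ^ (2 * a - (t + 1)) := by
        rw [← pow_succ']
        congr 1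
        omega
      have e2 : 2 ^ (2 * a - 1) = 2 ^ (2 * a - (t + 1)) * 2 ^ t := by
        rw [← pow_add]
        congr 1
        omega
      rw [e1, e2, rot_step _ _ j (Nat.two_pow_pos _) (Nat.two_pow_pos _), ← pow_succ']
  have h := (key a le_rfl).1 l (by rw [hl]; ring)
  rw [h, swapL_eq]
  congr 2
  congr 1
  omega

namespace Rec

theorem rotW_one (j : ℕ) : rotW 1 1 1 j = j := by
  unfold rotW rotI
  simp [Nat.mod_one]

theorem four_pow (u : ℕ) : (4 : ℕ) ^ u = 2 ^ u * 2 ^ u := by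
  rw [← mul_pow]
  norm_num

theorem Rx_swapL (n w K N : ℕ) (hw : 0 < w) (hN : N = K * (n * n * w)) :
    Rx (α := α) 1 N (swapL n w) (rotW n n w) :=
  (Rx_rotW n n w K N hw hN).congr_fun (fun l => swapL_eq n w l)

theorem Rx_shufL (h e K N : ℕ) (he : 0 < e) (hN : N = K * (h * 2 * e)) :
    Rx (α := α) 1 N (shufL h e) (rotW h 2 e) :=
  (Rx_rotW h 2 e K N he hN).congr_fun (fun l => shufL_eq h e l)

theorem Rx_unshufL (h e K N : ℕ) (he : 0 < e) (hN : N = K * (2 * h * e)) :
    Rx (α := α) 1 N (unshufL h e) (rotW 2 h e) :=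
  (Rx_rotW 2 h e K N he hN).congr_fun (fun l => unshufL_eq h e l)

theorem Rx_algL (κ : ℕ) : ∀ K : ℕ, Rx (α := α) 1 (K * 4 ^ κ) (algL κ) (rotW (2 ^ κ) (2 ^ κ) 1) := by
  induction κ using Nat.strong_induction_on with
  | _ κ ih =>
    intro K
    by_cases h2 : κ < 2
    · have hκ : κ = 0 ∨ κ = 1 := by omega
      rcases hκ with rfl | rfl
      · refine ⟨fun l hl => ?_, fun j hj => ?_⟩
        · rw [algL]
          simp only [Nat.zero_lt_two, dite_true, if_true, pow_zero]
          exact (reindex_id _ 1 Nat.one_pos _ l hl (fun j _ => rotW_one j)).symm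
        · rw [pow_zero, rotW_one]
          exact hj
      · rw [pow_one]
        refine (Rx_shufL 2 1 K _ Nat.one_pos (by norm_num)).congr_fun (fun l => ?_)
        rw [algL]
        simp
    · have hstep : ∀ l : List α, algL κ l = upL κ (algL (κ - κ / 2) (midL κ (downL κ l))) := by
        intro l
        conv_lhs => rw [algL]
        rw [dif_neg h2]
      refine Rx.congr_fun ?_ hstep
      rcases Nat.even_or_odd' κ with ⟨u, rfl | rfl⟩
      · have e1 : 2 * u / 2 = u := by omega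
        have e2 : 2 * u - u = u := by omega
        have hU : 0 < 2 ^ u := Nat.two_pow_pos u
        have h4 : (4 : ℕ) ^ (2 * u) = 2 ^ u * 2 ^ u * (2 ^ u * 2 ^ u) := by
          rw [Nat.two_mul, pow_add, four_pow]
        have p2 : 2 ^ (2 * u) = 2 ^ u * 2 ^ u := by rw [Nat.two_mul, pow_add]
        rw [e1, e2, h4, p2]
        have hd : Rx (α := α) 1 (K * (2 ^ u * 2 ^ u * (2 ^ u * 2 ^ u))) (downL (2 * u))
            (rotW (2 ^ u) (2 ^ u) (2 ^ u)) := by
          refine (Rx_swapL (2 ^ u) (2 ^ u) (K * 2 ^ u) _ hU (by ring)).congr_fun (fun l => ?_)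
          simp only [downL, e1, e2, if_true]
        have hm : Rx (α := α) 1 (K * (2 ^ u * 2 ^ u * (2 ^ u * 2 ^ u))) (midL (2 * u))
            (rotW (2 ^ u) (2 ^ u) (2 ^ u * 2 ^ u)) := by
          refine (Rx_swapL (2 ^ u) (2 ^ u * 2 ^ u) K _ (Nat.mul_pos hU hU) (by ring)).congr_fun
            (fun l => ?_)
          simp only [midL, e1, e2, p2]
        have hr : Rx (α := α) 1 (K * (2 ^ u * 2 ^ u * (2 ^ u * 2 ^ u))) (algL u)
            (rotW (2 ^ u) (2 ^ u) 1) := by
          have := ih u (by omega) (K * (2 ^ u * 2 ^ u))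
          rw [four_pow, Nat.mul_assoc] at this
          exact this
        have hu : Rx (α := α) 1 (K * (2 ^ u * 2 ^ u * (2 ^ u * 2 ^ u))) (upL (2 * u))
            (rotW (2 ^ u) (2 ^ u) (2 ^ u)) := by
          refine (Rx_swapL (2 ^ u) (2 ^ u) (K * 2 ^ u) _ hU (by ring)).congr_fun (fun l => ?_)
          simp only [upL, e1, e2, if_true]
        exact (Rx.comp Nat.one_pos (Rx.comp Nat.one_pos (Rx.comp Nat.one_pos hd hm) hr) hu).congr
          Nat.one_pos (fun j _ => comp_even (2 ^ u) j hU)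
      · have e1 : (2 * u + 1) / 2 = u := by omega
        have e2 : 2 * u + 1 - u = u + 1 := by omega
        have e3 : ¬ (u + 1 = u) := by omega
        have hU : 0 < 2 ^ u := Nat.two_pow_pos u
        have h4 : (4 : ℕ) ^ (2 * u + 1) = 2 ^ u * (2 * 2 ^ u) * (2 ^ u * (2 * 2 ^ u)) := by
          rw [pow_succ, Nat.two_mul, pow_add, four_pow]
          ring
        have p1 : 2 ^ (u + 1) = 2 * 2 ^ u := pow_succ' 2 u
        have p2 : 2 ^ (2 * u + 1) = 2 ^ u * (2 * 2 ^ u) := by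
          rw [pow_succ, Nat.two_mul, pow_add]
          ring
        have p3 : 2 ^ (u + (u + 1)) = 2 ^ u * (2 * 2 ^ u) := by rw [pow_add, p1]
        have p4 : 2 ^ (2 * (u + 1)) = 2 * 2 ^ u * (2 * 2 ^ u) := by rw [Nat.two_mul, pow_add, p1]
        rw [e1, e2, h4, p2]
        have hsw : Rx (α := α) 1 (K * (2 ^ u * (2 * 2 ^ u) * (2 ^ u * (2 * 2 ^ u))))
            (swapL (2 ^ u) (2 * 2 ^ u)) (rotW (2 ^ u) (2 ^ u) (2 * 2 ^ u)) :=
          Rx_swapL (2 ^ u) (2 * 2 ^ u) (K * 2 ^ u * 2) _ (by omega) (by ring)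
        have hsh : Rx (α := α) 1 (K * (2 ^ u * (2 * 2 ^ u) * (2 ^ u * (2 * 2 ^ u))))
            (shufL (2 ^ u) (2 ^ u * (2 * 2 ^ u))) (rotW (2 ^ u) 2 (2 ^ u * (2 * 2 ^ u))) :=
          Rx_shufL (2 ^ u) (2 ^ u * (2 * 2 ^ u)) (K * 2 ^ u) _ (Nat.mul_pos hU (by omega)) (by ring)
        have hun : Rx (α := α) 1 (K * (2 ^ u * (2 * 2 ^ u) * (2 ^ u * (2 * 2 ^ u))))
            (unshufL (2 ^ u) (2 ^ u * (2 * 2 ^ u))) (rotW 2 (2 ^ u) (2 ^ u * (2 * 2 ^ u))) :=
          Rx_unshufL (2 ^ u) (2 ^ u * (2 * 2 ^ u)) (K * 2 ^ u) _ (Nat.mul_pos hU (by omega))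
            (by ring)
        have hd := (Rx.comp Nat.one_pos hsw hsh).congr_fun (f' := downL (2 * u + 1)) (fun l => by
          simp only [downL, e1, e2, e3, if_false, p1, p3])
        have hm : Rx (α := α) 1 (K * (2 ^ u * (2 * 2 ^ u) * (2 ^ u * (2 * 2 ^ u))))
            (midL (2 * u + 1)) (rotW (2 ^ u) (2 ^ u) (2 * 2 ^ u * (2 * 2 ^ u))) := by
          refine (Rx_swapL (2 ^ u) (2 * 2 ^ u * (2 * 2 ^ u)) K _ (by positivity)
            (by ring)).congr_fun (fun l => ?_)
          simp only [midL, e1, e2, p4]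
        have hr : Rx (α := α) 1 (K * (2 ^ u * (2 * 2 ^ u) * (2 ^ u * (2 * 2 ^ u)))) (algL (u + 1))
            (rotW (2 * 2 ^ u) (2 * 2 ^ u) 1) := by
          have := ih (u + 1) (by omega) (K * (2 ^ u * 2 ^ u))
          rw [four_pow, p1] at this
          have hN : K * (2 ^ u * 2 ^ u) * (2 * 2 ^ u * (2 * 2 ^ u))
              = K * (2 ^ u * (2 * 2 ^ u) * (2 ^ u * (2 * 2 ^ u))) := by ring
          rwa [hN] at this
        have hu := (Rx.comp Nat.one_pos hun hsw).congr_fun (f' := upL (2 * u + 1)) (fun l => by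
          simp only [upL, e1, e2, e3, if_false, p1, p3])
        exact (Rx.comp Nat.one_pos (Rx.comp Nat.one_pos (Rx.comp Nat.one_pos hd hm) hr) hu).congr
          Nat.one_pos (fun j _ => comp_odd (2 ^ u) j hU)

end Rec

theorem length_algL (κ K : ℕ) (l : List α) (hl : l.length = K * 4 ^ κ) :
    (algL κ l).length = K * 4 ^ κ := by
  have := (Rx_algL κ K).length Nat.one_pos l (by rw [hl, Nat.mul_one])
  rwa [Nat.mul_one] at this

/-- Correctness of the recursion. -/
theorem algL_eq (κ K : ℕ) (l : List α) (hl : l.length = K * 4 ^ κ) :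
    algL κ l = swapL (2 ^ κ) 1 l := by
  have h4 : (4 : ℕ) ^ κ = 2 ^ κ * 2 ^ κ * 1 := by
    rw [Nat.mul_one, ← mul_pow]
    norm_num
  rw [(Rx_algL κ K).1 l (by rw [hl, Nat.mul_one]), swapL_eq,
    (Rx_rotW (2 ^ κ) (2 ^ κ) 1 K (K * 4 ^ κ) Nat.one_pos (by rw [h4])).1 l (by rw [hl, Nat.mul_one])]

end Vale.Agent.P338
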