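import Vale.Agent.P338.TM.Stream

/-!
The passes `shufPass` and `unshufPass` (perfect shuffle of batches of `2 h` entries of `e` symbols).
Tapes: `0` input, `1` output, `2` counter `h`, `3` counter `e`, `4`, `5` shadow counters,
`6` scratch data tape.
-/

set_option linter.unusedSimpArgs false

namespace Vale.Agent.P338
namespace Frag
open Matrix

/-- Aux tapes: counter, shadow, `U`.  Move a block from the input to the end of `U`. -/
noncomputable def copyXU : Frag Sym 5 := lift ![2, 3, 0, 4] (rep copy1)

theorem stream_copyXU (A V : List Sym) :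
    Stream copyXU A [] ![cnt A.length, cnt 0, zt V []] ![cnt A.length, cnt 0, zt (V ++ A) []]
      (A.length * 5 + 2) := by
  intro L R O
  rw [List.append_nil]
  exact RunsLE.lift (by decide) (runsLE_copyN L A R V) _ _ (by simp [Fin.forall_fin_succ]) (by simp [Fin.forall_fin_succ])
    (by simp [Fin.forall_fin_succ])

/-- Aux tapes: counter, shadow, `U`.  Copy a block from `U` to the output. -/
noncomputable def copyUY : Frag Sym 5 := lift ![2, 3, 4, 1] (rep copy1)

theorem stream_copyUY (A V W : List Sym) :
    Stream copyUY [] A ![cnt A.length, cnt 0, zt V (A ++ W)] ![cnt A.length, cnt 0, zt (V ++ A) W]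
      (A.length * 5 + 2) := by
  intro L R O
  rw [List.append_nil, List.nil_append]
  exact RunsLE.lift (by decide) (runsLE_copyN V A W O) _ _ (by simp [Fin.forall_fin_succ]) (by simp [Fin.forall_fin_succ])
    (by simp [Fin.forall_fin_succ])

/-- Aux tapes: counter, shadow, (unused).  Copy a block from the input to the output. -/
noncomputable def copyXY : Frag Sym 5 := liftS ![0, 1] (repS copy1)

theorem stream_copyXY (A : List Sym) (t : Tape Sym) :
    Stream copyXY A A ![cnt A.length, cnt 0, t] ![cnt A.length, cnt 0, t] (A.length * 5 + 2) :=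
  (stream_copyN A).lift (by decide) _ _ (by simp [Fin.forall_fin_succ]) (by simp [Fin.forall_fin_succ]) (by simp [Fin.forall_fin_succ])

theorem cat_sub_split {α : Type} (v j : ℕ) (hj : j < v) (c : ℕ → List α) :
    cat (v - j) (fun i => c (j + i)) = c j ++ cat (v - (j + 1)) (fun i => c (j + 1 + i)) := by
  obtain ⟨u, hu⟩ : ∃ u, v - j = u + 1 := ⟨v - j - 1, by omega⟩
  have hu' : v - (j + 1) = u := by omega
  rw [hu, hu', cat_succ']
  simp only [Nat.add_zero]
  congr 1
  apply cat_congr
  intro i _
  congr 1
  omega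

/-- Aux tape: `U` (head at the end).  Append the contents of `U` to the output and erase `U`. -/
noncomputable def flushU : Frag Sym 3 :=
  seq (lift ![2] rewind) (seq (lift ![2] mvR) (seq (lift ![2, 1] copyAll) (lift ![2] eraseBack)))

theorem stream_flushU (C : List Sym) (hC : IsData C) :
    Stream flushU [] C ![zt (Sym.org :: C) []] ![zt [] [Sym.org]] (6 * C.length + 8) := by
  intro L R O
  rw [List.append_nil, List.nil_append]
  have horg : Sym.org ∉ C := fun h => (hC _ h).2 rfl
  have hbl : Sym.blank ∉ C := fun h => (hC _ h).1 rfl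
  have s1 : RunsLE (lift ![2] rewind : Frag Sym 3) ![zt L R, zt O [], zt (Sym.org :: C) []]
      (2 * C.length + 3) ![zt L R, zt O [], zt [] (Sym.org :: C)] := by
    have := runsLE_rewind C [] horg (by simp)
    rw [List.append_nil] at this
    exact RunsLE.lift (by decide) this _ _ (by simp [Fin.forall_fin_succ]) (by simp [Fin.forall_fin_succ]) (by simp [Fin.forall_fin_succ])
  have s2 : RunsLE (lift ![2] mvR : Frag Sym 3) ![zt L R, zt O [], zt [] (Sym.org :: C)]
      1 ![zt L R, zt O [], zt [Sym.org] C] :=
    RunsLE.lift (by decide) (runsLE_mvR_cons [] C Sym.org) _ _ (by simp [Fin.forall_fin_succ]) (by simp [Fin.forall_fin_succ])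
      (by simp [Fin.forall_fin_succ])
  have s3 : RunsLE (lift ![2, 1] copyAll : Frag Sym 3) ![zt L R, zt O [], zt [Sym.org] C]
      (2 * C.length + 1) ![zt L R, zt (O ++ C) [], zt (Sym.org :: C) []] :=
    RunsLE.lift (by decide) (runsLE_copyAll [Sym.org] C O hbl) _ _ (by simp [Fin.forall_fin_succ]) (by simp [Fin.forall_fin_succ])
      (by simp [Fin.forall_fin_succ])
  have s4 : RunsLE (lift ![2] eraseBack : Frag Sym 3) ![zt L R, zt (O ++ C) [], zt (Sym.org :: C) []]
      (2 * C.length + 3) ![zt L R, zt (O ++ C) [], zt [] [Sym.org]] :=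
    RunsLE.lift (by decide) (runsLE_eraseBack C horg) _ _ (by simp [Fin.forall_fin_succ]) (by simp [Fin.forall_fin_succ])
      (by simp [Fin.forall_fin_succ])
  exact (s1.seq (s2.seq (s3.seq s4))).mono (by omega)

/-! ### Inverse shuffle -/

/-- Aux tapes: counter `e`, shadow, `U`: one entry to the output, one entry to `U`. -/
noncomputable def unshInner : Frag Sym 5 := seq copyXY copyXU

theorem stream_unshInner (A B V : List Sym) (h : B.length = A.length) :
    Stream unshInner (A ++ B) A ![cnt A.length, cnt 0, zt V []] ![cnt A.length, cnt 0, zt (V ++ B) []]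
      (A.length * 10 + 4) := by
  have h1 := stream_copyXY A (zt V [])
  have h2 := stream_copyXU B V
  rw [h] at h2
  have := h1.seq h2
  rw [List.append_nil] at this
  exact this.mono (by omega)

/-- Aux tapes: counter `h`, shadow, counter `e`, shadow, `U` (rest position). One batch. -/
noncomputable def unshBody0 : Frag Sym 7 :=
  seq (onAuxAt ![4] mvR) (seq (repS unshInner) (liftS ![4] flushU))

theorem stream_unshBody0 (h e : ℕ) (A B : ℕ → List Sym) (hA : ∀ y, y < h → (A y).length = e)
    (hB : ∀ y, y < h → (B y).length = e) (hd : ∀ y, y < h → IsData (B y)) :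
    Stream unshBody0 (cat h fun y => A y ++ B y) (cat h A ++ cat h B)
      ![cnt h, cnt 0, cnt e, cnt 0, zt [] [Sym.org]] ![cnt h, cnt 0, cnt e, cnt 0, zt [] [Sym.org]]
      (16 * (h * e) + 8 * h + 11) := by
  have s1 : Stream (onAuxAt (K := 5) ![4] mvR) [] []
      ![cnt h, cnt 0, cnt e, cnt 0, zt [] [Sym.org]] ![cnt h, cnt 0, cnt e, cnt 0, zt [Sym.org] []] 1 :=
    Stream.onAuxAt (by decide) (runsLE_mvR_cons [] [] Sym.org) _ _ (by simp [Fin.forall_fin_succ]) (by simp [Fin.forall_fin_succ])
      (by simp [Fin.forall_fin_succ])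
  have s2 := Stream.rep (body := unshInner) h (fun y => A y ++ B y) A
    (fun j => ![cnt e, cnt 0, zt (Sym.org :: cat j B) []]) (e * 10 + 4) (by
      intro j hj
      have := stream_unshInner (A j) (B j) (Sym.org :: cat j B) (by rw [hA j hj, hB j hj])
      rw [hA j hj] at this
      rw [cat_succ]
      exact this)
  have hlen : (cat h B).length = h * e := length_cat h e B hB
  have s3 : Stream (liftS (K := 5) ![4] flushU) [] (cat h B)
      ![cnt h, cnt 0, cnt e, cnt 0, zt (Sym.org :: cat h B) []]
      ![cnt h, cnt 0, cnt e, cnt 0, zt [] [Sym.org]] (6 * (h * e) + 8) := by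
    have := stream_flushU (cat h B) (IsData.cat hd)
    rw [hlen] at this
    exact this.lift (by decide) _ _ (by simp [Fin.forall_fin_succ]) (by simp [Fin.forall_fin_succ]) (by simp [Fin.forall_fin_succ])
  have := s1.seq (s2.seq s3)
  simp only [List.nil_append, List.append_nil] at this
  refine this.mono ?_
  have e1 : h * (e * 10 + 4 + 4) = 10 * (h * e) + 8 * h := by ring
  omega

/-- One batch, tapes in the order of the pass. -/
noncomputable def unshBody : Frag Sym 7 := liftS ![0, 2, 1, 3, 4] unshBody0

theorem stream_unshBody (h e : ℕ) (A B : ℕ → List Sym) (hA : ∀ y, y < h → (A y).length = e)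
    (hB : ∀ y, y < h → (B y).length = e) (hd : ∀ y, y < h → IsData (B y)) :
    Stream unshBody (cat h fun y => A y ++ B y) (cat h A ++ cat h B)
      ![cnt h, cnt e, cnt 0, cnt 0, cnt 0] ![cnt h, cnt e, cnt 0, cnt 0, cnt 0]
      (16 * (h * e) + 8 * h + 11) :=
  (stream_unshBody0 h e A B hA hB hd).lift (by decide) _ _
    (by simp [Fin.forall_fin_succ, cnt_eq_zt_zero]) (by simp [Fin.forall_fin_succ, cnt_eq_zt_zero])
    (by simp [Fin.forall_fin_succ])

/-- Index arithmetic for the two shuffles. -/
theorem shuf_index (h b y : ℕ) (hy : y < h) :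
    (b * (2 * h) + y) / (2 * h) = b ∧ (b * (2 * h) + y) % (2 * h) = y ∧
    (b * (2 * h) + (h + y)) / (2 * h) = b ∧ (b * (2 * h) + (h + y)) % (2 * h) = h + y := by
  have h2 : 0 < 2 * h := by omega
  refine ⟨?_, ?_, ?_, ?_⟩
  · rw [Nat.mul_comm b, Nat.mul_add_div h2, Nat.div_eq_of_lt (by omega)]; rfl
  · rw [Nat.mul_comm b, Nat.mul_add_mod, Nat.mod_eq_of_lt (by omega)]
  · rw [Nat.mul_comm b, Nat.mul_add_div h2, Nat.div_eq_of_lt (by omega)]; rfl
  · rw [Nat.mul_comm b, Nat.mul_add_mod, Nat.mod_eq_of_lt (by omega)]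

theorem cat_pairs {α : Type} (K h : ℕ) (E : ℕ → List α) :
    cat K (fun b => cat h fun y => E (b * (2 * h) + 2 * y) ++ E (b * (2 * h) + 2 * y + 1))
      = cat (K * (2 * h)) E := by
  rw [← cat_cat K (2 * h) E]
  apply cat_congr
  intro b _
  rw [Nat.mul_comm 2 h, ← cat_cat h 2 (fun j => E (b * (h * 2) + j))]
  apply cat_congr
  intro y _
  have e2 : cat 2 (fun j => E (b * (h * 2) + (y * 2 + j)))
      = E (b * (h * 2) + (y * 2 + 0)) ++ E (b * (h * 2) + (y * 2 + 1)) := by
    rw [cat_succ, cat_succ, cat_zero, List.nil_append]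
  rw [e2]
  congr 2 <;> ring

theorem unshufL_eq_cat {α : Type} (K h e : ℕ) (hh : 0 < h) (he : 0 < e) (l : List α)
    (hl : l.length = K * (2 * h * e)) :
    unshufL h e l = cat K (fun b => cat h (fun y => chunk e l (b * (2 * h) + 2 * y)) ++
      cat h (fun y => chunk e l (b * (2 * h) + 2 * y + 1))) := by
  unfold unshufL
  rw [reindex_eq_cat (K * (2 * h)) e he _ l (by rw [hl]; ring), ← cat_cat K (2 * h)]
  apply cat_congr
  intro b _
  rw [two_mul h, cat_add]
  congr 1
  · apply cat_congr
    intro y hy
    obtain ⟨h1, h2, _, _⟩ := shuf_index h b y hy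
    rw [← two_mul h, h1, h2, Nat.div_eq_of_lt hy]
    have h3 : (b * (2 * h) + y) % h = y := by
      have : b * (2 * h) + y = y + h * (2 * b) := by ring
      rw [this, Nat.add_mul_mod_self_left, Nat.mod_eq_of_lt hy]
    rw [h3]
    rfl
  · apply cat_congr
    intro y hy
    obtain ⟨_, _, h1, h2⟩ := shuf_index h b y hy
    rw [← two_mul h, h1, h2]
    have h3 : (b * (2 * h) + (h + y)) % h = y := by
      have : b * (2 * h) + (h + y) = y + h * (2 * b + 1) := by ring
      rw [this, Nat.add_mul_mod_self_left, Nat.mod_eq_of_lt hy]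
    have h4 : (h + y) / h = 1 := by
      rw [Nat.add_div_left _ hh, Nat.div_eq_of_lt hy]
    rw [h3, h4]

/-- The inverse shuffle pass. -/
noncomputable def unshufPass : Frag Sym 7 := pass unshBody

theorem runsLE_unshufPass (h e K : ℕ) (hh : 0 < h) (he : 0 < e) (l : List Sym)
    (hl : l.length = K * (2 * h * e)) (hd : IsData l) :
    RunsLE unshufPass ![zt [] (Sym.org :: l), zt [] [Sym.org], cnt h, cnt e, cnt 0, cnt 0, cnt 0]
      (22 * l.length + 8)
      ![zt [] (Sym.org :: l), zt [] (Sym.org :: unshufL h e l), cnt h, cnt e, cnt 0, cnt 0, cnt 0] := by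
  have hl' : l.length = (K * (2 * h)) * e := by rw [hl]; ring
  have hlen : ∀ j, j < K * (2 * h) → (chunk e l j).length = e := fun j hj =>
    length_chunk_of_lt (K * (2 * h)) e l hl' j hj
  have hmem : ∀ j, IsData (chunk e l j) := fun j x hx =>
    hd x (List.mem_of_mem_drop (List.mem_of_mem_take hx))
  have hidx : ∀ b y, b < K → y < h → b * (2 * h) + 2 * y + 1 < K * (2 * h) := by
    intro b y hb hy
    have : (b + 1) * (2 * h) ≤ K * (2 * h) := Nat.mul_le_mul_right _ hb
    have e1 : (b + 1) * (2 * h) = b * (2 * h) + 2 * h := by ring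
    omega
  have key := runsLE_pass (body := unshBody) K
    (fun b => cat h fun y => chunk e l (b * (2 * h) + 2 * y) ++ chunk e l (b * (2 * h) + 2 * y + 1))
    (fun b => cat h (fun y => chunk e l (b * (2 * h) + 2 * y)) ++
      cat h (fun y => chunk e l (b * (2 * h) + 2 * y + 1)))
    (fun _ => ![cnt h, cnt e, cnt 0, cnt 0, cnt 0]) (fun _ => 16 * (h * e) + 8 * h + 11) ?_ ?_
  · have e1 : cat K (fun b => cat h fun y => chunk e l (b * (2 * h) + 2 * y) ++
        chunk e l (b * (2 * h) + 2 * y + 1)) = l := by
      rw [cat_pairs K h (chunk e l)]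
      exact cat_chunk _ e l hl'
    rw [e1, ← unshufL_eq_cat K h e hh he l hl] at key
    have e3 : (unshufL h e l).length = l.length := by
      rw [unshufL_eq_cat K h e hh he l hl, length_cat K (h * e + h * e) _ (fun b hb => by
        rw [List.length_append,
          length_cat h e _ (fun y hy => hlen _ (by have := hidx b y hb hy; omega)),
          length_cat h e _ (fun y hy => hlen _ (hidx b y hb hy))]), hl]
      ring
    rw [e3] at key
    refine RunsLE.mono key ?_
    simp only [Finset.sum_const, Finset.card_range, smul_eq_mul]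
    have hhe : h ≤ h * e := Nat.le_mul_of_pos_right _ he
    have h1 : 1 ≤ h * e := Nat.mul_pos hh he
    have e4 : K * (2 * h * e) = 2 * (K * (h * e)) := by ring
    have e5 : K * (16 * (h * e) + 8 * h + 11) = 16 * (K * (h * e)) + 8 * (K * h) + 11 * K := by ring
    have e6 : K * h ≤ K * (h * e) := Nat.mul_le_mul_left _ hhe
    have e7 : K ≤ K * (h * e) := Nat.le_mul_of_pos_right _ h1
    rw [hl, e4, e5]
    omega
  · intro b hb
    refine ⟨?_, ?_, ?_⟩
    · intro h0
      have hlen2 : (cat h fun y => chunk e l (b * (2 * h) + 2 * y) ++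
          chunk e l (b * (2 * h) + 2 * y + 1)).length = h * (e + e) := by
        apply length_cat
        intro y hy
        rw [List.length_append, hlen _ (by have := hidx b y hb hy; omega), hlen _ (hidx b y hb hy)]
      rw [h0] at hlen2
      have : 0 < h * (e + e) := Nat.mul_pos hh (by omega)
      simp at hlen2
      omega
    · exact IsData.cat fun y _ => (hmem _).append (hmem _)
    · exact (IsData.cat fun y _ => hmem _).append (IsData.cat fun y _ => hmem _)
  · intro b hb
    exact stream_unshBody h e _ _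
      (fun y hy => hlen _ (by have := hidx b y hb hy; omega)) (fun y hy => hlen _ (hidx b y hb hy))
      (fun y _ => hmem _)

/-! ### Shuffle -/

/-- Aux tapes: counter `e`, shadow, `U`: one entry from `U`, one entry from the input. -/
noncomputable def shInner : Frag Sym 5 := seq copyUY copyXY

theorem stream_shInner (A B V W : List Sym) (h : B.length = A.length) :
    Stream shInner B (A ++ B) ![cnt A.length, cnt 0, zt V (A ++ W)]
      ![cnt A.length, cnt 0, zt (V ++ A) W] (A.length * 10 + 4) := by
  have h1 := stream_copyUY A V W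
  have h2 := stream_copyXY B (zt (V ++ A) W)
  rw [h] at h2
  have := h1.seq h2
  rw [List.nil_append] at this
  exact this.mono (by omega)

/-- Aux tapes: counter `h`, shadow, counter `e`, shadow, `U` (rest position). One batch. -/
noncomputable def shBody0 : Frag Sym 7 :=
  seq (onAuxAt ![4] mvR) (seq (repS copyXU) (seq (onAuxAt ![4] (seq rewind mvR))
    (seq (repS shInner) (onAuxAt ![4] eraseBack))))

theorem stream_shBody0 (h e : ℕ) (A B : ℕ → List Sym) (hA : ∀ y, y < h → (A y).length = e)
    (hB : ∀ y, y < h → (B y).length = e) (hd : ∀ y, y < h → IsData (A y)) :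
    Stream shBody0 (cat h A ++ cat h B) (cat h fun y => A y ++ B y)
      ![cnt h, cnt 0, cnt e, cnt 0, zt [] [Sym.org]] ![cnt h, cnt 0, cnt e, cnt 0, zt [] [Sym.org]]
      (19 * (h * e) + 14 * h + 12) := by
  have hC : IsData (cat h A) := IsData.cat hd
  have horg : Sym.org ∉ cat h A := fun hx => (hC _ hx).2 rfl
  have hlen : (cat h A).length = h * e := length_cat h e A hA
  have s1 : Stream (onAuxAt (K := 5) ![4] mvR) [] []
      ![cnt h, cnt 0, cnt e, cnt 0, zt [] [Sym.org]] ![cnt h, cnt 0, cnt e, cnt 0, zt [Sym.org] []] 1 :=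
    Stream.onAuxAt (by decide) (runsLE_mvR_cons [] [] Sym.org) _ _ (by simp [Fin.forall_fin_succ])
      (by simp [Fin.forall_fin_succ]) (by simp [Fin.forall_fin_succ])
  have s2 := Stream.rep (body := copyXU) h A (fun _ => [])
    (fun j => ![cnt e, cnt 0, zt (Sym.org :: cat j A) []]) (e * 5 + 2) (by
      intro j hj
      have := stream_copyXU (A j) (Sym.org :: cat j A)
      rw [hA j hj] at this
      rw [cat_succ]
      exact this)
  have e0 : cat h (fun _ => ([] : List Sym)) = [] := by
    have := cat_replicate h 0 Sym.blank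
    simpa using this
  rw [e0] at s2
  have s3 : Stream (onAuxAt (K := 5) ![4] (seq rewind mvR)) [] []
      ![cnt h, cnt 0, cnt e, cnt 0, zt (Sym.org :: cat h A) []]
      ![cnt h, cnt 0, cnt e, cnt 0, zt [Sym.org] (cat h A)] (2 * (h * e) + 4) := by
    have r1 := runsLE_rewind (cat h A) [] horg (by simp)
    rw [List.append_nil, hlen] at r1
    have r2 := r1.seq (runsLE_mvR_cons [] (cat h A) Sym.org)
    exact Stream.onAuxAt (by decide) r2 _ _ (by simp [Fin.forall_fin_succ])
      (by simp [Fin.forall_fin_succ]) (by simp [Fin.forall_fin_succ])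
  have s4 := Stream.rep (body := shInner) h B (fun y => A y ++ B y)
    (fun j => ![cnt e, cnt 0, zt (Sym.org :: cat j A) (cat (h - j) (fun i => A (j + i)))])
    (e * 10 + 4) (by
      intro j hj
      have := stream_shInner (A j) (B j) (Sym.org :: cat j A)
        (cat (h - (j + 1)) (fun i => A (j + 1 + i))) (by rw [hA j hj, hB j hj])
      rw [hA j hj] at this
      rw [cat_succ, cat_sub_split h j hj A]
      exact this)
  have s5 : Stream (onAuxAt (K := 5) ![4] eraseBack) [] []
      ![cnt h, cnt 0, cnt e, cnt 0, zt (Sym.org :: cat h A) []]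
      ![cnt h, cnt 0, cnt e, cnt 0, zt [] [Sym.org]] (2 * (h * e) + 3) := by
    have r1 := runsLE_eraseBack (cat h A) horg
    rw [hlen] at r1
    exact Stream.onAuxAt (by decide) r1 _ _ (by simp [Fin.forall_fin_succ])
      (by simp [Fin.forall_fin_succ]) (by simp [Fin.forall_fin_succ])
  simp only [cat_zero, Nat.sub_zero, Nat.zero_add, Nat.sub_self] at s4
  have := s1.seq (s2.seq (s3.seq (s4.seq s5)))
  simp only [List.nil_append, List.append_nil] at this
  refine this.mono ?_
  have e1 : h * (e * 5 + 2 + 4) = 5 * (h * e) + 6 * h := by ring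
  have e2 : h * (e * 10 + 4 + 4) = 10 * (h * e) + 8 * h := by ring
  omega

/-- One batch, tapes in the order of the pass. -/
noncomputable def shBody : Frag Sym 7 := liftS ![0, 2, 1, 3, 4] shBody0

theorem stream_shBody (h e : ℕ) (A B : ℕ → List Sym) (hA : ∀ y, y < h → (A y).length = e)
    (hB : ∀ y, y < h → (B y).length = e) (hd : ∀ y, y < h → IsData (A y)) :
    Stream shBody (cat h A ++ cat h B) (cat h fun y => A y ++ B y)
      ![cnt h, cnt e, cnt 0, cnt 0, cnt 0] ![cnt h, cnt e, cnt 0, cnt 0, cnt 0]
      (19 * (h * e) + 14 * h + 12) :=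
  (stream_shBody0 h e A B hA hB hd).lift (by decide) _ _
    (by simp [Fin.forall_fin_succ, cnt_eq_zt_zero]) (by simp [Fin.forall_fin_succ, cnt_eq_zt_zero])
    (by simp [Fin.forall_fin_succ])

theorem shufL_eq_cat {α : Type} (K h e : ℕ) (hh : 0 < h) (he : 0 < e) (l : List α)
    (hl : l.length = K * (2 * h * e)) :
    shufL h e l = cat K (fun b => cat h fun y =>
      chunk e l (b * (2 * h) + y) ++ chunk e l (b * (2 * h) + (h + y))) := by
  unfold shufL
  rw [reindex_eq_cat (K * (2 * h)) e he _ l (by rw [hl]; ring), ← cat_pairs K h]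
  apply cat_congr
  intro b _
  apply cat_congr
  intro y hy
  have h2 : 0 < 2 * h := by omega
  have a1 : (b * (2 * h) + 2 * y) / (2 * h) = b := by
    rw [Nat.mul_comm b, Nat.mul_add_div h2, Nat.div_eq_of_lt (by omega)]; rfl
  have a2 : (b * (2 * h) + 2 * y) % (2 * h) = 2 * y := by
    rw [Nat.mul_comm b, Nat.mul_add_mod, Nat.mod_eq_of_lt (by omega)]
  have a3 : (b * (2 * h) + 2 * y + 1) / (2 * h) = b := by
    rw [Nat.add_assoc, Nat.mul_comm b, Nat.mul_add_div h2, Nat.div_eq_of_lt (by omega)]; rfl
  have a4 : (b * (2 * h) + 2 * y + 1) % (2 * h) = 2 * y + 1 := by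
    rw [Nat.add_assoc, Nat.mul_comm b, Nat.mul_add_mod, Nat.mod_eq_of_lt (by omega)]
  have a5 : (b * (2 * h) + 2 * y) % 2 = 0 := by
    have : b * (2 * h) + 2 * y = 2 * (b * h + y) := by ring
    rw [this, Nat.mul_mod_right]
  have a6 : (b * (2 * h) + 2 * y + 1) % 2 = 1 := by
    have : b * (2 * h) + 2 * y + 1 = 1 + 2 * (b * h + y) := by ring
    rw [this, Nat.add_mul_mod_self_left]
  rw [a1, a2, a3, a4, a5, a6]
  have a7 : 2 * y / 2 = y := by omega
  have a8 : (2 * y + 1) / 2 = y := by omega
  rw [a7, a8]
  congr 2 <;> ring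

/-- The shuffle pass. -/
noncomputable def shufPass : Frag Sym 7 := pass shBody

theorem runsLE_shufPass (h e K : ℕ) (hh : 0 < h) (he : 0 < e) (l : List Sym)
    (hl : l.length = K * (2 * h * e)) (hd : IsData l) :
    RunsLE shufPass ![zt [] (Sym.org :: l), zt [] [Sym.org], cnt h, cnt e, cnt 0, cnt 0, cnt 0]
      (27 * l.length + 8)
      ![zt [] (Sym.org :: l), zt [] (Sym.org :: shufL h e l), cnt h, cnt e, cnt 0, cnt 0, cnt 0] := by
  have hl' : l.length = (K * (2 * h)) * e := by rw [hl]; ring
  have hlen : ∀ j, j < K * (2 * h) → (chunk e l j).length = e := fun j hj =>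
    length_chunk_of_lt (K * (2 * h)) e l hl' j hj
  have hmem : ∀ j, IsData (chunk e l j) := fun j x hx =>
    hd x (List.mem_of_mem_drop (List.mem_of_mem_take hx))
  have hidx : ∀ b y, b < K → y < h → b * (2 * h) + (h + y) < K * (2 * h) := by
    intro b y hb hy
    have : (b + 1) * (2 * h) ≤ K * (2 * h) := Nat.mul_le_mul_right _ hb
    have e1 : (b + 1) * (2 * h) = b * (2 * h) + 2 * h := by ring
    omega
  have key := runsLE_pass (body := shBody) K
    (fun b => cat h (fun y => chunk e l (b * (2 * h) + y)) ++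
      cat h (fun y => chunk e l (b * (2 * h) + (h + y))))
    (fun b => cat h fun y => chunk e l (b * (2 * h) + y) ++ chunk e l (b * (2 * h) + (h + y)))
    (fun _ => ![cnt h, cnt e, cnt 0, cnt 0, cnt 0]) (fun _ => 19 * (h * e) + 14 * h + 12) ?_ ?_
  · have e1 : cat K (fun b => cat h (fun y => chunk e l (b * (2 * h) + y)) ++
        cat h (fun y => chunk e l (b * (2 * h) + (h + y)))) = l := by
      have : ∀ b, cat h (fun y => chunk e l (b * (2 * h) + y)) ++
          cat h (fun y => chunk e l (b * (2 * h) + (h + y)))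
          = cat (2 * h) (fun j => chunk e l (b * (2 * h) + j)) := by
        intro b
        rw [two_mul h, cat_add]
      simp only [this]
      rw [cat_cat K (2 * h) (chunk e l)]
      exact cat_chunk _ e l hl'
    rw [e1, ← shufL_eq_cat K h e hh he l hl] at key
    have e3 : (shufL h e l).length = l.length := by
      rw [shufL_eq_cat K h e hh he l hl, length_cat K (h * (e + e)) _ (fun b hb => by
        apply length_cat
        intro y hy
        rw [List.length_append, hlen _ (by have := hidx b y hb hy; omega),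
          hlen _ (hidx b y hb hy)]), hl]
      ring
    rw [e3] at key
    refine RunsLE.mono key ?_
    simp only [Finset.sum_const, Finset.card_range, smul_eq_mul]
    have hhe : h ≤ h * e := Nat.le_mul_of_pos_right _ he
    have h1 : 1 ≤ h * e := Nat.mul_pos hh he
    have e4 : K * (2 * h * e) = 2 * (K * (h * e)) := by ring
    have e5 : K * (19 * (h * e) + 14 * h + 12) = 19 * (K * (h * e)) + 14 * (K * h) + 12 * K := by
      ring
    have e6 : K * h ≤ K * (h * e) := Nat.mul_le_mul_left _ hhe
    have e7 : K ≤ K * (h * e) := Nat.le_mul_of_pos_right _ h1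
    rw [hl, e4, e5]
    omega
  · intro b hb
    refine ⟨?_, ?_, ?_⟩
    · intro h0
      have hlen2 : (cat h (fun y => chunk e l (b * (2 * h) + y)) ++
          cat h (fun y => chunk e l (b * (2 * h) + (h + y)))).length = h * e + h * e := by
        rw [List.length_append,
          length_cat h e _ (fun y hy => hlen _ (by have := hidx b y hb hy; omega)),
          length_cat h e _ (fun y hy => hlen _ (hidx b y hb hy))]
      rw [h0] at hlen2
      have : 0 < h * e := Nat.mul_pos hh he
      simp at hlen2
      omega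
    · exact (IsData.cat fun y _ => hmem _).append (IsData.cat fun y _ => hmem _)
    · exact IsData.cat fun y _ => (hmem _).append (hmem _)
  · intro b hb
    exact stream_shBody h e _ _
      (fun y hy => hlen _ (by have := hidx b y hb hy; omega)) (fun y hy => hlen _ (hidx b y hb hy))
      (fun y _ => hmem _)

end Frag
end Vale.Agent.P338
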