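import Vale.Agent.P338.TM.Stream
import Vale.Agent.P338.TM.MathRec
import Vale.Agent.P338.TM.PassShuf

namespace Vale.Agent.P338
namespace Frag
open Matrix

theorem IsData.org_notMem {l : List Sym} (h : IsData l) : Sym.org ∉ l := fun hh => (h _ hh).2 rfl
theorem IsData.blank_notMem {l : List Sym} (h : IsData l) : Sym.blank ∉ l := fun hh => (h _ hh).1 rfl

/-- Erase a data tape in rest position. -/
def eraseTape : Frag Sym 1 := seq mvR (seq toEnd eraseBack)

theorem runsLE_eraseTape (l : List Sym) (hd : IsData l) :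
    RunsLE eraseTape ![zt [] (Sym.org :: l)] (4 * l.length + 8) ![zt [] [Sym.org]] := by
  have h1 := runsLE_mvR_cons [] l Sym.org
  have h2 := runsLE_toEnd [Sym.org] l hd.blank_notMem
  have h3 := runsLE_eraseBack l hd.org_notMem
  exact RunsLE.mono (h1.seq (h2.seq h3)) (by omega)

/-- Copy tape `0` (rest position) to the empty tape `1`. -/
noncomputable def copyTape : Frag Sym 2 := pass (k := 0) copy1

theorem runsLE_copyTape (l : List Sym) (hd : IsData l) :
    RunsLE copyTape ![zt [] (Sym.org :: l), zt [] [Sym.org]] (6 * l.length + 8)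
      ![zt [] (Sym.org :: l), zt [] (Sym.org :: l)] := by
  have key := runsLE_pass (k := 0) (body := copy1) l.length (fun j => [l[j]?.getD Sym.blank])
    (fun j => [l[j]?.getD Sym.blank]) (fun _ => ![]) (fun _ => 1) ?_ (fun j _ => stream_copy1 _)
  · rw [cat_singletons] at key
    refine RunsLE.mono key ?_
    simp
    omega
  · intro j hj
    have hx : IsData [l[j]?.getD Sym.blank] := by
      intro x hx
      rw [List.mem_singleton] at hx
      subst hx
      apply hd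
      rw [List.getElem?_eq_getElem hj]
      simp
    exact ⟨by simp, hx, hx⟩

/-- Move the content of tape `0` to the empty tape `1`. -/
noncomputable def moveTape : Frag Sym 2 := seq copyTape (lift ![0] eraseTape)

theorem runsLE_moveTape (l : List Sym) (hd : IsData l) :
    RunsLE moveTape ![zt [] (Sym.org :: l), zt [] [Sym.org]] (10 * l.length + 16)
      ![zt [] [Sym.org], zt [] (Sym.org :: l)] := by
  have h1 := runsLE_copyTape l hd
  have h2 : RunsLE (lift ![0] eraseTape : Frag Sym 2) ![zt [] (Sym.org :: l), zt [] (Sym.org :: l)]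
      (4 * l.length + 8) ![zt [] [Sym.org], zt [] (Sym.org :: l)] :=
    RunsLE.lift (by decide) (runsLE_eraseTape l hd) _ _ (by simp [Fin.forall_fin_succ])
      (by simp [Fin.forall_fin_succ]) (by simp [Fin.forall_fin_succ])
  exact RunsLE.mono (h1.seq h2) (by omega)

/-! ### Powers of two -/

/-- Tapes `x, tmp`: `x := 2 * x` (`tmp` is zero before and after). -/
def dbl : Frag Sym 2 :=
  seq moveCnt (loop (fun s => s 1 != Sym.org)
    (seq (prim fun s => ![(s 0, Dir.right), (s 1, Dir.left)])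
      (prim fun s => ![(s 0, Dir.right), (s 1, Dir.stay)])))

theorem runsLE_dbl (x : ℕ) : RunsLE dbl ![cnt x, cnt 0] (5 * x + 2) ![cnt (2 * x), cnt 0] := by
  have h1 := runsLE_moveCnt x 0
  have h2 := RunsLE.loop (c := fun s : Fin 2 → Sym => s 1 != Sym.org)
    (F := seq (prim fun s => ![(s 0, Dir.right), (s 1, Dir.left)])
      (prim fun s => ![(s 0, Dir.right), (s 1, Dir.stay)]))
    (fun j => ![cnt (2 * j), cnt (x - j)]) x 2 ?_ ?_
  · simp only [Nat.mul_zero, Nat.sub_zero, Nat.sub_self, Nat.zero_add] at h1 h2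
    exact RunsLE.mono (h1.seq h2) (by omega)
  · intro j hj
    obtain ⟨u, hu⟩ : ∃ u, x - j = u + 1 := ⟨x - j - 1, by omega⟩
    have e : x - (j + 1) = u := by omega
    refine ⟨by simp [hu], RunsLE.seq (b := 1) (b' := 1) (T' := ![cnt (2 * j + 1), cnt u])
      (RunsLE.prim _ _ _ ?_) (RunsLE.prim _ _ _ ?_)⟩
    · rw [hu]
      simp only [reads_cons, cons_val_zero, cons_val_one, acts_cons, cnt_right, cnt_left]
      simp
    · rw [e]
      simp only [reads_cons, cons_val_zero, cons_val_one, acts_cons, cnt_right, cnt_stay]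
      simp
      rfl
  · simp

/-- Tapes `a, shadow, x, tmp`: `x := 2 ^ a` (`x`, `tmp`, `shadow` zero before). -/
noncomputable def pow2C : Frag Sym 4 := seq (lift ![2] mvR) (rep dbl)

theorem sum_two_pow_le (a : ℕ) : ∑ j ∈ Finset.range a, (5 * 2 ^ j + 2) ≤ 5 * 2 ^ a + 2 * a := by
  induction a with
  | zero => simp
  | succ a ih =>
    rw [Finset.sum_range_succ, pow_succ]
    omega

theorem runsLE_pow2C (a : ℕ) :
    RunsLE pow2C ![cnt a, cnt 0, cnt 0, cnt 0] (5 * 2 ^ a + 6 * a + 3)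
      ![cnt a, cnt 0, cnt (2 ^ a), cnt 0] := by
  have h1 : RunsLE (lift ![2] mvR : Frag Sym 4) ![cnt a, cnt 0, cnt 0, cnt 0] 1
      ![cnt a, cnt 0, cnt (0 + 1), cnt 0] :=
    RunsLE.lift (by decide) (runsLE_mvR_cnt 0) _ _ (by simp [Fin.forall_fin_succ])
      (by simp [Fin.forall_fin_succ]) (by simp [Fin.forall_fin_succ])
  have h2 := runsLE_rep_sum (body := dbl) (fun j => ![cnt (2 ^ j), cnt 0]) a
    (fun j => 5 * 2 ^ j + 2) (by
      intro j _
      have := runsLE_dbl (2 ^ j)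
      rwa [← pow_succ'] at this)
  have h3 := sum_two_pow_le a
  exact RunsLE.mono (h1.seq h2) (by omega)

/-! ### Lifting to the first tapes of a long vector -/

theorem runsLE_lift0 {k : ℕ} {F : Frag Sym 1} {x x' : Tape Sym} {b : ℕ}
    (h : RunsLE F ![x] b ![x']) (R : Fin k → Tape Sym) :
    RunsLE (lift ![0] F : Frag Sym (k + 1)) (vecCons x R) b (vecCons x' R) := by
  refine RunsLE.lift (fun a b _ => Subsingleton.elim a b) h _ _ ?_ ?_ ?_
  · intro a
    fin_cases a
    rfl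
  · intro a
    fin_cases a
    rfl
  · intro c
    refine Fin.cases (fun hc => absurd rfl (hc 0)) (fun c' _ => rfl) c

theorem runsLE_lift10 {k : ℕ} {F : Frag Sym 2} {x x' y y' : Tape Sym} {b : ℕ}
    (h : RunsLE F ![y, x] b ![y', x']) (R : Fin k → Tape Sym) :
    RunsLE (lift ![1, 0] F : Frag Sym (k + 2)) (vecCons x (vecCons y R)) b
      (vecCons x' (vecCons y' R)) := by
  refine RunsLE.lift ?_ h _ _ ?_ ?_ ?_
  · intro a b hab
    fin_cases a <;> fin_cases b <;> first | rfl | (exfalso; simp [Fin.ext_iff] at hab)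
  · intro a
    fin_cases a <;> rfl
  · intro a
    fin_cases a <;> rfl
  · intro c
    refine Fin.cases (fun hc => absurd rfl (hc 1)) (fun c' => ?_) c
    refine Fin.cases (fun hc => absurd rfl (hc 0)) (fun c'' _ => rfl) c'

/-! ### The classical algorithm -/

theorem isData_reindex (L : ℕ) (π : ℕ → ℕ) (l : List Sym) (hd : IsData l) :
    IsData (reindex L π l) := by
  unfold reindex
  apply IsData.cat
  intro j _ x hx
  exact hd x (List.mem_of_mem_drop (List.mem_of_mem_take hx))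

/-- Specification of a shuffle pass with `ks` scratch tapes. -/
def ShufSpec {ks : ℕ} (shuf : Frag Sym (ks + 2 + 2)) (C : ℕ) : Prop :=
  ∀ (h e K : ℕ) (l : List Sym), 0 < h → 0 < e → 1 ≤ K → l.length = K * (2 * h * e) → IsData l →
    RunsLE shuf
      (vecCons (zt [] (Sym.org :: l)) (vecCons (zt [] [Sym.org])
        (vecCons (cnt h) (vecCons (cnt e) fun _ => cnt 0)))) (C * l.length)
      (vecCons (zt [] (Sym.org :: l)) (vecCons (zt [] (Sym.org :: shufL h e l))
        (vecCons (cnt h) (vecCons (cnt e) fun _ => cnt 0))))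

/-- One round: shuffle `D` to `E`, erase `D`, move `E` back to `D`. -/
noncomputable def round {ks : ℕ} (shuf : Frag Sym (ks + 2 + 2)) : Frag Sym (ks + 2 + 2) :=
  seq shuf (seq (lift ![0] eraseTape) (lift ![1, 0] moveTape))

theorem runsLE_round {ks : ℕ} {shuf : Frag Sym (ks + 2 + 2)} {C : ℕ} (hS : ShufSpec shuf C)
    (h e K : ℕ) (l : List Sym) (hh : 0 < h) (he : 0 < e) (hK : 1 ≤ K)
    (hl : l.length = K * (2 * h * e)) (hd : IsData l) :
    RunsLE (round shuf)
      (vecCons (zt [] (Sym.org :: l)) (vecCons (zt [] [Sym.org])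
        (vecCons (cnt h) (vecCons (cnt e) fun _ => cnt 0)))) ((C + 14) * l.length + 24)
      (vecCons (zt [] (Sym.org :: shufL h e l)) (vecCons (zt [] [Sym.org])
        (vecCons (cnt h) (vecCons (cnt e) fun _ => cnt 0)))) := by
  have h1 := hS h e K l hh he hK hl hd
  have h2 := runsLE_lift0 (runsLE_eraseTape l hd) (vecCons (zt [] (Sym.org :: shufL h e l))
        (vecCons (cnt h) (vecCons (cnt e) fun _ : Fin ks => cnt 0)))
  have hd' : IsData (shufL h e l) := isData_reindex _ _ _ hd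
  have h3 := runsLE_lift10 (runsLE_moveTape (shufL h e l) hd')
    (vecCons (cnt h) (vecCons (cnt e) fun _ : Fin ks => cnt 0))
  rw [length_shufL h e K l hl] at h3
  refine RunsLE.mono (h1.seq (h2.seq h3)) ?_
  rw [Nat.add_mul]
  omega

/-- `a` rounds.  Tapes: `a`, shadow, `D`, `E`, `h`, `e`, scratch. -/
noncomputable def classCore {ks : ℕ} (shuf : Frag Sym (ks + 2 + 2)) : Frag Sym (ks + 2 + 2 + 2) :=
  rep (round shuf)

theorem runsLE_classCore {ks : ℕ} {shuf : Frag Sym (ks + 2 + 2)} {C : ℕ} (hS : ShufSpec shuf C)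
    (a h e K : ℕ) (l : List Sym) (hh : 0 < h) (he : 0 < e) (hK : 1 ≤ K)
    (hl : l.length = K * (2 * h * e)) (hd : IsData l) :
    RunsLE (classCore shuf)
      (vecCons (cnt a) (vecCons (cnt 0) (vecCons (zt [] (Sym.org :: l)) (vecCons (zt [] [Sym.org])
        (vecCons (cnt h) (vecCons (cnt e) fun _ => cnt 0))))))
      (a * ((C + 14) * l.length + 28) + 2)
      (vecCons (cnt a) (vecCons (cnt 0) (vecCons (zt [] (Sym.org :: (shufL h e)^[a] l))
        (vecCons (zt [] [Sym.org]) (vecCons (cnt h) (vecCons (cnt e) fun _ => cnt 0)))))) := by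
  have hinv : ∀ j, ((shufL h e)^[j] l).length = l.length ∧ IsData ((shufL h e)^[j] l) := by
    intro j
    induction j with
    | zero => exact ⟨rfl, hd⟩
    | succ j ih =>
      rw [Function.iterate_succ_apply']
      exact ⟨by rw [length_shufL h e K _ (ih.1.trans hl), hl], isData_reindex _ _ _ ih.2⟩
  have := runsLE_rep (body := round shuf)
    (fun j => vecCons (zt [] (Sym.org :: (shufL h e)^[j] l)) (vecCons (zt [] [Sym.org])
        (vecCons (cnt h) (vecCons (cnt e) fun _ => cnt 0)))) a ((C + 14) * l.length + 24) ?_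
  · exact this
  · intro j _
    have h1 := runsLE_round hS h e K _ hh he hK ((hinv j).1.trans hl) (hinv j).2
    rw [(hinv j).1, ← Function.iterate_succ_apply' (shufL h e)] at h1
    exact h1

/-- Specification of a shuffle pass with three scratch tapes, explicit vectors. -/
def ShufSpec7 (shuf : Frag Sym 7) (C : ℕ) : Prop :=
  ∀ (h e K : ℕ) (l : List Sym), 0 < h → 0 < e → 1 ≤ K → l.length = K * (2 * h * e) → IsData l →
    RunsLE shuf ![zt [] (Sym.org :: l), zt [] [Sym.org], cnt h, cnt e, cnt 0, cnt 0, cnt 0]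
      (C * l.length)
      ![zt [] (Sym.org :: l), zt [] (Sym.org :: shufL h e l), cnt h, cnt e, cnt 0, cnt 0, cnt 0]

theorem const3 : (fun _ : Fin 3 => cnt 0) = ![cnt 0, cnt 0, cnt 0] := by
  funext i
  fin_cases i <;> rfl

theorem ShufSpec7.spec {shuf : Frag Sym 7} {C : ℕ} (h : ShufSpec7 shuf C) :
    ShufSpec (ks := 3) shuf C := by
  intro h' e K l hh he hK hl hd
  rw [const3]
  exact h h' e K l hh he hK hl hd

/-- The classical swap.  Tapes: `D`, `E`, `a`, `ρ`, nine scratch tapes. -/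
noncomputable def classPassOf (shuf : Frag Sym 7) : Frag Sym 13 :=
  seq (lift ![2, 4, 7] (rep (incBy 2)))
  (seq (lift ![7] mvL)
  (seq (lift ![7, 8, 5, 9] pow2C)
  (seq (lift ![3, 8, 6, 9] pow2C)
  (seq (lift ![2, 4, 0, 1, 5, 6, 10, 11, 12] (classCore (ks := 3) shuf))
  (seq (lift ![5] zero) (seq (lift ![6] zero) (lift ![7] zero)))))))

theorem runsLE_classPassOf {shuf : Frag Sym 7} {C : ℕ} (hS : ShufSpec7 shuf C) (a ρ K : ℕ)
    (ha : 1 ≤ a) (hK : 1 ≤ K) (l : List Sym) (hl : l.length = K * (2 ^ a * 2 ^ a * 2 ^ ρ))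
    (hd : IsData l) :
    RunsLE (classPassOf shuf)
      ![zt [] (Sym.org :: l), zt [] [Sym.org], cnt a, cnt ρ, cnt 0, cnt 0, cnt 0, cnt 0, cnt 0,
        cnt 0, cnt 0, cnt 0, cnt 0]
      ((C + 14) * (a * l.length) + 77 * l.length)
      ![zt [] (Sym.org :: swapL (2 ^ a) (2 ^ ρ) l), zt [] [Sym.org], cnt a, cnt ρ, cnt 0, cnt 0,
        cnt 0, cnt 0, cnt 0, cnt 0, cnt 0, cnt 0, cnt 0] := by
  obtain ⟨t, ht⟩ : ∃ t, t = 2 * a - 1 := ⟨_, rfl⟩
  obtain ⟨h, hh⟩ : ∃ h, h = 2 ^ t := ⟨_, rfl⟩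
  obtain ⟨e, he⟩ : ∃ e, e = 2 ^ ρ := ⟨_, rfl⟩
  have hpos : 0 < h := by rw [hh]; positivity
  have epos : 0 < e := by rw [he]; positivity
  have h2h : 2 * h = 2 ^ a * 2 ^ a := by
    rw [hh, ← pow_succ', ← pow_add]
    congr 1
    omega
  have hl' : l.length = K * (2 * h * e) := by rw [hl, h2h, he]
  have s1 : RunsLE (lift ![2, 4, 7] (rep (incBy 2)) : Frag Sym 13)
      ![zt [] (Sym.org :: l), zt [] [Sym.org], cnt a, cnt ρ, cnt 0, cnt 0, cnt 0, cnt 0, cnt 0,
        cnt 0, cnt 0, cnt 0, cnt 0] (a * (2 + 5) + 2)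
      ![zt [] (Sym.org :: l), zt [] [Sym.org], cnt a, cnt ρ, cnt 0, cnt 0, cnt 0,
        cnt (0 + 2 * a), cnt 0, cnt 0, cnt 0, cnt 0, cnt 0] :=
    RunsLE.lift (by decide) (runsLE_addMul 2 a 0) _ _ (by simp [Fin.forall_fin_succ])
      (by simp [Fin.forall_fin_succ]) (by simp [Fin.forall_fin_succ])
  have s2 : RunsLE (lift ![7] mvL : Frag Sym 13)
      ![zt [] (Sym.org :: l), zt [] [Sym.org], cnt a, cnt ρ, cnt 0, cnt 0, cnt 0,
        cnt (0 + 2 * a), cnt 0, cnt 0, cnt 0, cnt 0, cnt 0] 1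
      ![zt [] (Sym.org :: l), zt [] [Sym.org], cnt a, cnt ρ, cnt 0, cnt 0, cnt 0,
        cnt (0 + 2 * a - 1), cnt 0, cnt 0, cnt 0, cnt 0, cnt 0] :=
    RunsLE.lift (by decide) (runsLE_mvL_cnt (0 + 2 * a)) _ _ (by simp [Fin.forall_fin_succ])
      (by simp [Fin.forall_fin_succ]) (by simp [Fin.forall_fin_succ])
  have et : 0 + 2 * a - 1 = t := by omega
  rw [et] at s2
  have s3 : RunsLE (lift ![7, 8, 5, 9] pow2C : Frag Sym 13)
      ![zt [] (Sym.org :: l), zt [] [Sym.org], cnt a, cnt ρ, cnt 0, cnt 0, cnt 0,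
        cnt t, cnt 0, cnt 0, cnt 0, cnt 0, cnt 0] (5 * 2 ^ t + 6 * t + 3)
      ![zt [] (Sym.org :: l), zt [] [Sym.org], cnt a, cnt ρ, cnt 0, cnt (2 ^ t), cnt 0,
        cnt t, cnt 0, cnt 0, cnt 0, cnt 0, cnt 0] :=
    RunsLE.lift (by decide) (runsLE_pow2C t) _ _ (by simp [Fin.forall_fin_succ])
      (by simp [Fin.forall_fin_succ]) (by simp [Fin.forall_fin_succ])
  have s4 : RunsLE (lift ![3, 8, 6, 9] pow2C : Frag Sym 13)
      ![zt [] (Sym.org :: l), zt [] [Sym.org], cnt a, cnt ρ, cnt 0, cnt (2 ^ t), cnt 0,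
        cnt t, cnt 0, cnt 0, cnt 0, cnt 0, cnt 0] (5 * 2 ^ ρ + 6 * ρ + 3)
      ![zt [] (Sym.org :: l), zt [] [Sym.org], cnt a, cnt ρ, cnt 0, cnt (2 ^ t), cnt (2 ^ ρ),
        cnt t, cnt 0, cnt 0, cnt 0, cnt 0, cnt 0] :=
    RunsLE.lift (by decide) (runsLE_pow2C ρ) _ _ (by simp [Fin.forall_fin_succ])
      (by simp [Fin.forall_fin_succ]) (by simp [Fin.forall_fin_succ])
  rw [← hh, ← he] at s4
  rw [← hh] at s3
  have c5 := runsLE_classCore hS.spec a h e K l hpos epos hK hl' hd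
  rw [const3] at c5
  have eit : (shufL h e)^[a] l = swapL (2 ^ a) (2 ^ ρ) l := by
    rw [hh, he, ht]
    exact iterate_shufL a ρ K ha l hl
  rw [eit] at c5
  have s5 : RunsLE (lift ![2, 4, 0, 1, 5, 6, 10, 11, 12] (classCore (ks := 3) shuf) : Frag Sym 13)
      ![zt [] (Sym.org :: l), zt [] [Sym.org], cnt a, cnt ρ, cnt 0, cnt h, cnt e,
        cnt t, cnt 0, cnt 0, cnt 0, cnt 0, cnt 0] (a * ((C + 14) * l.length + 28) + 2)
      ![zt [] (Sym.org :: swapL (2 ^ a) (2 ^ ρ) l), zt [] [Sym.org], cnt a, cnt ρ, cnt 0, cnt h,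
        cnt e, cnt t, cnt 0, cnt 0, cnt 0, cnt 0, cnt 0] :=
    RunsLE.lift (by decide) c5 _ _ (by simp [Fin.forall_fin_succ])
      (by simp [Fin.forall_fin_succ]) (by simp [Fin.forall_fin_succ])
  have s6 : RunsLE (lift ![5] zero : Frag Sym 13)
      ![zt [] (Sym.org :: swapL (2 ^ a) (2 ^ ρ) l), zt [] [Sym.org], cnt a, cnt ρ, cnt 0, cnt h,
        cnt e, cnt t, cnt 0, cnt 0, cnt 0, cnt 0, cnt 0] (2 * h + 1)
      ![zt [] (Sym.org :: swapL (2 ^ a) (2 ^ ρ) l), zt [] [Sym.org], cnt a, cnt ρ, cnt 0, cnt 0,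
        cnt e, cnt t, cnt 0, cnt 0, cnt 0, cnt 0, cnt 0] :=
    RunsLE.lift (by decide) (runsLE_zero h) _ _ (by simp [Fin.forall_fin_succ])
      (by simp [Fin.forall_fin_succ]) (by simp [Fin.forall_fin_succ])
  have s7 : RunsLE (lift ![6] zero : Frag Sym 13)
      ![zt [] (Sym.org :: swapL (2 ^ a) (2 ^ ρ) l), zt [] [Sym.org], cnt a, cnt ρ, cnt 0, cnt 0,
        cnt e, cnt t, cnt 0, cnt 0, cnt 0, cnt 0, cnt 0] (2 * e + 1)
      ![zt [] (Sym.org :: swapL (2 ^ a) (2 ^ ρ) l), zt [] [Sym.org], cnt a, cnt ρ, cnt 0, cnt 0,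
        cnt 0, cnt t, cnt 0, cnt 0, cnt 0, cnt 0, cnt 0] :=
    RunsLE.lift (by decide) (runsLE_zero e) _ _ (by simp [Fin.forall_fin_succ])
      (by simp [Fin.forall_fin_succ]) (by simp [Fin.forall_fin_succ])
  have s8 : RunsLE (lift ![7] zero : Frag Sym 13)
      ![zt [] (Sym.org :: swapL (2 ^ a) (2 ^ ρ) l), zt [] [Sym.org], cnt a, cnt ρ, cnt 0, cnt 0,
        cnt 0, cnt t, cnt 0, cnt 0, cnt 0, cnt 0, cnt 0] (2 * t + 1)
      ![zt [] (Sym.org :: swapL (2 ^ a) (2 ^ ρ) l), zt [] [Sym.org], cnt a, cnt ρ, cnt 0, cnt 0,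
        cnt 0, cnt 0, cnt 0, cnt 0, cnt 0, cnt 0, cnt 0] :=
    RunsLE.lift (by decide) (runsLE_zero t) _ _ (by simp [Fin.forall_fin_succ])
      (by simp [Fin.forall_fin_succ]) (by simp [Fin.forall_fin_succ])
  refine RunsLE.mono (s1.seq (s2.seq (s3.seq (s4.seq (s5.seq (s6.seq (s7.seq s8))))))) ?_
  have b1 : t < h := by rw [hh]; exact Nat.lt_two_pow_self
  have b2 : ρ < e := by rw [he]; exact Nat.lt_two_pow_self
  have b3 : 2 * h * e ≤ l.length := by
    rw [hl']
    exact Nat.le_mul_of_pos_left _ hK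
  have b4 : h ≤ h * e := Nat.le_mul_of_pos_right _ epos
  have b5 : e ≤ h * e := Nat.le_mul_of_pos_left _ hpos
  have b6 : 2 * h * e = 2 * (h * e) := by ring
  have b7 : a * ((C + 14) * l.length + 28) = (C + 14) * (a * l.length) + 28 * a := by ring
  rw [b7]
  omega

theorem shufSpec7_shufPass : ShufSpec7 shufPass 35 := by
  intro h e K l hh he hK hl hd
  refine RunsLE.mono (runsLE_shufPass h e K hh he l hl hd) ?_
  have : 1 ≤ l.length := by
    rw [hl]
    exact Nat.mul_pos hK (by positivity)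
  omega

/-- The classical swap.  Tapes: `D`, `E`, `a`, `ρ`, nine scratch tapes. -/
noncomputable def classPass : Frag Sym 13 := classPassOf shufPass

theorem runsLE_classPass (a ρ K : ℕ) (ha : 1 ≤ a) (hK : 1 ≤ K) (l : List Sym)
    (hl : l.length = K * (2 ^ a * 2 ^ a * 2 ^ ρ)) (hd : IsData l) :
    RunsLE classPass
      ![zt [] (Sym.org :: l), zt [] [Sym.org], cnt a, cnt ρ, cnt 0, cnt 0, cnt 0, cnt 0, cnt 0,
        cnt 0, cnt 0, cnt 0, cnt 0]
      (49 * (a * l.length) + 77 * l.length)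
      ![zt [] (Sym.org :: swapL (2 ^ a) (2 ^ ρ) l), zt [] [Sym.org], cnt a, cnt ρ, cnt 0, cnt 0,
        cnt 0, cnt 0, cnt 0, cnt 0, cnt 0, cnt 0, cnt 0] :=
  runsLE_classPassOf shufSpec7_shufPass a ρ K ha hK l hl hd

end Frag
end Vale.Agent.P338
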