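import Vale.Agent.P338.TM.SwapSpec
import Vale.Agent.P338.TM.Util
import Vale.Agent.P338.TM.MathNat
import Vale.Agent.P338.TM.MathShear
import Vale.Agent.P338.TM.Naive

/-!
TASK T16.  The top level of the big machine in an abstract `World`: initialise the own tapes, copy the
input to the data tape `D`, compute `n`, test whether `n` is a power of two, run the control (or the
naive transposition), copy `D` to the output tape.
-/

namespace Vale.Agent.P338
open Frag Matrix

/-! ### Monotonicity of the cost recursion in the constant -/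

theorem Wrec_mono_C {C C' : ℕ} (h : C ≤ C') (N t : ℕ) : ∀ κ, Wrec C N t κ ≤ Wrec C' N t κ := by
  intro κ
  induction κ using Nat.strong_induction_on with
  | _ κ ih =>
    rw [Wrec, Wrec.eq_def C']
    split_ifs with hk
    · exact Nat.mul_le_mul_right _ h
    · exact add_le_add (Nat.mul_le_mul_right _ h) (ih (κ - κ / 2) (by omega))

/-! ### Initialisation -/

/-- Write the origin mark on the own tapes `2, …, 44`. -/
def initP : Frag Sym nOwn :=
  prim fun s i => if i.val < 2 then (s i, Dir.stay) else (Sym.org, Dir.stay)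

/-- The own state after the initialisation. -/
def os0 (l : List Sym) : OS where
  inp := zt [] l
  out := zt [] []
  D := []
  E1 := []
  E2 := []
  E3 := []
  stk := []
  a := 0
  ρ := 0
  n := 0
  w := 0
  g := 0
  m := 0
  s := 0
  z := 0
  flag := 0
  κ := 0
  u := 0
  v := 0
  h := 0
  e := 0

theorem runsLE_initP (l : List Sym) : RunsLE initP (initOwn l) 1 (os0 l).vec := by
  have key : (tp [] 0 : Tape Sym).step (Sym.org, Dir.stay) = cnt 0 := by
    exact zt_stay_nil ([] : List Sym) Sym.org
  refine RunsLE.prim _ _ _ ?_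
  funext i
  fin_cases i
  · exact Tape.step_read_stay _
  · exact Tape.step_read_stay _
  all_goals exact key

/-! ### Copying the input to `D` and `D` to the output -/

/-- Tapes: raw source (head on its first cell), empty data tape. -/
noncomputable def copyIn : Frag Sym 2 := seq (lift ![1] mvR) (seq copyAll (lift ![1] rewind))

theorem runsLE_copyIn (l : List Sym) (hd : IsData l) :
    RunsLE copyIn ![zt [] l, zt [] [Sym.org]] (4 * l.length + 5) ![zt l [], zt [] (Sym.org :: l)] := by
  have h1 : RunsLE (lift ![1] mvR : Frag Sym 2) ![zt [] l, zt [] [Sym.org]] 1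
      ![zt [] l, zt [Sym.org] []] :=
    RunsLE.lift (by decide) (runsLE_mvR_cons [] [] Sym.org) _ _ (by simp)
      (by simp) (by simp [Fin.forall_fin_succ])
  have h2 := runsLE_copyAll [] l [Sym.org] hd.blank_notMem
  have h3 : RunsLE (lift ![1] rewind : Frag Sym 2) ![zt l [], zt (Sym.org :: l) []]
      (2 * l.length + 3) ![zt l [], zt [] (Sym.org :: l)] := by
    have := runsLE_rewind l [] hd.org_notMem (by simp)
    rw [List.append_nil] at this
    exact RunsLE.lift (by decide) this _ _ (by simp)
      (by simp) (by simp [Fin.forall_fin_succ])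
  exact RunsLE.mono (h1.seq (h2.seq h3)) (by omega)

/-- Tapes: data tape in rest position, blank raw destination. -/
noncomputable def copyOut : Frag Sym 2 := seq (lift ![0] mvR) (seq copyAll (lift ![0] rewind))

theorem runsLE_copyOut (l : List Sym) (hd : IsData l) :
    RunsLE copyOut ![zt [] (Sym.org :: l), zt [] []] (4 * l.length + 5)
      ![zt [] (Sym.org :: l), zt l []] := by
  have h1 : RunsLE (lift ![0] mvR : Frag Sym 2) ![zt [] (Sym.org :: l), zt [] []] 1
      ![zt [Sym.org] l, zt [] []] :=
    RunsLE.lift (by decide) (runsLE_mvR_cons [] l Sym.org) _ _ (by simp)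
      (by simp) (by simp [Fin.forall_fin_succ])
  have h2 := runsLE_copyAll [Sym.org] l [] hd.blank_notMem
  have h3 : RunsLE (lift ![0] rewind : Frag Sym 2) ![zt (Sym.org :: l) [], zt l []]
      (2 * l.length + 3) ![zt [] (Sym.org :: l), zt l []] := by
    have := runsLE_rewind l [] hd.org_notMem (by simp)
    rw [List.append_nil] at this
    exact RunsLE.lift (by decide) this _ _ (by simp)
      (by simp) (by simp [Fin.forall_fin_succ])
  exact RunsLE.mono (h1.seq (h2.seq h3)) (by omega)

theorem zt_cells (l : List Sym) (j : ℕ) : (zt l []).cells j = l[j]?.getD Sym.blank := by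
  simp [zt, tp]

/-! ### The top level, with the own-level ingredients kept abstract -/

/-- What the top level needs from the parameter computation: from the data tape `D` (holding `n * n`
symbols) compute `n`, the flag `n is a power of two` and in this case the exponent. -/
def PreSpec (W : World) (PRE : Frag W.Γ W.K) (C : ℕ) : Prop :=
  ∀ (σ : OS) (n : ℕ), IsData σ.D → σ.D.length = n * n → 1 ≤ n → σ.n = 0 → σ.flag = 0 → σ.κ = 0 →
    ∃ f k : ℕ, W.Does PRE σ (C * (n * n) + C) { σ with n := n, flag := f, κ := k } ∧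
      (∀ κ, n = 2 ^ κ → f = 1 ∧ k = κ) ∧ ((∀ κ, n ≠ 2 ^ κ) → f = 0)

/-- What the top level needs from the naive transposition `D → E1`. -/
def NaiveSpec (W : World) (NV : Frag W.Γ W.K) : Prop :=
  ∀ (σ : OS), IsData σ.D → σ.D.length = σ.n * σ.n → 1 ≤ σ.n → σ.E1 = [] →
    ∃ b : ℕ, W.Does NV σ b { σ with E1 := swapL σ.n 1 σ.D }

/-- The top level program. -/
noncomputable def topAux (W : World) (PRE NV CTRL : Frag W.Γ W.K) : Frag W.Γ W.K :=
  seq (W.emb initP) <|
  seq (W.emb (lift ![0, 2] copyIn)) <|
  seq PRE <|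
  seq (ite (W.cond fun s => s 15 != Sym.org)
        (seq (W.emb (lift ![15] zero)) (seq (W.emb (lift ![9] zero)) CTRL))
        (seq NV (seq (W.emb (lift ![2] eraseTape)) (W.emb (lift ![3, 2] moveTape))))) <|
  W.emb (lift ![2, 1] copyOut)

theorem does_copyIn (W : World) (l : List Sym) (hd : IsData l) :
    W.Does (W.emb (lift ![0, 2] copyIn)) (os0 l) (4 * l.length + 5)
      { os0 l with inp := zt l [], D := l } :=
  World.Does.place (by decide) (runsLE_copyIn l hd) _ _
    (by intro a; fin_cases a <;> rfl) (by intro a; fin_cases a <;> rfl)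
    (by intro c hc; fin_cases c <;> first | rfl | (exfalso; revert hc; decide))

theorem does_copyOut (W : World) (σ : OS) (hd : IsData σ.D) (ho : σ.out = zt [] []) :
    W.Does (W.emb (lift ![2, 1] copyOut)) σ (4 * σ.D.length + 5) { σ with out := zt σ.D [] } :=
  World.Does.place (by decide) (runsLE_copyOut σ.D hd) _ _
    (by intro a; fin_cases a <;> first | rfl | exact ho) (by intro a; fin_cases a <;> rfl)
    (by intro c hc; fin_cases c <;> first | rfl | (exfalso; revert hc; decide))

theorem does_zeroFlag (W : World) (σ : OS) :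
    W.Does (W.emb (lift ![15] zero)) σ (2 * σ.flag + 1) { σ with flag := 0 } :=
  World.Does.place (by decide) (runsLE_zero σ.flag) _ _
    (by intro a; fin_cases a <;> rfl) (by intro a; fin_cases a <;> rfl)
    (by intro c hc; fin_cases c <;> first | rfl | (exfalso; revert hc; decide))

theorem does_zeroN (W : World) (σ : OS) :
    W.Does (W.emb (lift ![9] zero)) σ (2 * σ.n + 1) { σ with n := 0 } :=
  World.Does.place (by decide) (runsLE_zero σ.n) _ _
    (by intro a; fin_cases a <;> rfl) (by intro a; fin_cases a <;> rfl)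
    (by intro c hc; fin_cases c <;> first | rfl | (exfalso; revert hc; decide))

theorem does_eraseD (W : World) (σ : OS) (hd : IsData σ.D) :
    W.Does (W.emb (lift ![2] eraseTape)) σ (4 * σ.D.length + 8) { σ with D := [] } :=
  World.Does.place (by decide) (runsLE_eraseTape σ.D hd) _ _
    (by intro a; fin_cases a <;> rfl) (by intro a; fin_cases a <;> rfl)
    (by intro c hc; fin_cases c <;> first | rfl | (exfalso; revert hc; decide))

theorem does_moveE1D (W : World) (σ : OS) (hd : IsData σ.E1) (hD : σ.D = []) :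
    W.Does (W.emb (lift ![3, 2] moveTape)) σ (10 * σ.E1.length + 16)
      { σ with E1 := [], D := σ.E1 } :=
  World.Does.place (by decide) (runsLE_moveTape σ.E1 hd) _ _
    (by intro a; fin_cases a <;> first | rfl | (show dat σ.D = _; rw [hD]; rfl))
    (by intro a; fin_cases a <;> rfl)
    (by intro c hc; fin_cases c <;> first | rfl | (exfalso; revert hc; decide))

/-- The own states occurring at the top level. -/
def osT (inp out : Tape Sym) (D E1 : List Sym) (n flag κ : ℕ) : OS where
  inp := inp
  out := out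
  D := D
  E1 := E1
  E2 := []
  E3 := []
  stk := []
  a := 0
  ρ := 0
  n := n
  w := 0
  g := 0
  m := 0
  s := 0
  z := 0
  flag := flag
  κ := κ
  u := 0
  v := 0
  h := 0
  e := 0

theorem topSpec_aux (W : World) {PRE NV CTRL : Frag W.Γ W.K} {TA : ℕ → ℕ} {C Cc : ℕ}
    (hP : PreSpec W PRE C) (hN : NaiveSpec W NV) (hC : CtrlSpec W CTRL TA Cc) :
    TopSpec W (topAux W PRE NV CTRL) TA (Cc + 2 * C + 40) := by
  intro n M hn hM
  obtain ⟨l, hl⟩ : ∃ l, l = M.map bit := ⟨_, rfl⟩
  obtain ⟨L, hL⟩ : ∃ L, L = (swapL n 1 M).map bit := ⟨_, rfl⟩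
  have hd : IsData l := hl ▸ isData_map_bit M
  have hlen : l.length = n * n := by simp [hl, hM]
  have hdL : IsData L := hL ▸ isData_map_bit _
  have hlenL : L.length = n * n := by
    rw [hL, List.length_map, length_swapL n 1 1 M (by rw [hM]; ring)]; ring
  rw [← hl, ← hL]
  have h0 : RunsLE (W.emb initP) (W.G (initOwn l)) 1 (W.G (osT (zt [] l) (zt [] []) [] [] 0 0 0).vec) :=
    W.emb_spec (runsLE_initP _)
  have h1 : W.Does (W.emb (lift ![0, 2] copyIn)) (osT (zt [] l) (zt [] []) [] [] 0 0 0)
      (4 * l.length + 5) (osT (zt l []) (zt [] []) l [] 0 0 0) := does_copyIn W l hd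
  obtain ⟨f, k, h2, hpow, hnpow⟩ := hP (osT (zt l []) (zt [] []) l [] 0 0 0) n hd hlen hn rfl rfl rfl
  replace h2 : W.Does PRE (osT (zt l []) (zt [] []) l [] 0 0 0) (C * (n * n) + C)
      (osT (zt l []) (zt [] []) l [] n f k) := h2
  by_cases hp : ∃ κ, n = 2 ^ κ
  · obtain ⟨κ, hκ⟩ := hp
    obtain ⟨hf, hk⟩ := hpow κ hκ
    subst hf hk
    have h4 : (4 : ℕ) ^ k = n * n := by
      rw [hκ, ← mul_pow]
      norm_num
    have hM4 : M.length = 1 * 4 ^ k := by rw [hM, h4, one_mul]
    have h3a : W.Does (W.emb (lift ![15] zero)) (osT (zt l []) (zt [] []) l [] n 1 k) (2 * 1 + 1)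
      (osT (zt l []) (zt [] []) l [] n 0 k) := does_zeroFlag W _
    have h3b : W.Does (W.emb (lift ![9] zero)) (osT (zt l []) (zt [] []) l [] n 0 k) (2 * n + 1)
      (osT (zt l []) (zt [] []) l [] 0 0 k) := does_zeroN W _
    have h3c : W.Does CTRL (osT (zt l []) (zt [] []) l [] 0 0 k)
        (Wrec Cc (144 * M.length) (TA (144 * M.length)) k) (osT (zt l []) (zt [] []) L [] 0 0 k) := by
      have := hC (osT (zt l []) (zt [] []) l [] 0 0 k)
        M 1 hl hM4 le_rfl ⟨rfl, rfl, rfl, rfl, rfl, rfl, rfl, rfl, rfl, rfl, rfl, rfl⟩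
        rfl rfl rfl rfl rfl
      rw [hL, hκ, ← algL_eq k 1 M hM4]
      exact this
    have h3 := World.Does.ite_true (W := W) (c := fun s => s 15 != Sym.org)
      (G := seq NV (seq (W.emb (lift ![2] eraseTape)) (W.emb (lift ![3, 2] moveTape))))
      (by rfl) (h3a.seq (h3b.seq h3c))
    have h5 : W.Does (W.emb (lift ![2, 1] copyOut)) (osT (zt l []) (zt [] []) L [] 0 0 k)
      (4 * L.length + 5) (osT (zt l []) (zt L []) L [] 0 0 k) := does_copyOut W _ hdL rfl
    refine ⟨_, _, h0.seq (h1.seq (h2.seq (h3.seq h5))), ?_, ?_⟩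
    · intro j _
      exact zt_cells L j
    · intro κ' hκ'
      have : κ' = k := Nat.pow_right_injective le_rfl (hκ'.symm.trans hκ)
      subst this
      rw [hlen, hlenL, hM, h4]
      have hw := Wrec_mono_C (show Cc ≤ Cc + 2 * C + 40 by omega) (144 * (n * n))
        (TA (144 * (n * n))) κ'
      have hnn : n ≤ n * n := Nat.le_mul_of_pos_left n hn
      have hnn1 : 1 ≤ n * n := Nat.mul_pos hn hn
      have e : (Cc + 2 * C + 40) * (n * n) = Cc * (n * n) + 2 * (C * (n * n)) + 40 * (n * n) := by
        ring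
      have hC1 : C ≤ C * (n * n) := Nat.le_mul_of_pos_right C hnn1
      rw [e]
      omega
  · have hf : f = 0 := hnpow (fun κ h => hp ⟨κ, h⟩)
    subst hf
    obtain ⟨b, h3a⟩ := hN (osT (zt l []) (zt [] []) l [] n 0 k) hd hlen hn rfl
    replace h3a : W.Does NV (osT (zt l []) (zt [] []) l [] n 0 k) b
        (osT (zt l []) (zt [] []) l L n 0 k) := by
      rw [hL, map_swapL, ← hl]
      exact h3a
    have h3b : W.Does (W.emb (lift ![2] eraseTape)) (osT (zt l []) (zt [] []) l L n 0 k)
      (4 * l.length + 8) (osT (zt l []) (zt [] []) [] L n 0 k) := does_eraseD W _ hd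
    have h3c : W.Does (W.emb (lift ![3, 2] moveTape)) (osT (zt l []) (zt [] []) [] L n 0 k)
      (10 * L.length + 16) (osT (zt l []) (zt [] []) L [] n 0 k) := does_moveE1D W _ hdL rfl
    have h3 := World.Does.ite_false (W := W) (c := fun s => s 15 != Sym.org)
      (F := seq (W.emb (lift ![15] zero)) (seq (W.emb (lift ![9] zero)) CTRL))
      (by rfl) (h3a.seq (h3b.seq h3c))
    have h5 : W.Does (W.emb (lift ![2, 1] copyOut)) (osT (zt l []) (zt [] []) L [] n 0 k)
      (4 * L.length + 5) (osT (zt l []) (zt L []) L [] n 0 k) := does_copyOut W _ hdL rfl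
    refine ⟨_, _, h0.seq (h1.seq (h2.seq (h3.seq h5))), ?_, ?_⟩
    · intro j _
      exact zt_cells L j
    · intro κ' hκ'
      exact absurd ⟨κ', hκ'⟩ hp

/-! ### The concrete own-level ingredients -/

/-- Parameter computation: `n` from the length of `D`, then the power-of-two test. -/
noncomputable def preFrag (W : World) : Frag W.Γ W.K :=
  seq (W.emb (lift ![2, 9, 21] sqrtP)) (W.emb (lift ![9, 15, 16, 21, 22, 23, 24] log2P))

theorem preSpec (W : World) : PreSpec W (preFrag W) 46 := by
  intro σ n hd hlen hn hn0 hf0 hk0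
  obtain ⟨f, k, hr, hres⟩ := runsLE_log2P n hn
  have h1 : W.Does (W.emb (lift ![2, 9, 21] sqrtP)) σ (22 * σ.D.length + 16) { σ with n := n } :=
    World.Does.place (by decide) (runsLE_sqrtP n σ.D hlen hd) _ _
      (by intro a; fin_cases a <;> first | rfl | (show cnt σ.n = _; rw [hn0]; rfl))
      (by intro a; fin_cases a <;> rfl)
      (by intro c hc; fin_cases c <;> first | rfl | (exfalso; revert hc; decide))
  have h2 : W.Does (W.emb (lift ![9, 15, 16, 21, 22, 23, 24] log2P)) { σ with n := n } (24 * n + 12)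
      { σ with n := n, flag := f, κ := k } :=
    World.Does.place (by decide) hr _ _
      (by
        intro a
        fin_cases a <;>
          first
          | rfl
          | (show cnt σ.flag = _; rw [hf0]; rfl)
          | (show cnt σ.κ = _; rw [hk0]; rfl))
      (by intro a; fin_cases a <;> rfl)
      (by intro c hc; fin_cases c <;> first | rfl | (exfalso; revert hc; decide))
  refine ⟨f, k, (h1.seq h2).mono ?_, ?_, ?_⟩
  · rw [hlen]
    have hnn : n ≤ n * n := Nat.le_mul_of_pos_left n hn
    omega
  · intro κ hκ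
    rcases hres with ⟨hf, hk⟩ | ⟨_, hk⟩
    · exact ⟨hf, Nat.pow_right_injective le_rfl (hk.symm.trans hκ)⟩
    · exact absurd hκ (hk κ)
  · intro hno
    rcases hres with ⟨_, hk⟩ | ⟨hf, _⟩
    · exact absurd hk (hno k)
    · exact hf

/-- The naive transposition `D → E1`. -/
noncomputable def naiveFrag (W : World) : Frag W.Γ W.K :=
  W.emb (lift ![2, 3, 9, 21, 22, 23, 24] naivePass)

theorem naiveSpec (W : World) : NaiveSpec W (naiveFrag W) := by
  intro σ hd hlen hn hE
  exact ⟨_, World.Does.place (by decide) (runsLE_naivePass σ.n hn σ.D hlen hd) _ _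
      (by intro a; fin_cases a <;> first | rfl | (show dat σ.E1 = _; rw [hE]; rfl))
      (by intro a; fin_cases a <;> rfl)
      (by intro c hc; fin_cases c <;> first | rfl | (exfalso; revert hc; decide))⟩

/-- TASK T16: the top level program. -/
noncomputable def topFrag (W : World) (CTRL : Frag W.Γ W.K) : Frag W.Γ W.K :=
  topAux W (preFrag W) (naiveFrag W) CTRL

theorem topSpec_of_ctrlSpec (W : World) {CTRL : Frag W.Γ W.K} {TA : ℕ → ℕ} {Cc : ℕ}
    (h : CtrlSpec W CTRL TA Cc) : ∃ Ct, TopSpec W (topFrag W CTRL) TA Ct :=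
  ⟨_, topSpec_aux W (preSpec W) (naiveSpec W) h⟩

end Vale.Agent.P338
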