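import Vale.Agent.P338.TM.Mult
import Vale.Agent.P338.TM.Swap
import Vale.Agent.P338.TM.Control
import Vale.Agent.P338.TM.Top
import Vale.Agent.P338.TM.ToMachine
import Vale.Agent.P338.TM.FinalAsym

/-!
Assembly of the reduction: from a multiplying machine to a transposing machine.
-/

namespace Vale.Agent.P338
open Frag

/-- The reduction with the cost recursion. -/
theorem reduction_Wrec {kA : ℕ} (A : Machine kA) (hA : Multiplies A) :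
    ∃ (B : Machine (nOwn + (kA + 1))) (Ct : ℕ), Transposes B ∧ ∀ κ : ℕ,
      transTime B (2 ^ κ) ≤ Wrec Ct (144 * 4 ^ κ) (worstTime A (144 * 4 ^ κ)) κ + Ct * 4 ^ κ := by
  obtain ⟨Cs, hS⟩ := swapSpec_of_mulSpec (worldOf A) (mulFrag A) _ _ (mulSpec_worldOf A hA)
  obtain ⟨Cc, hC⟩ := ctrlSpec_of_swapSpec hS
  obtain ⟨Ct, hT⟩ := topSpec_of_ctrlSpec (worldOf A) hC
  obtain ⟨B, hB, hb⟩ := exists_transposer A _ _ Ct hT
  exact ⟨B, Ct, hB, hb⟩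

/-- Closed form of the cost recursion, with a free number `l` of unrolled levels. -/
theorem Wrec_closed (C N t κ l : ℕ) :
    (Wrec C N t κ : ℝ) ≤ C * (l * ((t : ℝ) + N) + (6 * ((κ : ℝ) / 2 ^ l) + 7) * N) := by
  have hW : (Wrec C N t κ : ℝ)
      ≤ (l : ℝ) * ((C : ℝ) * ((t : ℝ) + N)) + (C : ℝ) * N * (6 * ((Asym.hf^[l] κ : ℕ) : ℝ) + 1) := by
    exact_mod_cast Asym.Wrec_unroll C N t l κ
  have h2l : (0 : ℝ) < 2 ^ l := by positivity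
  have ha : ((Asym.hf^[l] κ : ℕ) : ℝ) ≤ (κ : ℝ) / 2 ^ l + 1 := by
    have h1 := Asym.hf_iter l κ
    have h2 : ((κ : ℝ) - 1) / 2 ^ l ≤ (κ : ℝ) / 2 ^ l :=
      div_le_div_of_nonneg_right (by linarith) h2l.le
    linarith
  have hCN : (0 : ℝ) ≤ (C : ℝ) * N := by positivity
  calc (Wrec C N t κ : ℝ)
      ≤ (l : ℝ) * ((C : ℝ) * ((t : ℝ) + N)) + (C : ℝ) * N * (6 * ((Asym.hf^[l] κ : ℕ) : ℝ) + 1) := hW
    _ ≤ (l : ℝ) * ((C : ℝ) * ((t : ℝ) + N)) + (C : ℝ) * N * (6 * ((κ : ℝ) / 2 ^ l + 1) + 1) := by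
        gcongr
    _ = C * (l * ((t : ℝ) + N) + (6 * ((κ : ℝ) / 2 ^ l) + 7) * N) := by ring

/-- The reduction in closed form. -/
theorem reduction_closed {kA : ℕ} (A : Machine kA) (hA : Multiplies A) :
    ∃ (B : Machine (nOwn + (kA + 1))) (C : ℝ), Transposes B ∧ ∀ κ l : ℕ,
      (transTime B (2 ^ κ) : ℝ) ≤
        C * (l * ((worstTime A (144 * 4 ^ κ) : ℝ) + 144 * 4 ^ κ)
          + ((κ : ℝ) / 2 ^ l + 1) * (144 * 4 ^ κ)) := by
  obtain ⟨B, Ct, hB, hb⟩ := reduction_Wrec A hA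
  refine ⟨B, 8 * Ct, hB, ?_⟩
  intro κ l
  have h1 : (transTime B (2 ^ κ) : ℝ)
      ≤ (Wrec Ct (144 * 4 ^ κ) (worstTime A (144 * 4 ^ κ)) κ : ℝ) + (Ct : ℝ) * 4 ^ κ := by
    exact_mod_cast hb κ
  have h2 := Wrec_closed Ct (144 * 4 ^ κ) (worstTime A (144 * 4 ^ κ)) κ l
  push_cast at h2
  set t : ℝ := (worstTime A (144 * 4 ^ κ) : ℝ) with ht
  have ht0 : 0 ≤ t := Nat.cast_nonneg _
  set P : ℝ := (4 : ℝ) ^ κ with hP
  have hP0 : 0 < P := by positivity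
  set x : ℝ := (κ : ℝ) / 2 ^ l with hx
  have hx0 : 0 ≤ x := by positivity
  have hC0 : (0 : ℝ) ≤ Ct := Nat.cast_nonneg _
  have hl0 : (0 : ℝ) ≤ l := Nat.cast_nonneg _
  have key : (l : ℝ) * (t + 144 * P) + (6 * x + 7) * (144 * P) + P
      ≤ 8 * ((l : ℝ) * (t + 144 * P) + (x + 1) * (144 * P)) := by
    have a1 : 0 ≤ (l : ℝ) * (t + 144 * P) := by positivity
    have a2 : 0 ≤ x * P := by positivity
    nlinarith
  calc (transTime B (2 ^ κ) : ℝ)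
      ≤ Ct * ((l : ℝ) * (t + 144 * P) + (6 * x + 7) * (144 * P)) + Ct * P := by linarith
    _ = Ct * ((l : ℝ) * (t + 144 * P) + (6 * x + 7) * (144 * P) + P) := by ring
    _ ≤ Ct * (8 * ((l : ℝ) * (t + 144 * P) + (x + 1) * (144 * P))) :=
        mul_le_mul_of_nonneg_left key hC0
    _ = 8 * Ct * ((l : ℝ) * (t + 144 * P) + (x + 1) * (144 * P)) := by ring

/-- The conditional lower bound. -/
theorem conditional_lower
    (H : ∀ (kB : ℕ) (B : Machine kB), Transposes B →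
      ∃ c : ℝ, 0 < c ∧ ∃ n₀ : ℕ, ∀ n : ℕ, n₀ ≤ n → c * (n : ℝ) ^ 2 * Real.log n ≤ transTime B n)
    {kA : ℕ} (A : Machine kA) (hA : Multiplies A) :
    ∃ c : ℝ, 0 < c ∧ ∃ N₀ : ℕ, 2 ≤ N₀ ∧
      (∀ κ : ℕ, N₀ ≤ 144 * 4 ^ κ →
        c * ((144 * 4 ^ κ : ℕ) : ℝ) * Real.log ((144 * 4 ^ κ : ℕ) : ℝ) ≤ worstTime A (144 * 4 ^ κ)) ∧
      (∀ N : ℕ, N₀ ≤ N → ∃ N' : ℕ, N' ≤ N ∧ N ≤ 4 * N' ∧
        c * (N : ℝ) * Real.log N ≤ worstTime A N') := by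
  obtain ⟨B, Ct, hB, hb⟩ := reduction_Wrec A hA
  obtain ⟨c, hc, n₀, hlow⟩ := H _ B hB
  obtain ⟨c', hc', κ₀, h1⟩ := lower_of_reduction (worstTime A) (transTime B) Ct hb c hc n₀ hlow
  obtain ⟨c'', hc'', N₀, h2⟩ := envelope_of_sparse (worstTime A) c' hc' κ₀ h1
  refine ⟨min c' c'', lt_min hc' hc'', max (max N₀ (144 * 4 ^ κ₀)) 2, le_max_right _ _, ?_, ?_⟩
  · intro κ hκ
    have hk : κ₀ ≤ κ := by
      have h3 : 144 * 4 ^ κ₀ ≤ 144 * 4 ^ κ := le_trans (le_trans (le_max_right _ _) (le_max_left _ _)) hκ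
      have h4 : 4 ^ κ₀ ≤ 4 ^ κ := by omega
      exact (Nat.pow_le_pow_iff_right (by norm_num)).1 h4
    refine le_trans ?_ (h1 κ hk)
    have hlog : 0 ≤ Real.log ((144 * 4 ^ κ : ℕ) : ℝ) := Real.log_natCast_nonneg _
    have hN : (0 : ℝ) ≤ ((144 * 4 ^ κ : ℕ) : ℝ) := Nat.cast_nonneg _
    have := min_le_left c' c''
    gcongr
  · intro N hN
    obtain ⟨N', a1, a2, a3⟩ := h2 N (le_trans (le_trans (le_max_left _ _) (le_max_left _ _)) hN)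
    refine ⟨N', a1, a2, le_trans ?_ a3⟩
    have hlog : 0 ≤ Real.log (N : ℝ) := Real.log_natCast_nonneg _
    have hN : (0 : ℝ) ≤ (N : ℝ) := Nat.cast_nonneg _
    have := min_le_right c' c''
    gcongr

end Vale.Agent.P338
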