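import Vale.Agent.P338.TM.Frag

/-!
The work alphabet `Sym`, list-described tapes `tp l h`, counters `cnt c` (a head position on a tape
whose only non-blank cell is the origin mark in cell `0`) and vector-notation simp lemmas.
-/

namespace Vale.Agent.P338

/-- The work alphabet. -/
inductive Sym
  | blank | b0 | b1 | sep | org | one
  deriving DecidableEq, Repr

instance : Fintype Sym :=
  ⟨{Sym.blank, Sym.b0, Sym.b1, Sym.sep, Sym.org, Sym.one}, by intro x; cases x <;> simp⟩

/-- A bit as a symbol. -/
def bit : Bool → Sym
  | false => Sym.b0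
  | true => Sym.b1

instance : Inhabited Sym := ⟨Sym.blank⟩

@[simp] theorem default_sym : (default : Sym) = Sym.blank := rfl

section
variable {Γ : Type} [Inhabited Γ]

/-- The tape whose cells `0,1,…` hold the list `l` (blank = `default` beyond), head on cell `h`. -/
def tp (l : List Γ) (h : ℕ) : Tape Γ := ⟨fun i => l[i]?.getD default, h⟩

@[simp] theorem tp_read (l : List Γ) (h : ℕ) : (tp l h).read = l[h]?.getD default := rfl

/-- Moving without changing the scanned symbol. -/
theorem tp_move (l : List Γ) (h : ℕ) (d : Dir) :
    (tp l h).step (l[h]?.getD default, d) = tp l (d.apply h) := by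
  ext i
  · simp only [tp, Tape.step, Function.update_apply]
    split_ifs with e
    · rw [e]
    · rfl
  · rfl

/-- Appending a symbol at the end. -/
theorem tp_append (l : List Γ) (x : Γ) (d : Dir) :
    (tp l l.length).step (x, d) = tp (l ++ [x]) (d.apply l.length) := by
  ext i
  · simp only [tp, Tape.step, Function.update_apply]
    split_ifs with e
    · subst e; simp
    · rcases Nat.lt_or_gt_of_ne e with h | h
      · rw [List.getElem?_append_left h]
      · rw [List.getElem?_eq_none (by omega), List.getElem?_eq_none (by simp; omega)]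
  · rfl

/-- Overwriting a cell inside the list. -/
theorem tp_set (l : List Γ) (h : ℕ) (x : Γ) (d : Dir) (hh : h < l.length) :
    (tp l h).step (x, d) = tp (l.set h x) (d.apply h) := by
  ext i
  · simp only [tp, Tape.step, Function.update_apply, List.getElem?_set]
    by_cases e : i = h
    · subst e; simp [hh]
    · rw [if_neg e, if_neg (Ne.symm e)]
  · rfl

/-- Trailing blanks do not matter. -/
theorem tp_trailing (l : List Γ) (h : ℕ) : tp (l ++ [default]) h = tp l h := by
  ext i
  · simp only [tp]
    rcases Nat.lt_trichotomy i l.length with h | h | h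
    · rw [List.getElem?_append_left h]
    · subst h; simp
    · rw [List.getElem?_eq_none (by simp; omega), List.getElem?_eq_none (by omega)]
  · rfl

theorem tp_map {Γ' : Type} [Inhabited Γ'] (e : Γ → Γ') (he : e default = default) (l : List Γ)
    (h : ℕ) : (tp l h).map e = tp (l.map e) h := by
  ext i
  · simp only [tp, Tape.map, List.getElem?_map]
    cases l[i]? <;> simp [he]
  · rfl

end

/-- A counter with value `c`. -/
def cnt (c : ℕ) : Tape Sym := tp [Sym.org] c

@[simp] theorem cnt_read_zero : (cnt 0).read = Sym.org := rfl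
@[simp] theorem cnt_read_succ (c : ℕ) : (cnt (c + 1)).read = Sym.blank := by simp [cnt]

theorem cnt_read (c : ℕ) : (cnt c).read = if c = 0 then Sym.org else Sym.blank := by
  cases c <;> simp

@[simp] theorem cnt_right (c : ℕ) : (cnt c).step ((cnt c).read, Dir.right) = cnt (c + 1) :=
  tp_move _ _ _
@[simp] theorem cnt_left (c : ℕ) : (cnt c).step ((cnt c).read, Dir.left) = cnt (c - 1) :=
  tp_move _ _ _
@[simp] theorem cnt_stay (c : ℕ) : (cnt c).step ((cnt c).read, Dir.stay) = cnt c :=
  tp_move _ _ _

namespace Frag
variable {Γ : Type} {k : ℕ}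

@[simp] theorem reads_cons (t : Tape Γ) (T : Fin k → Tape Γ) :
    reads (Matrix.vecCons t T) = Matrix.vecCons t.read (reads T) := by
  funext i; refine Fin.cases ?_ (fun j => ?_) i <;> rfl

@[simp] theorem reads_empty (T : Fin 0 → Tape Γ) : reads T = ![] := by
  funext i; exact i.elim0

@[simp] theorem acts_cons (t : Tape Γ) (T : Fin k → Tape Γ) (a : Γ × Dir) (A : Fin k → Γ × Dir) :
    acts (Matrix.vecCons t T) (Matrix.vecCons a A) = Matrix.vecCons (t.step a) (acts T A) := by
  funext i; refine Fin.cases ?_ (fun j => ?_) i <;> rfl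

@[simp] theorem acts_empty (T : Fin 0 → Tape Γ) (A : Fin 0 → Γ × Dir) : acts T A = ![] := by
  funext i; exact i.elim0

/-- One-step rule in `RunsLE` form. -/
theorem RunsLE.prim (f : (Fin k → Γ) → Fin k → Γ × Dir) (T T' : Fin k → Tape Γ)
    (h : acts T (f (reads T)) = T') : RunsLE (Frag.prim f) T 1 T' := by
  subst h; exact (runs_prim f T).le

end Frag

end Vale.Agent.P338
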