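import Vale.Agent.P338.TM.SwapSpec
import Vale.Agent.P338.TM.MathRec
import Vale.Agent.P338.TM.MathNat
import Vale.Agent.P338.TM.MathShear

/-!
TASK T15, part 1.  Small own-level programs used by the control: counter arithmetic (add, subtract,
halve, powers of two), the parity stack (push, pop, probe), erasing and copying a data tape.
-/

namespace Vale.Agent.P338
namespace Ctrl
open Frag Matrix

/-! ### Counters -/

theorem cnt0_stay : (cnt 0).step (Sym.org, Dir.stay) = cnt 0 := cnt_stay 0
theorem cnt0_right : (cnt 0).step (Sym.org, Dir.right) = cnt 1 := cnt_right 0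
theorem cntS_left (c : ℕ) : (cnt (c + 1)).step (Sym.blank, Dir.left) = cnt c := by
  have := cnt_left (c + 1)
  rwa [cnt_read_succ] at this

/-- Tapes `x, shadow, y`: `y += x`. -/
theorem runsLE_add (x y : ℕ) :
    RunsLE (rep mvR) ![cnt x, cnt 0, cnt y] (x * 5 + 2) ![cnt x, cnt 0, cnt (y + x)] := by
  have := runsLE_rep (body := mvR) (fun j => ![cnt (y + j)]) x 1 (fun j _ => runsLE_mvR_cnt (y + j))
  simpa using this

/-- Tapes `x, shadow, y`: `y -= x`. -/
theorem runsLE_sub (x y : ℕ) :
    RunsLE (rep mvL) ![cnt x, cnt 0, cnt y] (x * 5 + 2) ![cnt x, cnt 0, cnt (y - x)] := by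
  have := runsLE_rep (body := mvL) (fun j => ![cnt (y - j)]) x 1 (fun j _ => by
    have h := runsLE_mvL_cnt (y - j)
    rwa [Nat.sub_sub] at h)
  simpa using this

/-- Tapes `u, p`: one step of the halving automaton. -/
def halfStep : Frag Sym 2 := prim fun s =>
  if s 1 == Sym.org then ![(s 0, Dir.stay), (s 1, Dir.right)] else ![(s 0, Dir.right), (s 1, Dir.left)]

theorem runsLE_halfStep (j : ℕ) :
    RunsLE halfStep ![cnt (j / 2), cnt (j % 2)] 1 ![cnt ((j + 1) / 2), cnt ((j + 1) % 2)] := by
  refine RunsLE.prim _ _ _ ?_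
  rcases Nat.mod_two_eq_zero_or_one j with h | h
  · have e1 : (j + 1) / 2 = j / 2 := by omega
    have e2 : (j + 1) % 2 = 0 + 1 := by omega
    rw [h, e1, e2]
    simp only [reads_cons, cons_val_zero, cons_val_one, cnt_read_zero, beq_self_eq_true, if_true,
      acts_cons, cnt_stay]
    rw [← cnt_read_zero, cnt_right]
    simp
  · have e1 : (j + 1) / 2 = j / 2 + 1 := by omega
    have e2 : (j + 1) % 2 = 1 - 1 := by omega
    rw [h, e1, e2]
    have hr : (cnt 1).read = Sym.blank := cnt_read_succ 0
    have hb : (Sym.blank == Sym.org) = false := by decide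
    simp only [reads_cons, cons_val_zero, cons_val_one, hr, hb, Bool.false_eq_true, if_false,
      acts_cons, cnt_right]
    rw [← hr, cnt_left]
    simp

/-- Tapes `k, shadow, u, p`: `u := k / 2`, `p := k % 2`. -/
theorem runsLE_halve (k : ℕ) :
    RunsLE (rep halfStep) ![cnt k, cnt 0, cnt 0, cnt 0] (k * 5 + 2)
      ![cnt k, cnt 0, cnt (k / 2), cnt (k % 2)] := by
  have := runsLE_rep (body := halfStep) (fun j => ![cnt (j / 2), cnt (j % 2)]) k 1
    (fun j _ => runsLE_halfStep j)
  simpa using this

/-- Tapes `x, t`: `x += 2 t`, `t := 0`. -/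
def back2 : Frag Sym 2 :=
  loop (fun s => s 1 != Sym.org)
    (seq (prim fun s => ![(s 0, Dir.right), (s 1, Dir.left)])
      (prim fun s => ![(s 0, Dir.right), (s 1, Dir.stay)]))

theorem runsLE_back2 (x t : ℕ) :
    RunsLE back2 ![cnt x, cnt t] (3 * t + 1) ![cnt (x + 2 * t), cnt 0] := by
  unfold back2
  induction t generalizing x with
  | zero => exact RunsLE.loop_false (by simp)
  | succ t ih =>
    have h1 := ih (x + 2)
    have e : x + 2 + 2 * t = x + 2 * (t + 1) := by omega
    rw [e] at h1
    refine RunsLE.mono (RunsLE.loop_true (by simp)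
      (RunsLE.seq (T' := ![cnt (x + 1), cnt t]) (RunsLE.prim _ _ _ ?_)
        (RunsLE.prim _ _ ![cnt (x + 2), cnt t] ?_)) h1) ?_
    · simp only [reads_cons, cons_val_zero, cons_val_one, acts_cons, cnt_left, cnt_right]
      simp
    · simp only [reads_cons, cons_val_zero, cons_val_one, acts_cons, cnt_stay, cnt_right]
      simp
    · omega

/-- Tapes `x, t` (`t = 0`): `x := 2 x`. -/
def dbl : Frag Sym 2 := seq moveCnt back2

theorem runsLE_dbl (x : ℕ) : RunsLE dbl ![cnt x, cnt 0] (5 * x + 2) ![cnt (2 * x), cnt 0] := by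
  have h1 := runsLE_moveCnt x 0
  have h2 := runsLE_back2 0 (0 + x)
  have h3 := h1.seq h2
  simp only [Nat.zero_add] at h3
  exact h3.mono (by omega)

theorem pow_sum (x c : ℕ) :
    (∑ j ∈ Finset.range c, (5 * (x * 2 ^ j) + 2)) + 5 * x = 5 * (x * 2 ^ c) + 2 * c := by
  induction c with
  | zero => simp
  | succ c ih =>
    rw [Finset.sum_range_succ, pow_succ]
    have e : x * (2 ^ c * 2) = 2 * (x * 2 ^ c) := by ring
    rw [e]
    omega

/-- Tapes `c, shadow, x, t`: `x := x * 2 ^ c`. -/
theorem runsLE_mulPow (c x : ℕ) :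
    RunsLE (rep dbl) ![cnt c, cnt 0, cnt x, cnt 0] (5 * (x * 2 ^ c) + 6 * c + 2)
      ![cnt c, cnt 0, cnt (x * 2 ^ c), cnt 0] := by
  have := runsLE_rep_sum (body := dbl) (fun j => ![cnt (x * 2 ^ j), cnt 0]) c
    (fun j => 5 * (x * 2 ^ j) + 2) (fun j _ => by
      have h := runsLE_dbl (x * 2 ^ j)
      have e : 2 * (x * 2 ^ j) = x * 2 ^ (j + 1) := by rw [pow_succ]; ring
      rwa [e] at h)
  simp only [pow_zero, Nat.mul_one] at this
  refine this.mono ?_
  have := pow_sum x c
  omega

/-! ### Data tapes -/

theorem isData_not_org {l : List Sym} (h : IsData l) : Sym.org ∉ l := fun hh => (h _ hh).2 rfl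
theorem isData_not_blank {l : List Sym} (h : IsData l) : Sym.blank ∉ l := fun hh => (h _ hh).1 rfl

/-- Erase a data tape. -/
def eraseT : Frag Sym 1 := seq toEnd eraseBack

theorem runsLE_eraseT (l : List Sym) (hl : IsData l) :
    RunsLE eraseT ![dat l] (4 * l.length + 6) ![dat []] := by
  have h1 := runsLE_toEnd [] (Sym.org :: l) (by
    intro h
    rcases List.mem_cons.1 h with h | h
    · exact absurd h (by decide)
    · exact isData_not_blank hl h)
  have h2 := runsLE_eraseBack l (isData_not_org hl)
  rw [List.nil_append] at h1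
  refine (h1.seq h2).mono ?_
  simp
  omega

/-- Tapes `X, Y` (`Y` empty): copy `X` to `Y`. -/
noncomputable def copyT : Frag Sym 2 :=
  seq (prim fun s => ![(s 0, Dir.right), (s 1, Dir.right)])
    (seq copyAll (seq (lift ![0] rewind) (lift ![1] rewind)))

theorem runsLE_copyT (l : List Sym) (hl : IsData l) :
    RunsLE copyT ![dat l, dat []] (6 * l.length + 8) ![dat l, dat l] := by
  have s1 : RunsLE (prim fun s : Fin 2 → Sym => ![(s 0, Dir.right), (s 1, Dir.right)])
      ![dat l, dat []] 1 ![zt [Sym.org] l, zt [Sym.org] []] := by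
    refine RunsLE.prim _ _ _ ?_
    simp [dat]
  have s2 := runsLE_copyAll [Sym.org] l [Sym.org] (isData_not_blank hl)
  have hr := runsLE_rewind l [] (isData_not_org hl) (by simp)
  rw [List.append_nil] at hr
  have s3 : RunsLE (lift ![0] rewind : Frag Sym 2) ![zt ([Sym.org] ++ l) [], zt ([Sym.org] ++ l) []]
      (2 * l.length + 3) ![dat l, zt ([Sym.org] ++ l) []] :=
    RunsLE.lift (by decide) hr _ _ (by intro a; fin_cases a <;> rfl) (by intro a; fin_cases a <;> rfl)
      (by intro c hc; fin_cases c <;> first | rfl | (exfalso; revert hc; decide))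
  have s4 : RunsLE (lift ![1] rewind : Frag Sym 2) ![dat l, zt ([Sym.org] ++ l) []]
      (2 * l.length + 3) ![dat l, dat l] :=
    RunsLE.lift (by decide) hr _ _ (by intro a; fin_cases a <;> rfl) (by intro a; fin_cases a <;> rfl)
      (by intro c hc; fin_cases c <;> first | rfl | (exfalso; revert hc; decide))
  exact (s1.seq (s2.seq (s3.seq s4))).mono (by omega)

/-! ### The parity stack -/

/-- Push `x`. -/
def push (x : Sym) : Frag Sym 1 := seq toEnd (seq (put x) rewind)

theorem runsLE_push (x : Sym) (S : List Sym) (hS : IsData S) (hx : x ≠ Sym.org) :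
    RunsLE (push x) ![dat S] (4 * S.length + 9) ![dat (S ++ [x])] := by
  have h1 := runsLE_toEnd [] (Sym.org :: S) (by
    intro h
    rcases List.mem_cons.1 h with h | h
    · exact absurd h (by decide)
    · exact isData_not_blank hS h)
  rw [List.nil_append] at h1
  have h2 := runsLE_put x (Sym.org :: S)
  have h3 := runsLE_rewind (S ++ [x]) [] (by
    intro h
    rcases List.mem_append.1 h with h | h
    · exact isData_not_org hS h
    · exact hx (List.mem_singleton.1 h).symm) (by simp)
  rw [List.append_nil] at h3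
  refine (h1.seq (h2.seq h3)).mono ?_
  simp
  omega

/-- Tapes `stk, p`: push `b0` if `p = 0`, `b1` otherwise. -/
noncomputable def pushPar : Frag Sym 2 :=
  ite (fun s => s 1 == Sym.org) (lift ![0] (push Sym.b0)) (lift ![0] (push Sym.b1))

/-- The symbol coding a parity. -/
def parSym (p : ℕ) : Sym := if p = 0 then Sym.b0 else Sym.b1

theorem parSym_ne_org (p : ℕ) : parSym p ≠ Sym.org := by unfold parSym; split <;> decide
theorem parSym_ne_blank (p : ℕ) : parSym p ≠ Sym.blank := by unfold parSym; split <;> decide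

theorem runsLE_pushPar (S : List Sym) (hS : IsData S) (p : ℕ) :
    RunsLE pushPar ![dat S, cnt p] (4 * S.length + 10) ![dat (S ++ [parSym p]), cnt p] := by
  rcases Nat.eq_zero_or_pos p with h | h
  · subst h
    exact RunsLE.ite_true (by simp)
      (RunsLE.lift (by decide) (runsLE_push Sym.b0 S hS (by decide)) _ _ (by intro a; fin_cases a <;> rfl)
        (by intro a; fin_cases a <;> rfl)
      (by intro c hc; fin_cases c <;> first | rfl | (exfalso; revert hc; decide)))
  · obtain ⟨q, rfl⟩ : ∃ q, p = q + 1 := ⟨p - 1, by omega⟩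
    exact RunsLE.ite_false (by simp)
      (RunsLE.lift (by decide) (runsLE_push Sym.b1 S hS (by decide)) _ _ (by intro a; fin_cases a <;> rfl)
        (by intro a; fin_cases a <;> rfl)
      (by intro c hc; fin_cases c <;> first | rfl | (exfalso; revert hc; decide)))

/-- Tapes `stk, p` (`p = 0`): pop the top symbol, `p := 1` if it is `b1`. -/
noncomputable def pop : Frag Sym 2 :=
  seq (lift ![0] toEnd) (seq (lift ![0] mvL)
    (seq (prim fun s => ![(Sym.blank, Dir.stay), (s 1, if s 0 == Sym.b1 then Dir.right else Dir.stay)])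
      (lift ![0] rewind)))

theorem runsLE_pop (S : List Sym) (hS : IsData S) (p : ℕ) (hp : p < 2) :
    RunsLE pop ![dat (S ++ [parSym p]), cnt 0] (4 * S.length + 10) ![dat S, cnt p] := by
  have h1 := runsLE_toEnd [] (Sym.org :: (S ++ [parSym p])) (by
    intro h
    rcases List.mem_cons.1 h with h | h
    · exact absurd h (by decide)
    · rcases List.mem_append.1 h with h | h
      · exact isData_not_blank hS h
      · exact parSym_ne_blank p (List.mem_singleton.1 h).symm)
  rw [List.nil_append] at h1
  have s1 : RunsLE (lift ![0] toEnd : Frag Sym 2) ![dat (S ++ [parSym p]), cnt 0]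
      (2 * (Sym.org :: (S ++ [parSym p])).length + 1) ![zt (Sym.org :: (S ++ [parSym p])) [], cnt 0] :=
    RunsLE.lift (by decide) h1 _ _ (by intro a; fin_cases a <;> rfl) (by intro a; fin_cases a <;> rfl)
      (by intro c hc; fin_cases c <;> first | rfl | (exfalso; revert hc; decide))
  have h2 := runsLE_mvL (Sym.org :: S) [] (parSym p)
  have s2 : RunsLE (lift ![0] mvL : Frag Sym 2) ![zt (Sym.org :: (S ++ [parSym p])) [], cnt 0] 1
      ![zt (Sym.org :: S) [parSym p], cnt 0] :=
    RunsLE.lift (by decide) h2 _ _ (by intro a; fin_cases a <;> rfl) (by intro a; fin_cases a <;> rfl)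
      (by intro c hc; fin_cases c <;> first | rfl | (exfalso; revert hc; decide))
  have s3 : RunsLE (prim fun s : Fin 2 → Sym =>
      ![(Sym.blank, Dir.stay), (s 1, if s 0 == Sym.b1 then Dir.right else Dir.stay)])
      ![zt (Sym.org :: S) [parSym p], cnt 0] 1 ![zt (Sym.org :: S) [], cnt p] := by
    refine RunsLE.prim _ _ _ ?_
    have hp' : p = 0 ∨ p = 1 := by omega
    rcases hp' with rfl | rfl
    · have hb : (Sym.b0 == Sym.b1) = false := by decide
      simp only [parSym, if_true, reads_cons, cons_val_zero, cons_val_one, zt_read_cons, hb,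
        acts_cons, zt_stay_cons, zt_single_blank, cnt_stay]
      simp [cnt0_stay]
    · have hb : (Sym.b1 == Sym.b1) = true := by decide
      simp only [parSym, one_ne_zero, if_false, reads_cons, cons_val_zero, cons_val_one,
        zt_read_cons, hb, if_true, acts_cons, zt_stay_cons, zt_single_blank, cnt_right]
      simp
  have h4 := runsLE_rewind S [] (isData_not_org hS) (by simp)
  rw [List.append_nil] at h4
  have s4 : RunsLE (lift ![0] rewind : Frag Sym 2) ![zt (Sym.org :: S) [], cnt p]
      (2 * S.length + 3) ![dat S, cnt p] :=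
    RunsLE.lift (by decide) h4 _ _ (by intro a; fin_cases a <;> rfl) (by intro a; fin_cases a <;> rfl)
      (by intro c hc; fin_cases c <;> first | rfl | (exfalso; revert hc; decide))
  refine (s1.seq (s2.seq (s3.seq s4))).mono ?_
  simp
  omega

/-- `1` if the stack is nonempty. -/
def ne01 (S : List Sym) : ℕ := if S = [] then 0 else 1

/-- Tapes `stk, p` (`p = 0`): `p := 1` if the stack is not empty. -/
def probe : Frag Sym 2 :=
  seq (prim fun s => ![(s 0, Dir.right), (s 1, Dir.stay)])
    (prim fun s => ![(s 0, Dir.left), (s 1, if s 0 != Sym.blank then Dir.right else Dir.stay)])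

theorem runsLE_probe (S : List Sym) (hS : IsData S) :
    RunsLE probe ![dat S, cnt 0] 2 ![dat S, cnt (ne01 S)] := by
  have s1 : RunsLE (prim fun s : Fin 2 → Sym => ![(s 0, Dir.right), (s 1, Dir.stay)])
      ![dat S, cnt 0] 1 ![zt [Sym.org] S, cnt 0] := by
    refine RunsLE.prim _ _ _ ?_
    simp only [dat, reads_cons, cons_val_zero, cons_val_one, acts_cons, zt_read_cons, zt_right_cons,
      cnt_stay, List.nil_append]
    simp
  have s2 : RunsLE (prim fun s : Fin 2 → Sym =>
      ![(s 0, Dir.left), (s 1, if s 0 != Sym.blank then Dir.right else Dir.stay)])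
      ![zt [Sym.org] S, cnt 0] 1 ![dat S, cnt (ne01 S)] := by
    refine RunsLE.prim _ _ _ ?_
    have hm := zt_move_left [] S Sym.org
    rw [List.nil_append] at hm
    cases S with
    | nil =>
      have hb : (Sym.blank != Sym.blank) = false := by decide
      simp only [reads_cons, cons_val_zero, cons_val_one, acts_cons, hm]
      simp only [zt_read_nil, default_sym, hb, ne01, if_true, cnt_stay]
      simp [dat, cnt0_stay]
    | cons x S =>
      have hx : (x != Sym.blank) = true := by
        have := (hS x (by simp)).1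
        simpa using this
      simp only [reads_cons, cons_val_zero, cons_val_one, acts_cons, hm]
      simp only [zt_read_cons, hx, ne01, if_true, cnt_right]
      simp [dat]
  exact s1.seq s2

end Ctrl
end Vale.Agent.P338
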