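import Vale.Agent.P338.TM.CtrlLib

/-!
TASK T15, part 2.  The recursion `algL` unrolled into a descending and an ascending loop, and
elementary facts on the cost recursion `Wrec`.
-/

namespace Vale.Agent.P338
namespace Ctrl
open Frag

variable {α : Type}

/-- The parities pushed on the stack by the descending loop started at level `κ`. -/
def parL (κ : ℕ) : List Sym :=
  if h : κ < 2 then [] else parSym (κ % 2) :: parL (κ - κ / 2)
termination_by κ
decreasing_by omega

/-- The level at which the descending loop stops. -/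
def bot (κ : ℕ) : ℕ :=
  if h : κ < 2 then κ else bot (κ - κ / 2)
termination_by κ
decreasing_by omega

/-- The effect of the descending loop. -/
def dnL (κ : ℕ) (l : List α) : List α :=
  if h : κ < 2 then l else dnL (κ - κ / 2) (midL κ (downL κ l))
termination_by κ
decreasing_by omega

/-- The effect of the ascending loop. -/
def upA (κ : ℕ) (l : List α) : List α :=
  if h : κ < 2 then l else upL κ (upA (κ - κ / 2) l)
termination_by κ
decreasing_by omega

/-- The bottom of the recursion. -/
def btm (b : ℕ) (l : List α) : List α := if b = 0 then l else shufL 2 1 l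

theorem bot_lt (κ : ℕ) : bot κ < 2 := by
  induction κ using Nat.strong_induction_on with
  | _ κ ih =>
    rw [bot]
    split_ifs with h
    · exact h
    · exact ih _ (by omega)

theorem algL_eq_loops (κ : ℕ) (l : List α) : algL κ l = upA κ (btm (bot κ) (dnL κ l)) := by
  induction κ using Nat.strong_induction_on generalizing l with
  | _ κ ih =>
    rw [algL.eq_1, upA, bot, dnL]
    by_cases h : κ < 2
    · simp only [dif_pos h]
      rfl
    · simp only [dif_neg h]
      rw [ih (κ - κ / 2) (by omega)]

theorem isData_parL (κ : ℕ) : IsData (parL κ) := by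
  induction κ using Nat.strong_induction_on with
  | _ κ ih =>
    rw [parL]
    split_ifs with h
    · intro x hx; simp at hx
    · intro x hx
      rcases List.mem_cons.1 hx with rfl | hx
      · exact ⟨parSym_ne_blank _, parSym_ne_org _⟩
      · exact ih _ (by omega) x hx

/-! ### Arithmetic of the levels -/

theorem four_pow_split (κ : ℕ) :
    (4 : ℕ) ^ κ = 2 ^ (κ / 2) * 2 ^ (κ / 2) * 2 ^ (κ - κ / 2) * 2 ^ (κ - κ / 2) := by
  have h4 : (4 : ℕ) = 2 ^ 2 := by norm_num
  rw [h4, ← pow_mul, ← pow_add, ← pow_add, ← pow_add]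
  congr 1
  omega

theorem four_pow_next (κ : ℕ) : (4 : ℕ) ^ κ = 4 ^ (κ / 2) * 4 ^ (κ - κ / 2) := by
  rw [← pow_add]
  congr 1
  omega

theorem le_four_pow (κ : ℕ) : κ ≤ 4 ^ κ :=
  (Nat.lt_pow_self (by norm_num : 1 < 4)).le

section lengths
variable (κ K : ℕ) (l : List α) (hl : l.length = K * 4 ^ κ)
include hl

theorem len_swap1 : l.length = (K * 2 ^ (κ - κ / 2)) * (2 ^ (κ / 2) * 2 ^ (κ / 2) * 2 ^ (κ - κ / 2)) := by
  rw [hl, four_pow_split κ]; ring

theorem len_swap2 : l.length = K * (2 ^ (κ / 2) * 2 ^ (κ / 2) * 2 ^ (2 * (κ - κ / 2))) := by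
  rw [hl, four_pow_split κ, two_mul, pow_add]; ring

theorem len_shuf (hodd : κ % 2 = 1) :
    l.length = (K * 2 ^ (κ / 2)) * (2 * 2 ^ (κ / 2) * 2 ^ (κ / 2 + (κ - κ / 2))) := by
  have e : κ - κ / 2 = κ / 2 + 1 := by omega
  rw [hl, four_pow_split κ, e, pow_add, pow_add, pow_one]; ring

theorem length_swap1 : (swapL (2 ^ (κ / 2)) (2 ^ (κ - κ / 2)) l).length = l.length := by
  rw [length_swapL _ _ _ l (len_swap1 κ K l hl), ← len_swap1 κ K l hl]

theorem length_downL : (downL κ l).length = l.length := by
  have h1 := length_swap1 κ K l hl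
  simp only [downL]
  split_ifs with h
  · exact h1
  · have hodd : κ % 2 = 1 := by omega
    rw [length_shufL _ _ _ _ (by rw [h1]; exact len_shuf κ K l hl hodd), ← len_shuf κ K l hl hodd]

theorem length_midL : (midL κ l).length = l.length := by
  unfold midL
  rw [length_swapL _ _ K l (len_swap2 κ K l hl), ← len_swap2 κ K l hl]

theorem length_unshuf (hodd : κ % 2 = 1) :
    (unshufL (2 ^ (κ / 2)) (2 ^ (κ / 2 + (κ - κ / 2))) l).length = l.length := by
  rw [length_unshufL _ _ _ l (len_shuf κ K l hl hodd), ← len_shuf κ K l hl hodd]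

theorem length_upL : (upL κ l).length = l.length := by
  simp only [upL]
  split_ifs with h
  · exact length_swap1 κ K l hl
  · have hodd : κ % 2 = 1 := by omega
    have h1 := length_unshuf κ K l hl hodd
    rw [length_swap1 κ K _ (by rw [h1]; exact hl), h1]

end lengths

theorem length_upA (κ : ℕ) : ∀ (K : ℕ) (l : List α), l.length = K * 4 ^ κ →
    (upA κ l).length = l.length := by
  induction κ using Nat.strong_induction_on with
  | _ κ ih =>
    intro K l hl
    rw [upA]
    split_ifs with h
    · rfl
    · have h1 := ih (κ - κ / 2) (by omega) (K * 4 ^ (κ / 2)) l (by rw [hl, four_pow_next κ]; ring)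
      rw [length_upL κ K _ (by rw [h1]; exact hl), h1]

theorem length_dnL (κ : ℕ) : ∀ (K : ℕ) (l : List α), l.length = K * 4 ^ κ →
    (dnL κ l).length = l.length := by
  induction κ using Nat.strong_induction_on with
  | _ κ ih =>
    intro K l hl
    rw [dnL]
    split_ifs with h
    · rfl
    · have h0 := length_downL κ K l hl
      have h1 := length_midL κ K (downL κ l) (by rw [h0]; exact hl)
      rw [ih (κ - κ / 2) (by omega) (K * 4 ^ (κ / 2)) _
        (by rw [h1, h0, hl, four_pow_next κ]; ring), h1, h0]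

/-! ### The cost recursion -/

theorem Wrec_add (C C' N t : ℕ) (κ : ℕ) :
    Wrec C N t κ + Wrec C' N t κ = Wrec (C + C') N t κ := by
  induction κ using Nat.strong_induction_on with
  | _ κ ih =>
    rw [Wrec, Wrec.eq_1 C', Wrec.eq_1 (C + C')]
    split_ifs with h
    · ring
    · rw [← ih (κ - κ / 2) (by omega)]
      ring

theorem le_Wrec (C N t : ℕ) (κ : ℕ) : C * N ≤ Wrec C N t κ := by
  rw [Wrec]
  split_ifs with h
  · exact le_rfl
  · calc C * N ≤ C * (min t (κ * N) + N) := Nat.mul_le_mul_left _ (Nat.le_add_left _ _)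
      _ ≤ _ := Nat.le_add_right _ _

/-- Membership in a reindexed list. -/
theorem isData_reindex (L : ℕ) (π : ℕ → ℕ) (l : List Sym) (h : IsData l) : IsData (reindex L π l) := by
  intro x hx
  obtain ⟨j, _, hx⟩ := mem_cat.1 hx
  exact h x (List.mem_of_mem_drop (List.mem_of_mem_take hx))

end Ctrl
end Vale.Agent.P338
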