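import Vale.Agent.P338.TM.CtrlMath
import Vale.Agent.P338.TM.PassShuf

/-!
TASK T15, part 3.  The elementary steps of the control placed in an abstract `World`.
-/

set_option linter.unusedTactic false
set_option linter.unreachableTactic false
set_option linter.unnecessarySeqFocus false

namespace Vale.Agent.P338
namespace Ctrl
open Frag Matrix World

/-- The states used by the control: `β` with the fields touched by the control replaced. -/
def st (β : OS) (D E1 stk : List Sym) (a ρ κ u v h e : ℕ) : OS :=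
  { β with D := D, E1 := E1, stk := stk, a := a, ρ := ρ, κ := κ, u := u, v := v, h := h, e := e }

theorem clean_st {β : OS} (hβ : β.Clean) (D stk : List Sym) (a ρ κ u v : ℕ) :
    (st β D [] stk a ρ κ u v 0 0).Clean :=
  ⟨rfl, hβ.2.1, hβ.2.2.1, hβ.2.2.2.1, hβ.2.2.2.2.1, hβ.2.2.2.2.2.1, hβ.2.2.2.2.2.2.1,
    hβ.2.2.2.2.2.2.2.1, hβ.2.2.2.2.2.2.2.2.1, hβ.2.2.2.2.2.2.2.2.2.1, rfl, rfl⟩

theorem cnt_test_ne (c : ℕ) (h : c ≠ 0) : ((cnt c).read != Sym.org) = true := by
  rw [cnt_read, if_neg h]; rfl

theorem cnt_test_zero : ((cnt 0).read != Sym.org) = false := rfl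

/-- Place an own-level fragment on the tapes `ι`. -/
noncomputable def P (W : World) {k : ℕ} (ι : Fin k → Fin nOwn) (F : Frag Sym k) : Frag W.Γ W.K :=
  W.emb (Frag.lift ι F)

/-- Do nothing. -/
noncomputable def nop (W : World) : Frag W.Γ W.K := W.emb (prim noop)

variable {W : World}

theorem does_nop (σ : OS) : W.Does (nop W) σ 1 σ := Does.emb (RunsLE.prim _ _ _ (acts_noop _))

variable (β : OS) (D E1 S : List Sym) (a ρ κ u v h e : ℕ)

/-! ### Counter steps -/

theorem add_u_a : W.Does (P W ![17, 21, 7] (rep mvR)) (st β D E1 S a ρ κ u v h e) (u * 5 + 2)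
    (st β D E1 S (a + u) ρ κ u v h e) :=
  Does.place (by decide) (runsLE_add u a) _ _ (by intro i; fin_cases i <;> rfl)
    (by intro i; fin_cases i <;> rfl)
    (by intro c hc; fin_cases c <;> first | rfl | (exfalso; revert hc; decide))

theorem add_u_ρ : W.Does (P W ![17, 21, 8] (rep mvR)) (st β D E1 S a ρ κ u v h e) (u * 5 + 2)
    (st β D E1 S a (ρ + u) κ u v h e) :=
  Does.place (by decide) (runsLE_add u ρ) _ _ (by intro i; fin_cases i <;> rfl)
    (by intro i; fin_cases i <;> rfl)
    (by intro c hc; fin_cases c <;> first | rfl | (exfalso; revert hc; decide))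

theorem add_v_ρ : W.Does (P W ![18, 21, 8] (rep mvR)) (st β D E1 S a ρ κ u v h e) (v * 5 + 2)
    (st β D E1 S a (ρ + v) κ u v h e) :=
  Does.place (by decide) (runsLE_add v ρ) _ _ (by intro i; fin_cases i <;> rfl)
    (by intro i; fin_cases i <;> rfl)
    (by intro c hc; fin_cases c <;> first | rfl | (exfalso; revert hc; decide))

theorem add_κ_a : W.Does (P W ![16, 21, 7] (rep mvR)) (st β D E1 S a ρ κ u v h e) (κ * 5 + 2)
    (st β D E1 S (a + κ) ρ κ u v h e) :=
  Does.place (by decide) (runsLE_add κ a) _ _ (by intro i; fin_cases i <;> rfl)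
    (by intro i; fin_cases i <;> rfl)
    (by intro c hc; fin_cases c <;> first | rfl | (exfalso; revert hc; decide))

theorem add_κ_ρ : W.Does (P W ![16, 21, 8] (rep mvR)) (st β D E1 S a ρ κ u v h e) (κ * 5 + 2)
    (st β D E1 S a (ρ + κ) κ u v h e) :=
  Does.place (by decide) (runsLE_add κ ρ) _ _ (by intro i; fin_cases i <;> rfl)
    (by intro i; fin_cases i <;> rfl)
    (by intro c hc; fin_cases c <;> first | rfl | (exfalso; revert hc; decide))

theorem sub_v_a : W.Does (P W ![18, 21, 7] (rep mvL)) (st β D E1 S a ρ κ u v h e) (v * 5 + 2)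
    (st β D E1 S (a - v) ρ κ u v h e) :=
  Does.place (by decide) (runsLE_sub v a) _ _ (by intro i; fin_cases i <;> rfl)
    (by intro i; fin_cases i <;> rfl)
    (by intro c hc; fin_cases c <;> first | rfl | (exfalso; revert hc; decide))

theorem zero_κ : W.Does (P W ![16] zero) (st β D E1 S a ρ κ u v h e) (2 * κ + 1)
    (st β D E1 S a ρ 0 u v h e) :=
  Does.place (by decide) (runsLE_zero κ) _ _ (by intro i; fin_cases i <;> rfl)
    (by intro i; fin_cases i <;> rfl)
    (by intro c hc; fin_cases c <;> first | rfl | (exfalso; revert hc; decide))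

theorem zero_a : W.Does (P W ![7] zero) (st β D E1 S a ρ κ u v h e) (2 * a + 1)
    (st β D E1 S 0 ρ κ u v h e) :=
  Does.place (by decide) (runsLE_zero a) _ _ (by intro i; fin_cases i <;> rfl)
    (by intro i; fin_cases i <;> rfl)
    (by intro c hc; fin_cases c <;> first | rfl | (exfalso; revert hc; decide))

theorem zero_ρ : W.Does (P W ![8] zero) (st β D E1 S a ρ κ u v h e) (2 * ρ + 1)
    (st β D E1 S a 0 κ u v h e) :=
  Does.place (by decide) (runsLE_zero ρ) _ _ (by intro i; fin_cases i <;> rfl)
    (by intro i; fin_cases i <;> rfl)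
    (by intro c hc; fin_cases c <;> first | rfl | (exfalso; revert hc; decide))

theorem zero_v : W.Does (P W ![18] zero) (st β D E1 S a ρ κ u v h e) (2 * v + 1)
    (st β D E1 S a ρ κ u 0 h e) :=
  Does.place (by decide) (runsLE_zero v) _ _ (by intro i; fin_cases i <;> rfl)
    (by intro i; fin_cases i <;> rfl)
    (by intro c hc; fin_cases c <;> first | rfl | (exfalso; revert hc; decide))

theorem zero_h : W.Does (P W ![19] zero) (st β D E1 S a ρ κ u v h e) (2 * h + 1)
    (st β D E1 S a ρ κ u v 0 e) :=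
  Does.place (by decide) (runsLE_zero h) _ _ (by intro i; fin_cases i <;> rfl)
    (by intro i; fin_cases i <;> rfl)
    (by intro c hc; fin_cases c <;> first | rfl | (exfalso; revert hc; decide))

theorem zero_e : W.Does (P W ![20] zero) (st β D E1 S a ρ κ u v h e) (2 * e + 1)
    (st β D E1 S a ρ κ u v h 0) :=
  Does.place (by decide) (runsLE_zero e) _ _ (by intro i; fin_cases i <;> rfl)
    (by intro i; fin_cases i <;> rfl)
    (by intro c hc; fin_cases c <;> first | rfl | (exfalso; revert hc; decide))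

theorem move_u_κ : W.Does (P W ![17, 16] moveCnt) (st β D E1 S a ρ κ u v h e) (2 * u + 1)
    (st β D E1 S a ρ (κ + u) 0 v h e) :=
  Does.place (by decide) (runsLE_moveCnt u κ) _ _ (by intro i; fin_cases i <;> rfl)
    (by intro i; fin_cases i <;> rfl)
    (by intro c hc; fin_cases c <;> first | rfl | (exfalso; revert hc; decide))

theorem move_v_κ : W.Does (P W ![18, 16] moveCnt) (st β D E1 S a ρ κ u v h e) (2 * v + 1)
    (st β D E1 S a ρ (κ + v) u 0 h e) :=
  Does.place (by decide) (runsLE_moveCnt v κ) _ _ (by intro i; fin_cases i <;> rfl)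
    (by intro i; fin_cases i <;> rfl)
    (by intro c hc; fin_cases c <;> first | rfl | (exfalso; revert hc; decide))

theorem move_a_κ : W.Does (P W ![7, 16] moveCnt) (st β D E1 S a ρ κ u v h e) (2 * a + 1)
    (st β D E1 S 0 ρ (κ + a) u v h e) :=
  Does.place (by decide) (runsLE_moveCnt a κ) _ _ (by intro i; fin_cases i <;> rfl)
    (by intro i; fin_cases i <;> rfl)
    (by intro c hc; fin_cases c <;> first | rfl | (exfalso; revert hc; decide))

theorem halve_κ : W.Does (P W ![16, 21, 17, 18] (rep halfStep)) (st β D E1 S a ρ κ 0 0 h e)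
    (κ * 5 + 2) (st β D E1 S a ρ κ (κ / 2) (κ % 2) h e) :=
  Does.place (by decide) (runsLE_halve κ) _ _ (by intro i; fin_cases i <;> rfl)
    (by intro i; fin_cases i <;> rfl)
    (by intro c hc; fin_cases c <;> first | rfl | (exfalso; revert hc; decide))

theorem inc_h : W.Does (P W ![19] mvR) (st β D E1 S a ρ κ u v h e) 1
    (st β D E1 S a ρ κ u v (h + 1) e) :=
  Does.place (by decide) (runsLE_mvR_cnt h) _ _ (by intro i; fin_cases i <;> rfl)
    (by intro i; fin_cases i <;> rfl)
    (by intro c hc; fin_cases c <;> first | rfl | (exfalso; revert hc; decide))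

theorem inc_e : W.Does (P W ![20] mvR) (st β D E1 S a ρ κ u v h e) 1
    (st β D E1 S a ρ κ u v h (e + 1)) :=
  Does.place (by decide) (runsLE_mvR_cnt e) _ _ (by intro i; fin_cases i <;> rfl)
    (by intro i; fin_cases i <;> rfl)
    (by intro c hc; fin_cases c <;> first | rfl | (exfalso; revert hc; decide))

theorem pow_a_h : W.Does (P W ![7, 21, 19, 22] (rep dbl)) (st β D E1 S a ρ κ u v h e)
    (5 * (h * 2 ^ a) + 6 * a + 2) (st β D E1 S a ρ κ u v (h * 2 ^ a) e) :=
  Does.place (by decide) (runsLE_mulPow a h) _ _ (by intro i; fin_cases i <;> rfl)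
    (by intro i; fin_cases i <;> rfl)
    (by intro c hc; fin_cases c <;> first | rfl | (exfalso; revert hc; decide))

theorem pow_a_e : W.Does (P W ![7, 21, 20, 22] (rep dbl)) (st β D E1 S a ρ κ u v h e)
    (5 * (e * 2 ^ a) + 6 * a + 2) (st β D E1 S a ρ κ u v h (e * 2 ^ a)) :=
  Does.place (by decide) (runsLE_mulPow a e) _ _ (by intro i; fin_cases i <;> rfl)
    (by intro i; fin_cases i <;> rfl)
    (by intro c hc; fin_cases c <;> first | rfl | (exfalso; revert hc; decide))

theorem pow_ρ_e : W.Does (P W ![8, 21, 20, 22] (rep dbl)) (st β D E1 S a ρ κ u v h e)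
    (5 * (e * 2 ^ ρ) + 6 * ρ + 2) (st β D E1 S a ρ κ u v h (e * 2 ^ ρ)) :=
  Does.place (by decide) (runsLE_mulPow ρ e) _ _ (by intro i; fin_cases i <;> rfl)
    (by intro i; fin_cases i <;> rfl)
    (by intro c hc; fin_cases c <;> first | rfl | (exfalso; revert hc; decide))

/-! ### Stack steps -/

theorem push_v (hS : IsData S) : W.Does (P W ![6, 18] pushPar) (st β D E1 S a ρ κ u v h e)
    (4 * S.length + 10) (st β D E1 (S ++ [parSym v]) a ρ κ u v h e) :=
  Does.place (by decide) (runsLE_pushPar S hS v) _ _ (by intro i; fin_cases i <;> rfl)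
    (by intro i; fin_cases i <;> rfl)
    (by intro c hc; fin_cases c <;> first | rfl | (exfalso; revert hc; decide))

theorem pop_v (hS : IsData S) (p : ℕ) (hp : p < 2) :
    W.Does (P W ![6, 18] pop) (st β D E1 (S ++ [parSym p]) a ρ κ u 0 h e)
    (4 * S.length + 10) (st β D E1 S a ρ κ u p h e) :=
  Does.place (by decide) (runsLE_pop S hS p hp) _ _ (by intro i; fin_cases i <;> rfl)
    (by intro i; fin_cases i <;> rfl)
    (by intro c hc; fin_cases c <;> first | rfl | (exfalso; revert hc; decide))

theorem probe_v (hS : IsData S) : W.Does (P W ![6, 18] probe) (st β D E1 S a ρ κ u 0 h e) 2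
    (st β D E1 S a ρ κ u (ne01 S) h e) :=
  Does.place (by decide) (runsLE_probe S hS) _ _ (by intro i; fin_cases i <;> rfl)
    (by intro i; fin_cases i <;> rfl)
    (by intro c hc; fin_cases c <;> first | rfl | (exfalso; revert hc; decide))

/-! ### Data steps -/

theorem erase_D (hD : IsData D) : W.Does (P W ![2] eraseT) (st β D E1 S a ρ κ u v h e)
    (4 * D.length + 6) (st β [] E1 S a ρ κ u v h e) :=
  Does.place (by decide) (runsLE_eraseT D hD) _ _ (by intro i; fin_cases i <;> rfl)
    (by intro i; fin_cases i <;> rfl)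
    (by intro c hc; fin_cases c <;> first | rfl | (exfalso; revert hc; decide))

theorem erase_E1 (hE : IsData E1) : W.Does (P W ![3] eraseT) (st β D E1 S a ρ κ u v h e)
    (4 * E1.length + 6) (st β D [] S a ρ κ u v h e) :=
  Does.place (by decide) (runsLE_eraseT E1 hE) _ _ (by intro i; fin_cases i <;> rfl)
    (by intro i; fin_cases i <;> rfl)
    (by intro c hc; fin_cases c <;> first | rfl | (exfalso; revert hc; decide))

theorem copy_E1_D (hE : IsData E1) : W.Does (P W ![3, 2] copyT) (st β [] E1 S a ρ κ u v h e)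
    (6 * E1.length + 8) (st β E1 E1 S a ρ κ u v h e) :=
  Does.place (by decide) (runsLE_copyT E1 hE) _ _ (by intro i; fin_cases i <;> rfl)
    (by intro i; fin_cases i <;> rfl)
    (by intro c hc; fin_cases c <;> first | rfl | (exfalso; revert hc; decide))

theorem shuf_D_E1 (K : ℕ) (hh : 0 < h) (he : 0 < e) (hl : D.length = K * (2 * h * e))
    (hD : IsData D) : W.Does (P W ![2, 3, 19, 20, 21, 22, 23] shufPass)
    (st β D [] S a ρ κ u v h e) (27 * D.length + 8) (st β D (shufL h e D) S a ρ κ u v h e) :=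
  Does.place (by decide) (runsLE_shufPass h e K hh he D hl hD) _ _
    (by intro i; fin_cases i <;> rfl) (by intro i; fin_cases i <;> rfl)
    (by intro c hc; fin_cases c <;> first | rfl | (exfalso; revert hc; decide))

theorem unshuf_D_E1 (K : ℕ) (hh : 0 < h) (he : 0 < e) (hl : D.length = K * (2 * h * e))
    (hD : IsData D) : W.Does (P W ![2, 3, 19, 20, 21, 22, 23] unshufPass)
    (st β D [] S a ρ κ u v h e) (22 * D.length + 8) (st β D (unshufL h e D) S a ρ κ u v h e) :=
  Does.place (by decide) (runsLE_unshufPass h e K hh he D hl hD) _ _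
    (by intro i; fin_cases i <;> rfl) (by intro i; fin_cases i <;> rfl)
    (by intro c hc; fin_cases c <;> first | rfl | (exfalso; revert hc; decide))

end Ctrl
end Vale.Agent.P338
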