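import Vale.Agent.P338.TM.Stream

/-!
Cyclic counters modulo `M`: a pair of counter tapes `x, xh` with `x < M` and `xh = M - x`.
`incCyc` increments `x` modulo `M`; `rep incCyc` adds the value of a third counter modulo `M`
(amortized cost `O(1)` per increment).  Also nested block loops (`v` blocks of `g` symbols).
-/

namespace Vale.Agent.P338
namespace Frag
open Matrix

/-- Tapes `x, xh` (`xh = M - x`, `x < M`): `x := (x + 1) mod M`. -/
def incCyc : Frag Sym 2 :=
  seq (prim fun s => ![(s 0, Dir.right), (s 1, Dir.left)])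
    (ite (fun s => s 1 == Sym.org) moveCnt (prim noop))

theorem runsLE_incCyc (M x : ℕ) (hx : x < M) :
    RunsLE incCyc ![cnt x, cnt (M - x)] (2 * x + 8 - 2 * ((x + 1) % M))
      ![cnt ((x + 1) % M), cnt (M - (x + 1) % M)] := by
  have s1 : RunsLE (prim fun s : Fin 2 → Sym => ![(s 0, Dir.right), (s 1, Dir.left)])
      ![cnt x, cnt (M - x)] 1 ![cnt (x + 1), cnt (M - x - 1)] := by
    refine RunsLE.prim _ _ _ ?_
    simp only [reads_cons, cons_val_zero, cons_val_one, acts_cons, cnt_left, cnt_right]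
    simp
  by_cases h : x + 1 < M
  · obtain ⟨u, hu⟩ : ∃ u, M - x - 1 = u + 1 := ⟨M - x - 2, by omega⟩
    have s2 : RunsLE (ite (fun s : Fin 2 → Sym => s 1 == Sym.org) moveCnt (prim noop))
        ![cnt (x + 1), cnt (M - x - 1)] (1 + 1) ![cnt (x + 1), cnt (M - x - 1)] :=
      RunsLE.ite_false (by simp [hu]) (RunsLE.prim _ _ _ (acts_noop _))
    rw [Nat.mod_eq_of_lt h]
    have e : M - (x + 1) = M - x - 1 := by omega
    rw [e]
    exact (s1.seq s2).mono (by omega)
  · have hM : M = x + 1 := by omega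
    subst hM
    have e0 : x + 1 - x - 1 = 0 := by omega
    have s2 : RunsLE (ite (fun s : Fin 2 → Sym => s 1 == Sym.org) moveCnt (prim noop))
        ![cnt (x + 1), cnt (x + 1 - x - 1)] (2 * (x + 1) + 1 + 1) ![cnt 0, cnt (0 + (x + 1))] := by
      rw [e0]
      exact RunsLE.ite_true (by simp) (runsLE_moveCnt (x + 1) 0)
    rw [Nat.mod_self, Nat.sub_zero]
    rw [Nat.zero_add] at s2
    exact (s1.seq s2).mono (by omega)

theorem cyc_sum (M x v : ℕ) :
    (∑ j ∈ Finset.range v, (2 * ((x + j) % M) + 8 - 2 * (((x + j) % M + 1) % M)))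
      + 2 * ((x + v) % M) = 2 * (x % M) + 8 * v := by
  induction v with
  | zero => simp
  | succ v ih =>
    rw [Finset.sum_range_succ]
    have e : ((x + v) % M + 1) % M = (x + (v + 1)) % M := by
      rw [Nat.mod_add_mod, Nat.add_assoc]
    have h1 : ((x + v) % M + 1) % M ≤ (x + v) % M + 1 := Nat.mod_le _ _
    rw [e] at h1 ⊢
    omega

/-- Tapes `v, shadow, x, xh`: `x := (x + v) mod M`. -/
theorem runsLE_addCyc (M x v : ℕ) (hx : x < M) :
    RunsLE (rep incCyc) ![cnt v, cnt 0, cnt x, cnt (M - x)] (2 * x + 12 * v + 2)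
      ![cnt v, cnt 0, cnt ((x + v) % M), cnt (M - (x + v) % M)] := by
  have hM : 0 < M := by omega
  have := runsLE_rep_sum (body := incCyc)
    (fun j => ![cnt ((x + j) % M), cnt (M - (x + j) % M)]) v
    (fun j => 2 * ((x + j) % M) + 8 - 2 * (((x + j) % M + 1) % M)) ?_
  · simp only [Nat.add_zero, Nat.mod_eq_of_lt hx] at this
    refine this.mono ?_
    have h1 := cyc_sum M x v
    rw [Nat.mod_eq_of_lt hx] at h1
    omega
  · intro j _
    have h1 := runsLE_incCyc M ((x + j) % M) (Nat.mod_lt _ hM)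
    have e : ((x + j) % M + 1) % M = (x + (j + 1)) % M := by
      rw [Nat.mod_add_mod, Nat.add_assoc]
    rw [e] at h1 ⊢
    exact h1

/-! ### Nested block loops: `v` blocks of `g` symbols (aux tapes `v, shadow, g, shadow`) -/

theorem stream_copyNM (v g : ℕ) (A : List Sym) (hA : A.length = v * g) :
    Stream (repS (repS copy1)) A A ![cnt v, cnt 0, cnt g, cnt 0] ![cnt v, cnt 0, cnt g, cnt 0]
      (v * (g * 5 + 6) + 2) := by
  have := Stream.rep (body := repS copy1) v (chunk g A) (chunk g A) (fun _ => ![cnt g, cnt 0])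
    (g * 5 + 2) (fun j hj => by
      have h1 := stream_copyN (chunk g A j)
      rwa [length_chunk_of_lt v g A hA j hj] at h1)
  rwa [cat_chunk v g A hA] at this

theorem stream_skipNM (v g : ℕ) (A : List Sym) (hA : A.length = v * g) :
    Stream (repS (repS skip1)) A [] ![cnt v, cnt 0, cnt g, cnt 0] ![cnt v, cnt 0, cnt g, cnt 0]
      (v * (g * 5 + 6) + 2) := by
  have := Stream.rep (body := repS skip1) v (chunk g A) (fun _ => []) (fun _ => ![cnt g, cnt 0])
    (g * 5 + 2) (fun j hj => by
      have h1 := stream_skipN (chunk g A j)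
      rwa [length_chunk_of_lt v g A hA j hj] at h1)
  have e : cat v (fun _ => ([] : List Sym)) = [] := by
    have := cat_replicate v 0 Sym.blank
    simpa using this
  rwa [cat_chunk v g A hA, e] at this

theorem stream_outNM (x : Sym) (v g : ℕ) :
    Stream (repS (repS (out1 x))) [] (List.replicate (v * g) x) ![cnt v, cnt 0, cnt g, cnt 0]
      ![cnt v, cnt 0, cnt g, cnt 0] (v * (g * 5 + 6) + 2) := by
  have := Stream.rep (body := repS (out1 x)) v (fun _ => []) (fun _ => List.replicate g x)
    (fun _ => ![cnt g, cnt 0]) (g * 5 + 2) (fun j _ => stream_outN x g)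
  have e : cat v (fun _ => ([] : List Sym)) = [] := by
    have := cat_replicate v 0 Sym.blank
    simpa using this
  rwa [e, cat_replicate] at this

end Frag
end Vale.Agent.P338
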