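import Vale.Agent.P338.Model

/-!
Structured Turing-machine fragments: a fragment is a finite control acting on `k` tapes which,
instead of halting, *exits*.  Fragments are combined with `seq`, `ite`, `while`, lifted to more
tapes and to larger alphabets, and finally turned into a `Machine`.
-/

namespace Vale.Agent.P338

/-- A tape: contents and head position. -/
@[ext] structure Tape (Γ : Type) where
  cells : ℕ → Γ
  head : ℕ

namespace Tape
variable {Γ Γ' : Type}

/-- Symbol under the head. -/
def read (t : Tape Γ) : Γ := t.cells t.head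

/-- Write `x` under the head, then move. -/
def step (t : Tape Γ) (a : Γ × Dir) : Tape Γ :=
  ⟨Function.update t.cells t.head a.1, a.2.apply t.head⟩

/-- Relabel the symbols. -/
def map (e : Γ → Γ') (t : Tape Γ) : Tape Γ' := ⟨fun i => e (t.cells i), t.head⟩

@[simp] theorem step_read_stay (t : Tape Γ) : t.step (t.read, Dir.stay) = t := by
  cases t; simp [step, read, Dir.apply]

@[simp] theorem map_read (e : Γ → Γ') (t : Tape Γ) : (t.map e).read = e t.read := rfl

theorem map_step (e : Γ → Γ') (t : Tape Γ) (a : Γ × Dir) :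
    (t.step a).map e = (t.map e).step (e a.1, a.2) := by
  ext i
  · simp only [map, step, Function.update_apply]
    split_ifs <;> rfl
  · rfl

end Tape

/-- A fragment on `k` tapes over the alphabet `Γ`.  In every step it reads the `k` scanned symbols,
writes, moves and goes to a next state; next state `none` means that the fragment exits. -/
structure Frag (Γ : Type) (k : ℕ) where
  Q : Type
  finQ : Fintype Q
  start : Q
  δ : Q → (Fin k → Γ) → Option Q × (Fin k → Γ × Dir)

namespace Frag
variable {Γ Γ' : Type} {k K : ℕ}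

/-- Scanned symbols. -/
def reads (T : Fin k → Tape Γ) : Fin k → Γ := fun i => (T i).read

/-- Apply one vector of actions. -/
def acts (T : Fin k → Tape Γ) (a : Fin k → Γ × Dir) : Fin k → Tape Γ := fun i => (T i).step (a i)

/-- `Reach F q T t T'`: started in state `q` on tapes `T`, the fragment exits after exactly `t`
steps, leaving the tapes `T'`. -/
inductive Reach (F : Frag Γ k) : F.Q → (Fin k → Tape Γ) → ℕ → (Fin k → Tape Γ) → Prop
  | exit {q : F.Q} {T : Fin k → Tape Γ} (h : (F.δ q (reads T)).1 = none) :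
      Reach F q T 1 (acts T (F.δ q (reads T)).2)
  | step {q q' : F.Q} {T T' : Fin k → Tape Γ} {t : ℕ} (h : (F.δ q (reads T)).1 = some q')
      (r : Reach F q' (acts T (F.δ q (reads T)).2) t T') : Reach F q T (t + 1) T'

/-- The fragment started in its start state exits after exactly `t` steps. -/
def Runs (F : Frag Γ k) (T : Fin k → Tape Γ) (t : ℕ) (T' : Fin k → Tape Γ) : Prop :=
  Reach F F.start T t T'

/-- The fragment exits after at most `b` steps. -/
def RunsLE (F : Frag Γ k) (T : Fin k → Tape Γ) (b : ℕ) (T' : Fin k → Tape Γ) : Prop :=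
  ∃ t, t ≤ b ∧ Runs F T t T'

theorem RunsLE.mono {F : Frag Γ k} {T T' : Fin k → Tape Γ} {b b' : ℕ} (h : RunsLE F T b T')
    (hb : b ≤ b') : RunsLE F T b' T' := by
  obtain ⟨t, ht, hr⟩ := h
  exact ⟨t, ht.trans hb, hr⟩

theorem Runs.le {F : Frag Γ k} {T T' : Fin k → Tape Γ} {t : ℕ} (h : Runs F T t T') :
    RunsLE F T t T' := ⟨t, le_rfl, h⟩

/-! ### Primitive step -/

/-- One step: actions computed from the scanned symbols. -/
def prim (f : (Fin k → Γ) → Fin k → Γ × Dir) : Frag Γ k where
  Q := Unit
  finQ := inferInstance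
  start := ()
  δ := fun _ s => (none, f s)

theorem runs_prim (f : (Fin k → Γ) → Fin k → Γ × Dir) (T : Fin k → Tape Γ) :
    Runs (prim f) T 1 (acts T (f (reads T))) :=
  Reach.exit (F := prim f) (q := ()) rfl

/-- The action that does nothing. -/
def noop (s : Fin k → Γ) : Fin k → Γ × Dir := fun i => (s i, Dir.stay)

@[simp] theorem acts_noop (T : Fin k → Tape Γ) : acts T (noop (reads T)) = T := by
  funext i; simp [acts, noop, reads]

/-! ### Sequential composition -/

/-- Run `F`, then `G`. -/
def seq (F G : Frag Γ k) : Frag Γ k where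
  Q := F.Q ⊕ G.Q
  finQ := @instFintypeSum _ _ F.finQ G.finQ
  start := Sum.inl F.start
  δ := fun q s =>
    match q with
    | Sum.inl q =>
      (match (F.δ q s).1 with
        | none => some (Sum.inr G.start)
        | some q' => some (Sum.inl q'), (F.δ q s).2)
    | Sum.inr q => ((G.δ q s).1.map Sum.inr, (G.δ q s).2)

theorem reach_seq_inr {F G : Frag Γ k} {q : G.Q} {T T' : Fin k → Tape Γ} {t : ℕ}
    (h : Reach G q T t T') : Reach (seq F G) (Sum.inr q) T t T' := by
  induction h with
  | exit h =>
    refine Reach.exit (F := seq F G) (q := Sum.inr _) ?_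
    simp [seq, h]
  | step h _ ih =>
    refine Reach.step (F := seq F G) (q := Sum.inr _) (q' := Sum.inr _) ?_ ih
    simp [seq, h]

theorem reach_seq_inl {F G : Frag Γ k} {q : F.Q} {T T' T'' : Fin k → Tape Γ} {t t' : ℕ}
    (h : Reach F q T t T') (h' : Reach G G.start T' t' T'') :
    Reach (seq F G) (Sum.inl q) T (t + t') T'' := by
  induction h with
  | exit h =>
    rw [Nat.add_comm]
    refine Reach.step (F := seq F G) (q := Sum.inl _) (q' := Sum.inr G.start) ?_ (reach_seq_inr h')
    simp [seq, h]
  | step h _ ih =>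
    rw [Nat.add_right_comm]
    refine Reach.step (F := seq F G) (q := Sum.inl _) (q' := Sum.inl _) ?_ (ih h')
    simp [seq, h]

theorem runs_seq {F G : Frag Γ k} {T T' T'' : Fin k → Tape Γ} {t t' : ℕ}
    (h : Runs F T t T') (h' : Runs G T' t' T'') : Runs (seq F G) T (t + t') T'' :=
  reach_seq_inl h h'

theorem RunsLE.seq {F G : Frag Γ k} {T T' T'' : Fin k → Tape Γ} {b b' : ℕ}
    (h : RunsLE F T b T') (h' : RunsLE G T' b' T'') : RunsLE (seq F G) T (b + b') T'' := by
  obtain ⟨t, ht, hr⟩ := h
  obtain ⟨t', ht', hr'⟩ := h'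
  exact ⟨t + t', Nat.add_le_add ht ht', runs_seq hr hr'⟩

/-! ### Branching -/

/-- Test the scanned symbols (one step), then run `F` or `G`. -/
def ite (c : (Fin k → Γ) → Bool) (F G : Frag Γ k) : Frag Γ k where
  Q := Option (F.Q ⊕ G.Q)
  finQ := @instFintypeOption _ (@instFintypeSum _ _ F.finQ G.finQ)
  start := none
  δ := fun q s =>
    match q with
    | none => (some (some (if c s then Sum.inl F.start else Sum.inr G.start)), noop s)
    | some (Sum.inl q) => ((F.δ q s).1.map fun q' => some (Sum.inl q'), (F.δ q s).2)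
    | some (Sum.inr q) => ((G.δ q s).1.map fun q' => some (Sum.inr q'), (G.δ q s).2)

theorem reach_ite_inl {c : (Fin k → Γ) → Bool} {F G : Frag Γ k} {q : F.Q}
    {T T' : Fin k → Tape Γ} {t : ℕ} (h : Reach F q T t T') :
    Reach (ite c F G) (some (Sum.inl q)) T t T' := by
  induction h with
  | exit h =>
    refine Reach.exit (F := ite c F G) (q := some (Sum.inl _)) ?_
    simp [ite, h]
  | step h _ ih =>
    refine Reach.step (F := ite c F G) (q := some (Sum.inl _)) (q' := some (Sum.inl _)) ?_ ih
    simp [ite, h]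

theorem reach_ite_inr {c : (Fin k → Γ) → Bool} {F G : Frag Γ k} {q : G.Q}
    {T T' : Fin k → Tape Γ} {t : ℕ} (h : Reach G q T t T') :
    Reach (ite c F G) (some (Sum.inr q)) T t T' := by
  induction h with
  | exit h =>
    refine Reach.exit (F := ite c F G) (q := some (Sum.inr _)) ?_
    simp [ite, h]
  | step h _ ih =>
    refine Reach.step (F := ite c F G) (q := some (Sum.inr _)) (q' := some (Sum.inr _)) ?_ ih
    simp [ite, h]

theorem runs_ite_true {c : (Fin k → Γ) → Bool} {F G : Frag Γ k} {T T' : Fin k → Tape Γ} {t : ℕ}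
    (hc : c (reads T) = true) (h : Runs F T t T') : Runs (ite c F G) T (t + 1) T' := by
  refine Reach.step (F := ite c F G) (q := none) (q' := some (Sum.inl F.start)) ?_ ?_
  · simp [ite, hc]
  · have : acts T ((ite c F G).δ none (reads T)).2 = T := acts_noop T
    rw [this]
    exact reach_ite_inl h

theorem runs_ite_false {c : (Fin k → Γ) → Bool} {F G : Frag Γ k} {T T' : Fin k → Tape Γ} {t : ℕ}
    (hc : c (reads T) = false) (h : Runs G T t T') : Runs (ite c F G) T (t + 1) T' := by
  refine Reach.step (F := ite c F G) (q := none) (q' := some (Sum.inr G.start)) ?_ ?_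
  · simp [ite, hc]
  · have : acts T ((ite c F G).δ none (reads T)).2 = T := acts_noop T
    rw [this]
    exact reach_ite_inr h

theorem RunsLE.ite_true {c : (Fin k → Γ) → Bool} {F G : Frag Γ k} {T T' : Fin k → Tape Γ} {b : ℕ}
    (hc : c (reads T) = true) (h : RunsLE F T b T') : RunsLE (ite c F G) T (b + 1) T' := by
  obtain ⟨t, ht, hr⟩ := h
  exact ⟨t + 1, Nat.succ_le_succ ht, runs_ite_true hc hr⟩

theorem RunsLE.ite_false {c : (Fin k → Γ) → Bool} {F G : Frag Γ k} {T T' : Fin k → Tape Γ} {b : ℕ}
    (hc : c (reads T) = false) (h : RunsLE G T b T') : RunsLE (ite c F G) T (b + 1) T' := by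
  obtain ⟨t, ht, hr⟩ := h
  exact ⟨t + 1, Nat.succ_le_succ ht, runs_ite_false hc hr⟩

/-! ### Loops -/

/-- `while c do F`: each test costs one step. -/
def loop (c : (Fin k → Γ) → Bool) (F : Frag Γ k) : Frag Γ k where
  Q := Option F.Q
  finQ := @instFintypeOption _ F.finQ
  start := none
  δ := fun q s =>
    match q with
    | none => (if c s then some (some F.start) else none, noop s)
    | some q =>
      (match (F.δ q s).1 with
        | none => some none
        | some q' => some (some q'), (F.δ q s).2)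

theorem reach_loop_some {c : (Fin k → Γ) → Bool} {F : Frag Γ k} {q : F.Q}
    {T T' T'' : Fin k → Tape Γ} {t t' : ℕ} (h : Reach F q T t T')
    (h' : Reach (loop c F) none T' t' T'') : Reach (loop c F) (some q) T (t + t') T'' := by
  induction h with
  | exit h =>
    rw [Nat.add_comm]
    refine Reach.step (F := loop c F) (q := some _) (q' := none) ?_ h'
    simp [loop, h]
  | step h _ ih =>
    rw [Nat.add_right_comm]
    refine Reach.step (F := loop c F) (q := some _) (q' := some _) ?_ (ih h')
    simp [loop, h]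

theorem runs_loop_false {c : (Fin k → Γ) → Bool} {F : Frag Γ k} {T : Fin k → Tape Γ}
    (hc : c (reads T) = false) : Runs (loop c F) T 1 T := by
  have h := Reach.exit (F := loop c F) (q := none) (T := T) (by simp [loop, hc])
  have e : acts T ((loop c F).δ none (reads T)).2 = T := acts_noop T
  rwa [e] at h

theorem runs_loop_true {c : (Fin k → Γ) → Bool} {F : Frag Γ k} {T T' T'' : Fin k → Tape Γ}
    {t t' : ℕ} (hc : c (reads T) = true) (h : Runs F T t T') (h' : Runs (loop c F) T' t' T'') :
    Runs (loop c F) T (t + t' + 1) T'' := by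
  refine Reach.step (F := loop c F) (q := none) (q' := some F.start) ?_ ?_
  · simp [loop, hc]
  · have e : acts T ((loop c F).δ none (reads T)).2 = T := acts_noop T
    rw [e]
    exact reach_loop_some h h'

theorem RunsLE.loop_false {c : (Fin k → Γ) → Bool} {F : Frag Γ k} {T : Fin k → Tape Γ}
    (hc : c (reads T) = false) : RunsLE (loop c F) T 1 T := (runs_loop_false hc).le

theorem RunsLE.loop_true {c : (Fin k → Γ) → Bool} {F : Frag Γ k} {T T' T'' : Fin k → Tape Γ}
    {b b' : ℕ} (hc : c (reads T) = true) (h : RunsLE F T b T') (h' : RunsLE (loop c F) T' b' T'') :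
    RunsLE (loop c F) T (b + b' + 1) T'' := by
  obtain ⟨t, ht, hr⟩ := h
  obtain ⟨t', ht', hr'⟩ := h'
  exact ⟨t + t' + 1, by omega, runs_loop_true hc hr hr'⟩

/-- The basic loop rule: `St j` is the state at the `j`-th test, the loop makes `n` rounds, round `j`
costs at most `τ j`. -/
theorem RunsLE.loop_sum {c : (Fin k → Γ) → Bool} {F : Frag Γ k} (St : ℕ → Fin k → Tape Γ) (n : ℕ)
    (τ : ℕ → ℕ) (hbody : ∀ j, j < n → c (reads (St j)) = true ∧ RunsLE F (St j) (τ j) (St (j + 1)))
    (hend : c (reads (St n)) = false) :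
    RunsLE (loop c F) (St 0) ((∑ j ∈ Finset.range n, (τ j + 1)) + 1) (St n) := by
  suffices H : ∀ m, m ≤ n → RunsLE (loop c F) (St (n - m))
      ((∑ j ∈ Finset.Ico (n - m) n, (τ j + 1)) + 1) (St n) by
    have := H n le_rfl
    simpa using this
  intro m
  induction m with
  | zero => intro _; simpa using (runs_loop_false hend).le
  | succ m ih =>
    intro hm
    obtain ⟨t', ht', hr'⟩ := ih (by omega)
    obtain ⟨hc, t, ht, hr⟩ := hbody (n - (m + 1)) (by omega)
    have e : n - (m + 1) + 1 = n - m := by omega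
    rw [e] at hr
    refine ⟨t + t' + 1, ?_, runs_loop_true hc hr hr'⟩
    have hs : ∑ j ∈ Finset.Ico (n - (m + 1)) n, (τ j + 1)
        = (τ (n - (m + 1)) + 1) + ∑ j ∈ Finset.Ico (n - m) n, (τ j + 1) := by
      rw [Finset.sum_eq_sum_Ico_succ_bot (by omega), e]
    rw [hs]
    omega

/-- Loop rule with a uniform bound for the rounds. -/
theorem RunsLE.loop {c : (Fin k → Γ) → Bool} {F : Frag Γ k} (St : ℕ → Fin k → Tape Γ) (n τ : ℕ)
    (hbody : ∀ j, j < n → c (reads (St j)) = true ∧ RunsLE F (St j) τ (St (j + 1)))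
    (hend : c (reads (St n)) = false) :
    RunsLE (loop c F) (St 0) (n * (τ + 1) + 1) (St n) := by
  have := RunsLE.loop_sum St n (fun _ => τ) hbody hend
  simpa using this

/-! ### Lifting to more tapes -/

/-- Run `F` on the tapes `ι 0, ι 1, …` of a machine with more tapes. -/
noncomputable def lift (ι : Fin k → Fin K) (F : Frag Γ k) : Frag Γ K where
  Q := F.Q
  finQ := F.finQ
  start := F.start
  δ := fun q s => ((F.δ q (fun a => s (ι a))).1,
    Function.extend ι (F.δ q (fun a => s (ι a))).2 (noop s))

theorem reach_lift {ι : Fin k → Fin K} (hι : Function.Injective ι) {F : Frag Γ k} {q : F.Q}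
    {T₀ T₀' : Fin k → Tape Γ} {t : ℕ} (h : Reach F q T₀ t T₀') :
    ∀ T : Fin K → Tape Γ, (fun a => T (ι a)) = T₀ →
      Reach (lift ι F) q T t (Function.extend ι T₀' T) := by
  have key : ∀ (q : F.Q) (T : Fin K → Tape Γ),
      acts T ((lift ι F).δ q (reads T)).2
        = Function.extend ι (acts (fun a => T (ι a)) (F.δ q (reads fun a => T (ι a))).2) T := by
    intro q T
    funext b
    by_cases hb : ∃ a, ι a = b
    · obtain ⟨a, rfl⟩ := hb
      simp only [acts, lift, hι.extend_apply]
      rfl
    · simp only [acts, lift, Function.extend_apply' _ _ _ hb, noop, reads, Tape.step_read_stay]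
  induction h with
  | @exit q T₁ h =>
    intro T hT
    subst hT
    have := Reach.exit (F := lift ι F) (q := q) (T := T) h
    rwa [key] at this
  | @step q q' T₁ T₁' t h _ ih =>
    intro T hT
    subst hT
    refine Reach.step (F := lift ι F) (q := q) (q' := q') h ?_
    rw [key]
    have := ih (Function.extend ι (acts (fun a => T (ι a)) (F.δ q (reads fun a => T (ι a))).2) T)
      (by funext a; rw [hι.extend_apply])
    convert this using 1
    funext b
    by_cases hb : ∃ a, ι a = b
    · obtain ⟨a, rfl⟩ := hb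
      simp only [hι.extend_apply]
    · simp only [Function.extend_apply' _ _ _ hb]

/-- Lifting rule: the tapes `ι a` evolve as under `F`, the others do not change. -/
theorem RunsLE.lift {ι : Fin k → Fin K} (hι : Function.Injective ι) {F : Frag Γ k}
    {T₀ T₀' : Fin k → Tape Γ} {b : ℕ} (h : RunsLE F T₀ b T₀') (T T' : Fin K → Tape Γ)
    (h0 : ∀ a, T (ι a) = T₀ a) (h1 : ∀ a, T' (ι a) = T₀' a)
    (h2 : ∀ c, (∀ a, ι a ≠ c) → T' c = T c) : RunsLE (Frag.lift ι F) T b T' := by
  obtain ⟨t, ht, hr⟩ := h
  refine ⟨t, ht, ?_⟩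
  have := reach_lift hι hr T (funext h0)
  have e : Function.extend ι T₀' T = T' := by
    funext c
    by_cases hc : ∃ a, ι a = c
    · obtain ⟨a, rfl⟩ := hc
      rw [hι.extend_apply, h1]
    · rw [Function.extend_apply' _ _ _ hc, h2]
      intro a ha
      exact hc ⟨a, ha⟩
  rw [e] at this
  exact this

/-! ### Changing the alphabet -/

/-- Run `F` on an alphabet `Γ'` containing a copy `e '' Γ` of `Γ` (`p` is a retraction). -/
def mapΓ (e : Γ → Γ') (p : Γ' → Γ) (F : Frag Γ k) : Frag Γ' k where
  Q := F.Q
  finQ := F.finQ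
  start := F.start
  δ := fun q s => ((F.δ q (fun i => p (s i))).1,
    fun i => (e ((F.δ q (fun i => p (s i))).2 i).1, ((F.δ q (fun i => p (s i))).2 i).2))

theorem reach_mapΓ {e : Γ → Γ'} {p : Γ' → Γ} (hp : ∀ x, p (e x) = x) {F : Frag Γ k} {q : F.Q}
    {T T' : Fin k → Tape Γ} {t : ℕ} (h : Reach F q T t T') :
    Reach (mapΓ e p F) q (fun i => (T i).map e) t (fun i => (T' i).map e) := by
  have hr : ∀ T : Fin k → Tape Γ, (fun i => p (reads (fun i => (T i).map e) i)) = reads T := by
    intro T; funext i; simp [reads, hp]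
  have key : ∀ (q : F.Q) (T : Fin k → Tape Γ),
      acts (fun i => (T i).map e) ((mapΓ e p F).δ q (reads fun i => (T i).map e)).2
        = fun i => ((acts T (F.δ q (reads T)).2) i).map e := by
    intro q T
    funext i
    simp only [acts, mapΓ, hr, Tape.map_step]
  induction h with
  | @exit q T h =>
    have := Reach.exit (F := mapΓ e p F) (q := q) (T := fun i => (T i).map e)
      (by simp only [mapΓ, hr]; exact h)
    rwa [key] at this
  | @step q q' T T' t h _ ih =>
    refine Reach.step (F := mapΓ e p F) (q := q) (q' := q') (by simp only [mapΓ, hr]; exact h) ?_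
    rw [key]
    exact ih

theorem RunsLE.mapΓ {e : Γ → Γ'} {p : Γ' → Γ} (hp : ∀ x, p (e x) = x) {F : Frag Γ k}
    {T T' : Fin k → Tape Γ} {b : ℕ} (h : RunsLE F T b T') :
    RunsLE (Frag.mapΓ e p F) (fun i => (T i).map e) b (fun i => (T' i).map e) := by
  obtain ⟨t, ht, hr⟩ := h
  exact ⟨t, ht, reach_mapΓ hp hr⟩

end Frag

end Vale.Agent.P338
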