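import Vale.Agent.P338.TM.ListLib

/-!
TASK M2.  The arithmetic heart: DFT - twiddle - DFT over `ℤ / (2 ^ m + 1)` with the root of unity
`2 ^ (2 g)` of order `n = 2 ^ a` (`m = g n`), both DFTs written as Bluestein convolutions.
All chirps are powers of two.
-/

namespace Vale.Agent.P338

/-- First operand: payload times `16`, times the chirp. -/
def dftU (n g : ℕ) (x : ℕ → ℕ → ℕ) (i q : ℕ) : ℕ := 16 * x i q * 2 ^ (g * epsCH n i q)

/-- Kernel. -/
def dftK (n g : ℕ) (r' : ℕ) : ℕ := 2 ^ (g * epsK n r')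

/-- Result of the first convolution, row `k + n - 1` of the product. -/
def dftV (n g : ℕ) (x : ℕ → ℕ → ℕ) (k q : ℕ) : ℕ :=
  ∑ i ∈ Finset.range n, dftU n g x i q * dftK n g (k + n - 1 - i)

/-- Second operand. -/
def dftV' (n g : ℕ) (x : ℕ → ℕ → ℕ) (k q : ℕ) : ℕ := dftV n g x k q * 2 ^ (g * epsB n k q)

/-- Result of the second convolution. -/
def dftY (n g : ℕ) (x : ℕ → ℕ → ℕ) (p q : ℕ) : ℕ :=
  ∑ k ∈ Finset.range n, dftV' n g x k q * dftK n g (p + n - 1 - k)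

/-- After the last chirp. -/
def dftZ (n g : ℕ) (x : ℕ → ℕ → ℕ) (p q : ℕ) : ℕ := dftY n g x p q * 2 ^ (g * epsCH n p q)

namespace DFT

theorem geom_double {R : Type} [CommRing R] (z : R) (m : ℕ) :
    ∑ k ∈ Finset.range (m + m), z ^ k = (∑ k ∈ Finset.range m, z ^ k) * (1 + z ^ m) := by
  rw [Finset.sum_range_add, mul_add, mul_one, Finset.sum_mul]
  congr 1
  apply Finset.sum_congr rfl
  intro k _
  rw [pow_add, mul_comm]

theorem orth {R : Type} [CommRing R] (b : ℕ) : ∀ (ω : R) (d : ℕ), ω ^ (2 ^ b) = -1 →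
    ¬ (2 ^ (b + 1) ∣ d) → ∑ k ∈ Finset.range (2 ^ (b + 1)), (ω ^ d) ^ k = 0 := by
  induction b with
  | zero =>
    intro ω d h hd
    have hodd : Odd d := by
      rw [← Nat.not_even_iff_odd, even_iff_two_dvd]
      simpa using hd
    rw [pow_succ, Nat.mul_two, geom_double, ← pow_mul, Nat.mul_comm, pow_mul, h, hodd.neg_one_pow]
    simp
  | succ b ih =>
    intro ω d h hd
    rw [pow_succ, Nat.mul_two, geom_double]
    rcases Nat.even_or_odd d with he | hodd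
    · obtain ⟨d', rfl⟩ := he
      have h1 : (ω ^ 2) ^ (2 ^ b) = -1 := by
        rw [← pow_mul, ← h, pow_succ, Nat.mul_comm]
      have h2 : ¬ (2 ^ (b + 1) ∣ d') := by
        intro hdvd
        apply hd
        rw [pow_succ 2 (b + 1), ← Nat.mul_two]
        exact Nat.mul_dvd_mul_right hdvd 2
      have h3 := ih (ω ^ 2) d' h1 h2
      have h4 : ω ^ (d' + d') = (ω ^ 2) ^ d' := by
        rw [← pow_mul, Nat.two_mul]
      rw [h4, h3, zero_mul]
    · rw [← pow_mul ω d, Nat.mul_comm, pow_mul, h, hodd.neg_one_pow]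
      simp

theorem cast_epsK (n r : ℕ) (hn : 0 < n) :
    ((epsK n r : ℕ) : ZMod (2 * n)) = -(((r : ZMod (2 * n)) + 1) * ((r : ZMod (2 * n)) + 1)) := by
  unfold epsK
  rw [ZMod.natCast_mod, Nat.cast_sub (le_of_lt (Nat.mod_lt _ (by omega))), ZMod.natCast_self,
    ZMod.natCast_mod]
  push_cast
  ring

theorem exp_modEq (n i k p q : ℕ) (hi : i < n) (hk : k < n) (hq : q < n) :
    epsCH n i q + epsK n (k + n - 1 - i) + epsB n k q + epsK n (p + n - 1 - k) + epsCH n p q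
      ≡ 2 * (i + p + n - q) * k [MOD 2 * n] := by
  have hn : 0 < n := by omega
  rw [← ZMod.natCast_eq_natCast_iff]
  have h2n : (2 : ZMod (2 * n)) * (n : ZMod (2 * n)) = 0 := by
    have := ZMod.natCast_self (2 * n)
    push_cast at this
    exact this
  have e1 : ((k + n - 1 - i : ℕ) : ZMod (2 * n)) = k + n - 1 - i := by
    rw [Nat.cast_sub (by omega), Nat.cast_sub (by omega)]
    push_cast
    ring
  have e2 : ((p + n - 1 - k : ℕ) : ZMod (2 * n)) = p + n - 1 - k := by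
    rw [Nat.cast_sub (by omega), Nat.cast_sub (by omega)]
    push_cast
    ring
  have e3 : ((k + n - q : ℕ) : ZMod (2 * n)) = k + n - q := by
    rw [Nat.cast_sub (by omega)]
    push_cast
    ring
  have e4 : ((i + p + n - q : ℕ) : ZMod (2 * n)) = i + p + n - q := by
    rw [Nat.cast_sub (by omega)]
    push_cast
    ring
  have c1 : ((epsCH n i q : ℕ) : ZMod (2 * n)) = i * i := by
    unfold epsCH
    rw [ZMod.natCast_mod]
    push_cast
    ring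
  have c2 : ((epsCH n p q : ℕ) : ZMod (2 * n)) = p * p := by
    unfold epsCH
    rw [ZMod.natCast_mod]
    push_cast
    ring
  have c3 : ((epsB n k q : ℕ) : ZMod (2 * n)) = 2 * k * (k + n - q) := by
    unfold epsB
    rw [ZMod.natCast_mod, Nat.cast_mul, e3]
    push_cast
    ring
  rw [Nat.cast_add, Nat.cast_add, Nat.cast_add, Nat.cast_add, Nat.cast_mul, Nat.cast_mul, c1, c2, c3,
    cast_epsK n _ hn, cast_epsK n _ hn, e1, e2, e4]
  push_cast
  linear_combination (-(n : ZMod (2 * n)) + i - p) * h2n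

theorem idx_dvd (n p q : ℕ) (hp : p < n) (hq : q < n) :
    (q + n - p) % n + p + n - q = n ∨ (q + n - p) % n + p + n - q = 2 * n := by
  rcases lt_or_ge (q + n - p) n with h | h
  · rw [Nat.mod_eq_of_lt h]
    omega
  · rw [Nat.mod_eq_sub_mod h, Nat.mod_eq_of_lt (by omega)]
    omega

theorem idx_ndvd (n i p q : ℕ) (hi : i < n) (hp : p < n) (hq : q < n)
    (hne : i ≠ (q + n - p) % n) : ¬ (n ∣ i + p + n - q) := by
  rintro ⟨t, ht⟩
  apply hne
  have ht3 : t < 3 := by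
    by_contra hcon
    have : n * 3 ≤ n * t := Nat.mul_le_mul_left n (by omega)
    omega
  interval_cases t
  · omega
  · have : q + n - p = i + n := by omega
    rw [this, Nat.add_mod_right, Nat.mod_eq_of_lt hi]
  · have : q + n - p = i := by omega
    rw [this, Nat.mod_eq_of_lt hi]

theorem main_ring {R : Type} [CommRing R] (b : ℕ) (η : R) (hη : η ^ (2 ^ (b + 1)) = -1)
    (x : ℕ → R) (p q : ℕ) (hp : p < 2 ^ (b + 1)) (hq : q < 2 ^ (b + 1)) :
    (∑ k ∈ Finset.range (2 ^ (b + 1)),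
      ((∑ i ∈ Finset.range (2 ^ (b + 1)),
        16 * x i * η ^ (epsCH (2 ^ (b + 1)) i q) * η ^ (epsK (2 ^ (b + 1)) (k + 2 ^ (b + 1) - 1 - i)))
        * η ^ (epsB (2 ^ (b + 1)) k q)) * η ^ (epsK (2 ^ (b + 1)) (p + 2 ^ (b + 1) - 1 - k)))
      * η ^ (epsCH (2 ^ (b + 1)) p q)
      = 16 * ((2 ^ (b + 1) : ℕ) : R) * x ((q + 2 ^ (b + 1) - p) % 2 ^ (b + 1)) := by
  generalize hn : 2 ^ (b + 1) = n at *
  have hnpos : 0 < n := by omega
  have h2n : η ^ (2 * n) = 1 := by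
    rw [Nat.mul_comm, pow_mul, hη]
    simp
  have step1 : (∑ k ∈ Finset.range n,
      ((∑ i ∈ Finset.range n, 16 * x i * η ^ (epsCH n i q) * η ^ (epsK n (k + n - 1 - i)))
        * η ^ (epsB n k q)) * η ^ (epsK n (p + n - 1 - k))) * η ^ (epsCH n p q)
      = ∑ k ∈ Finset.range n, ∑ i ∈ Finset.range n,
          16 * x i * ((η ^ 2) ^ (i + p + n - q)) ^ k := by
    rw [Finset.sum_mul]
    apply Finset.sum_congr rfl
    intro k hk
    rw [Finset.sum_mul, Finset.sum_mul, Finset.sum_mul]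
    apply Finset.sum_congr rfl
    intro i hi
    rw [Finset.mem_range] at hk hi
    have h1 := exp_modEq n i k p q hi hk hq
    have h2 : η ^ (epsCH n i q + epsK n (k + n - 1 - i) + epsB n k q + epsK n (p + n - 1 - k)
        + epsCH n p q) = η ^ (2 * (i + p + n - q) * k) := by
      rw [pow_eq_pow_mod _ h2n, h1, ← pow_eq_pow_mod _ h2n]
    rw [← pow_mul, ← pow_mul, ← Nat.mul_assoc, ← h2]
    ring
  rw [step1, Finset.sum_comm]
  have step2 : ∀ i ∈ Finset.range n, ∑ k ∈ Finset.range n,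
      16 * x i * ((η ^ 2) ^ (i + p + n - q)) ^ k
      = 16 * x i * ∑ k ∈ Finset.range n, ((η ^ 2) ^ (i + p + n - q)) ^ k := by
    intro i _
    rw [Finset.mul_sum]
  rw [Finset.sum_congr rfl step2, Finset.sum_eq_single ((q + n - p) % n)]
  · have h1 : (η ^ 2) ^ ((q + n - p) % n + p + n - q) = 1 := by
      rcases idx_dvd n p q hp hq with h | h
      · rw [h, ← pow_mul, h2n]
      · rw [h, ← pow_mul, Nat.mul_comm 2 (2 * n), pow_mul, h2n, one_pow]
    rw [h1]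
    simp
    ring
  · intro i hi hne
    rw [Finset.mem_range] at hi
    have h1 : (η ^ 2) ^ (2 ^ b) = -1 := by
      rw [← pow_mul, ← hη, ← hn, pow_succ, Nat.mul_comm]
    have h2 := orth b (η ^ 2) (i + p + n - q) h1 (by rw [hn]; exact idx_ndvd n i p q hi hp hq hne)
    rw [hn] at h2
    rw [h2, mul_zero]
  · intro h
    exact absurd (Finset.mem_range.mpr (Nat.mod_lt _ hnpos)) h

end DFT

/-- Main congruence. -/
theorem dftZ_modEq (a g : ℕ) (ha : 1 ≤ a) (x : ℕ → ℕ → ℕ) (p q : ℕ) (hp : p < 2 ^ a)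
    (hq : q < 2 ^ a) :
    dftZ (2 ^ a) g x p q ≡ 16 * 2 ^ a * x ((q + 2 ^ a - p) % 2 ^ a) q [MOD 2 ^ (g * 2 ^ a) + 1] := by
  obtain ⟨b, rfl⟩ : ∃ b, a = b + 1 := ⟨a - 1, by omega⟩
  rw [← ZMod.natCast_eq_natCast_iff]
  have hη : ((2 : ZMod (2 ^ (g * 2 ^ (b + 1)) + 1)) ^ g) ^ (2 ^ (b + 1)) = -1 := by
    have := ZMod.natCast_self (2 ^ (g * 2 ^ (b + 1)) + 1)
    push_cast at this
    rw [← pow_mul]
    exact eq_neg_of_add_eq_zero_left this
  have key := DFT.main_ring b ((2 : ZMod (2 ^ (g * 2 ^ (b + 1)) + 1)) ^ g) hη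
    (fun i => ((x i q : ℕ) : ZMod (2 ^ (g * 2 ^ (b + 1)) + 1))) p q hp hq
  simp only [dftZ, dftY, dftV', dftV, dftU, dftK]
  push_cast
  push_cast at key
  simp only [pow_mul]
  exact key

namespace DFT

theorem sum_lt_mul (n B : ℕ) (hn : 0 < n) (f : ℕ → ℕ) (h : ∀ i, f i < B) :
    ∑ i ∈ Finset.range n, f i < n * B := by
  have h1 : ∑ i ∈ Finset.range n, f i < ∑ _i ∈ Finset.range n, B :=
    Finset.sum_lt_sum_of_nonempty (Finset.nonempty_range_iff.mpr (by omega)) (fun i _ => h i)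
  simpa using h1

theorem two_pow_le (n g m e : ℕ) (hgn : g * n = m) (he : e < 2 * n) :
    2 ^ (g * e) ≤ 2 ^ (2 * m) := by
  apply Nat.pow_le_pow_right (by norm_num)
  calc g * e ≤ g * (2 * n) := Nat.mul_le_mul_left g (le_of_lt he)
    _ = 2 * m := by rw [← hgn]; ring

theorem fine_bounds (a n g w m : ℕ) (hna : n = 2 ^ a) (hgn : g * n = m) (x : ℕ → ℕ → ℕ)
    (hx : ∀ i q, x i q < 2 ^ w) :
    (∀ i q, dftU n g x i q < 2 ^ (w + 4 + 2 * m)) ∧
    (∀ i q, dftV n g x i q < 2 ^ (a + w + 4 + 4 * m)) ∧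
    (∀ i q, dftV' n g x i q < 2 ^ (a + w + 4 + 6 * m)) ∧
    (∀ i q, dftY n g x i q < 2 ^ (2 * a + w + 4 + 8 * m)) ∧
    (∀ i q, dftZ n g x i q < 2 ^ (2 * a + w + 4 + 10 * m)) := by
  have hn : 0 < n := by rw [hna]; exact Nat.two_pow_pos a
  have h2n : 0 < 2 * n := by omega
  have hCH : ∀ i q, 2 ^ (g * epsCH n i q) ≤ 2 ^ (2 * m) := fun i q =>
    two_pow_le n g m _ hgn (Nat.mod_lt _ h2n)
  have hB : ∀ i q, 2 ^ (g * epsB n i q) ≤ 2 ^ (2 * m) := fun i q =>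
    two_pow_le n g m _ hgn (Nat.mod_lt _ h2n)
  have hK : ∀ r, dftK n g r ≤ 2 ^ (2 * m) := fun r =>
    two_pow_le n g m _ hgn (Nat.mod_lt _ h2n)
  have hU : ∀ i q, dftU n g x i q < 2 ^ (w + 4 + 2 * m) := by
    intro i q
    unfold dftU
    have h1 : 16 * x i q < 2 ^ (w + 4) := by
      rw [pow_add]
      have := hx i q
      omega
    rw [pow_add 2 (w + 4)]
    exact Nat.mul_lt_mul_of_lt_of_le h1 (hCH i q) (Nat.two_pow_pos _)
  have hV : ∀ i q, dftV n g x i q < 2 ^ (a + w + 4 + 4 * m) := by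
    intro k q
    unfold dftV
    have h1 : ∀ i, dftU n g x i q * dftK n g (k + n - 1 - i) < 2 ^ (w + 4 + 2 * m) * 2 ^ (2 * m) :=
      fun i => Nat.mul_lt_mul_of_lt_of_le (hU i q) (hK _) (Nat.two_pow_pos _)
    have h2 := sum_lt_mul n _ hn _ h1
    have h3 : n * (2 ^ (w + 4 + 2 * m) * 2 ^ (2 * m)) = 2 ^ (a + w + 4 + 4 * m) := by
      rw [hna, ← pow_add, ← pow_add]
      congr 1
      ring
    rwa [h3] at h2
  have hV' : ∀ i q, dftV' n g x i q < 2 ^ (a + w + 4 + 6 * m) := by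
    intro k q
    unfold dftV'
    have h3 : 2 ^ (a + w + 4 + 4 * m) * 2 ^ (2 * m) = 2 ^ (a + w + 4 + 6 * m) := by
      rw [← pow_add]
      congr 1
      ring
    rw [← h3]
    exact Nat.mul_lt_mul_of_lt_of_le (hV k q) (hB k q) (Nat.two_pow_pos _)
  have hY : ∀ i q, dftY n g x i q < 2 ^ (2 * a + w + 4 + 8 * m) := by
    intro p q
    unfold dftY
    have h1 : ∀ k, dftV' n g x k q * dftK n g (p + n - 1 - k)
        < 2 ^ (a + w + 4 + 6 * m) * 2 ^ (2 * m) :=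
      fun k => Nat.mul_lt_mul_of_lt_of_le (hV' k q) (hK _) (Nat.two_pow_pos _)
    have h2 := sum_lt_mul n _ hn _ h1
    have h3 : n * (2 ^ (a + w + 4 + 6 * m) * 2 ^ (2 * m)) = 2 ^ (2 * a + w + 4 + 8 * m) := by
      rw [hna, ← pow_add, ← pow_add]
      congr 1
      ring
    rwa [h3] at h2
  have hZ : ∀ i q, dftZ n g x i q < 2 ^ (2 * a + w + 4 + 10 * m) := by
    intro p q
    unfold dftZ
    have h3 : 2 ^ (2 * a + w + 4 + 8 * m) * 2 ^ (2 * m) = 2 ^ (2 * a + w + 4 + 10 * m) := by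
      rw [← pow_add]
      congr 1
      ring
    rw [← h3]
    exact Nat.mul_lt_mul_of_lt_of_le (hY p q) (hCH p q) (Nat.two_pow_pos _)
  exact ⟨hU, hV, hV', hY, hZ⟩

end DFT

/-- Size bounds (`m = g n = 4 w`, payloads `< 2 ^ w`, `n ≤ w`). -/
theorem dft_bounds (a ρ : ℕ) (ha : 1 ≤ a) (haρ : a ≤ ρ) (x : ℕ → ℕ → ℕ)
    (hx : ∀ i q, x i q < 2 ^ 2 ^ ρ) (i q : ℕ) :
    dftU (2 ^ a) (2 ^ (ρ + 2 - a)) x i q < 2 ^ (3 * (4 * 2 ^ ρ)) ∧
    dftV (2 ^ a) (2 ^ (ρ + 2 - a)) x i q < 2 ^ (6 * (4 * 2 ^ ρ)) ∧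
    dftV' (2 ^ a) (2 ^ (ρ + 2 - a)) x i q < 2 ^ (8 * (4 * 2 ^ ρ)) ∧
    dftY (2 ^ a) (2 ^ (ρ + 2 - a)) x i q < 2 ^ (10 * (4 * 2 ^ ρ)) ∧
    dftZ (2 ^ a) (2 ^ (ρ + 2 - a)) x i q < 2 ^ (12 * (4 * 2 ^ ρ)) := by
  have hgn : 2 ^ (ρ + 2 - a) * 2 ^ a = 4 * 2 ^ ρ := by
    rw [← pow_add, Nat.sub_add_cancel (by omega), pow_add]
    ring
  obtain ⟨hU, hV, hV', hY, hZ⟩ :=
    DFT.fine_bounds a (2 ^ a) (2 ^ (ρ + 2 - a)) (2 ^ ρ) (4 * 2 ^ ρ) rfl hgn x hx
  have hρ : ρ < 2 ^ ρ := Nat.lt_two_pow_self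
  have hw : 2 ≤ 2 ^ ρ := by
    calc 2 = 2 ^ 1 := by norm_num
      _ ≤ 2 ^ ρ := Nat.pow_le_pow_right (by norm_num) (by omega)
  refine ⟨lt_of_lt_of_le (hU i q) ?_, lt_of_lt_of_le (hV i q) ?_, lt_of_lt_of_le (hV' i q) ?_,
    lt_of_lt_of_le (hY i q) ?_, lt_of_lt_of_le (hZ i q) ?_⟩ <;>
  · apply Nat.pow_le_pow_right (by norm_num)
    omega

end Vale.Agent.P338
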