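import Vale.Agent.P338.TM.MathKron
import Vale.Agent.P338.TM.MathDFT
import Vale.Agent.P338.TM.MathReduce
import Vale.Agent.P338.TM.MathShear

/-!
TASK M4.  The column operation computed through two multiplications is the column permutation.
Every intermediate list is described as a sequence of slots
`cat R fun idx => bitsLE s (value idx)`, with one lemma per pass
(padSlots, shiftSlots, padRows, kernelL, multL via `multL_slots`, selRows, reduceSlots via
`reduce_slot`), the values being `dftU, dftV, dftV', dftY, dftZ` of the file MathDFT with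
`x i q = valLE (entry (b, i, q))`.
-/

namespace Vale.Agent.P338

namespace Col

/-! ### Single slots -/

theorem slot_pad (w s x : ℕ) (hs : w + 4 ≤ s) (hx : x < 2 ^ w) :
    List.replicate 4 false ++ bitsLE w x ++ List.replicate (s - w - 4) false
      = bitsLE s (16 * x) := by
  have h1 := bitsLE_shift 4 w x
  rw [Nat.mod_eq_of_lt hx] at h1
  have h2 : x * 2 ^ 4 < 2 ^ (4 + w) := by
    rw [pow_add, Nat.mul_comm]
    exact Nat.mul_lt_mul_of_pos_left hx (by positivity)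
  have h3 := bitsLE_eq_append_zeros (4 + w) (s - w - 4) (x * 2 ^ 4) h2
  have h4 : 4 + w + (s - w - 4) = s := by omega
  rw [h4] at h3
  rw [h1, ← h3]
  congr 1
  omega

theorem slot_shift (s e v : ℕ) (he : e ≤ s) :
    List.replicate e false ++ (bitsLE s v).take (s - e) = bitsLE s (v * 2 ^ e) := by
  rw [take_bitsLE (s - e) s v (Nat.sub_le _ _), bitsLE_shift e (s - e) v,
    Nat.add_sub_cancel' he, ← bitsLE_mod s (v * 2 ^ e)]
  congr 1
  conv_rhs => rw [← Nat.sub_add_cancel he, pow_add]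
  rw [Nat.mul_mod_mul_right]

theorem slot_one (s e : ℕ) (he : e < s) :
    List.replicate e false ++ [true] ++ List.replicate (s - 1 - e) false = bitsLE s (2 ^ e) := by
  have h0 : ([true] : List Bool) = bitsLE 1 1 := by decide
  have h1 := bitsLE_shift e 1 1
  have h2 : 2 ^ e < 2 ^ (e + 1) := Nat.pow_lt_pow_right (by norm_num) (by omega)
  have h3 := bitsLE_eq_append_zeros (e + 1) (s - 1 - e) (2 ^ e) h2
  have h4 : e + 1 + (s - 1 - e) = s := by omega
  rw [h4] at h3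
  rw [h0, h1, h3]
  norm_num

/-! ### The passes on sequences of slots -/

theorem padSlots_slots (w s R : ℕ) (hw : 0 < w) (hs : w + 4 ≤ s) (X : ℕ → ℕ)
    (hX : ∀ j, X j < 2 ^ w) :
    padSlots false w s (cat R fun j => bitsLE w (X j)) = cat R fun j => bitsLE s (16 * X j) := by
  unfold padSlots
  rw [mapChunks_cat R w hw _ _ (fun j _ => length_bitsLE w _)]
  exact cat_congr fun j _ => slot_pad w s (X j) hs (hX j)

theorem shiftSlots_slots (n g s R : ℕ) (hs : 0 < s) (ε : ℕ → ℕ → ℕ) (hε : ∀ r q, g * ε r q ≤ s)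
    (v : ℕ → ℕ) :
    shiftSlots false n g s ε (cat R fun j => bitsLE s (v j))
      = cat R fun j => bitsLE s (v j * 2 ^ (g * ε ((j / n) % n) (j % n))) := by
  unfold shiftSlots
  rw [mapChunks_cat R s hs _ _ (fun j _ => length_bitsLE s _)]
  exact cat_congr fun j _ => slot_shift s _ (v j) (hε _ _)

/-- Values after insertion of the zero rows. -/
def padV (n : ℕ) (v : ℕ → ℕ) (j : ℕ) : ℕ :=
  if j % (3 * (n * n)) < n * n then v (j / (3 * (n * n)) * (n * n) + j % (3 * (n * n))) else 0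

theorem padV_lt (n : ℕ) (v : ℕ → ℕ) (b j : ℕ) (hj : j < n * n) :
    padV n v (b * (3 * (n * n)) + j) = v (b * (n * n) + j) := by
  have hT : j < 3 * (n * n) := by omega
  unfold padV
  rw [Nat.mul_comm b, Nat.mul_add_mod, Nat.mod_eq_of_lt hT, if_pos hj,
    Nat.mul_add_div (by omega), Nat.div_eq_of_lt hT, Nat.add_zero]

theorem padV_ge (n : ℕ) (v : ℕ → ℕ) (b j : ℕ) (h1 : n * n ≤ j) (h2 : j < 3 * (n * n)) :
    padV n v (b * (3 * (n * n)) + j) = 0 := by
  unfold padV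
  rw [Nat.mul_comm b, Nat.mul_add_mod, Nat.mod_eq_of_lt h2, if_neg (by omega)]

theorem padRows_slots (n s K : ℕ) (hn : 0 < n) (hs : 0 < s) (v : ℕ → ℕ) :
    padRows false n s (cat (K * (n * n)) fun j => bitsLE s (v j))
      = cat (K * (3 * (n * n))) fun j => bitsLE s (padV n v j) := by
  unfold padRows
  rw [← cat_cat K (n * n), ← cat_cat K (3 * (n * n)),
    mapChunks_cat K (n * n * s) (by positivity) _ _
      (fun b _ => length_cat (n * n) s _ (fun j _ => length_bitsLE s _))]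
  apply cat_congr
  intro b _
  have h3 : ∀ f : ℕ → List Bool, cat (3 * (n * n)) f
      = cat (n * n) f ++ cat (2 * (n * n)) (fun j => f (n * n + j)) := by
    intro f
    rw [← cat_add]
    congr 1
    ring
  rw [h3]
  congr 1
  · apply cat_congr
    intro j hj
    rw [padV_lt n v b j hj]
  · have h4 : ∀ j, j < 2 * (n * n) →
        bitsLE s (padV n v (b * (3 * (n * n)) + (n * n + j))) = List.replicate s false := by
      intro j hj
      rw [padV_ge n v b _ (by omega) (by omega), bitsLE_zero_right]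
    rw [cat_congr h4, cat_replicate]
    congr 1
    ring

/-- Values of the kernel operand. -/
def kerV (n g j : ℕ) : ℕ := if j < (2 * n - 1) * n ∧ j % n = 0 then dftK n g (j / n) else 0

theorem kernelL_slots (n g s R : ℕ) (hn : 0 < n) (hR : (2 * n - 1) * n ≤ R)
    (hg : ∀ r, g * epsK n r < s) :
    kernelL false true n g s (R * s) = cat R fun j => bitsLE s (kerV n g j) := by
  obtain ⟨R', rfl⟩ := Nat.exists_eq_add_of_le hR
  unfold kernelL
  rw [cat_add, ← cat_cat (2 * n - 1) n]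
  congr 1
  · apply cat_congr
    intro r hr
    have hlt : ∀ j, j < n → r * n + j < (2 * n - 1) * n := by
      intro j hj
      have : (r + 1) * n ≤ (2 * n - 1) * n := Nat.mul_le_mul_right n hr
      rw [Nat.succ_mul] at this
      omega
    obtain ⟨n', hn'⟩ : ∃ n', n = n' + 1 := ⟨n - 1, by omega⟩
    have hc : ∀ f : ℕ → List Bool, cat n f = f 0 ++ cat (n - 1) (fun j => f (j + 1)) := by
      intro f
      rw [hn', cat_succ']
      rfl
    rw [hc]
    congr 1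
    · rw [slot_one s _ (hg r)]
      congr 1
      unfold kerV
      rw [if_pos ⟨hlt 0 hn, by simp⟩]
      simp [dftK, Nat.mul_div_cancel _ hn]
    · have h4 : ∀ j, j < n - 1 →
          bitsLE s (kerV n g (r * n + (j + 1))) = List.replicate s false := by
        intro j hj
        have : kerV n g (r * n + (j + 1)) = 0 := by
          unfold kerV
          rw [if_neg]
          rintro ⟨_, h⟩
          rw [Nat.mul_comm, Nat.mul_add_mod, Nat.mod_eq_of_lt (by omega)] at h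
          omega
        rw [this, bitsLE_zero_right]
      rw [cat_congr h4, cat_replicate]
  · have h4 : ∀ j, j < R' →
        bitsLE s (kerV n g ((2 * n - 1) * n + j)) = List.replicate s false := by
      intro j _
      have : kerV n g ((2 * n - 1) * n + j) = 0 := by
        unfold kerV
        rw [if_neg]
        rintro ⟨h, _⟩
        omega
      rw [this, bitsLE_zero_right]
    rw [cat_congr h4, cat_replicate]
    congr 1
    rw [Nat.add_mul, Nat.add_sub_cancel_left]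

theorem drop_take_cat (A B C s : ℕ) (f : ℕ → List Bool) (hf : ∀ j, (f j).length = s) :
    ((cat (A + B + C) f).drop (A * s)).take (B * s) = cat B (fun j => f (A + j)) := by
  rw [cat_add, cat_add]
  have h1 : (cat A f).length = A * s := length_cat A s f (fun j _ => hf j)
  have h2 : (cat B fun j => f (A + j)).length = B * s := length_cat B s _ (fun j _ => hf _)
  rw [List.append_assoc, ← h1, List.drop_left, ← h2, List.take_left]

/-- Index of the selected slot. -/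
def selI (n j : ℕ) : ℕ := j / (n * n) * (3 * (n * n)) + (n - 1) * n + j % (n * n)

theorem selRows_slots (n s K : ℕ) (hn : 0 < n) (hs : 0 < s) (v : ℕ → ℕ) :
    selRows n s (cat (K * (3 * (n * n))) fun j => bitsLE s (v j))
      = cat (K * (n * n)) fun j => bitsLE s (v (selI n j)) := by
  unfold selRows
  rw [← cat_cat K (3 * (n * n)), ← cat_cat K (n * n)]
  have hL : 3 * n * n * s = 3 * (n * n) * s := by ring
  rw [hL, mapChunks_cat K (3 * (n * n) * s) (by positivity) _ _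
    (fun b _ => length_cat _ s _ (fun j _ => length_bitsLE s _))]
  apply cat_congr
  intro b _
  have h3 : (n - 1) * n + n * n + (n * n + n) = 3 * (n * n) := by
    obtain ⟨n', rfl⟩ : ∃ n', n = n' + 1 := ⟨n - 1, by omega⟩
    simp only [Nat.add_sub_cancel]
    ring
  have h5 := drop_take_cat ((n - 1) * n) (n * n) (n * n + n) s
    (fun j => bitsLE s (v (b * (3 * (n * n)) + j))) (fun j => length_bitsLE s _)
  rw [h3] at h5
  rw [h5]
  apply cat_congr
  intro j hj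
  congr 2
  unfold selI
  rw [Nat.mul_comm b (n * n), Nat.mul_add_div (by positivity), Nat.div_eq_of_lt hj,
    Nat.mul_add_mod, Nat.mod_eq_of_lt hj]
  ring

theorem reduceSlots_slots (a w m R : ℕ) (hm : w + a + 5 ≤ m) (v x : ℕ → ℕ)
    (hv : ∀ j, j < R → v j < 2 ^ (12 * m)) (hx : ∀ j, j < R → x j < 2 ^ w)
    (h : ∀ j, j < R → v j ≡ 16 * 2 ^ a * x j [MOD 2 ^ m + 1]) :
    reduceSlots a w m (cat R fun j => bitsLE (12 * m) (v j)) = cat R fun j => bitsLE w (x j) := by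
  unfold reduceSlots
  rw [mapChunks_cat R (12 * m) (by omega) _ _ (fun j _ => length_bitsLE _ _)]
  apply cat_congr
  intro j hj
  apply reduce_slot a w m (x j) hm (hx j hj) _ (length_bitsLE _ _)
  rw [valLE_bitsLE, Nat.mod_eq_of_lt (hv j hj)]
  exact h j hj

/-! ### The convolution with the kernel -/

theorem conv_ker (n g : ℕ) (hn : 0 < n) (U : ℕ → ℕ) (r : ℕ) :
    conv U (kerV n g) r
      = ∑ d ∈ Finset.range (2 * n - 1), if d * n ≤ r then U (r - d * n) * dftK n g d else 0 := by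
  unfold conv
  rw [← Finset.sum_filter]
  symm
  apply Finset.sum_of_injOn (fun d => r - d * n)
  · intro d1 h1 d2 h2 h
    simp only [Finset.coe_filter, Finset.mem_range, Set.mem_ofPred_eq] at h1 h2
    have h' : r - d1 * n = r - d2 * n := h
    have : d1 * n = d2 * n := by omega
    exact Nat.eq_of_mul_eq_mul_right hn this
  · intro d _
    simp only [Finset.coe_range, Set.mem_Iio]
    omega
  · intro i hi hni
    rw [Finset.mem_range] at hi
    unfold kerV
    split_ifs with h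
    · exfalso
      apply hni
      obtain ⟨h1, h2⟩ := h
      have h3 : (r - i) / n * n = r - i := Nat.div_mul_cancel (Nat.dvd_of_mod_eq_zero h2)
      refine ⟨(r - i) / n, ?_, ?_⟩
      · simp only [Finset.coe_filter, Finset.mem_range, Set.mem_ofPred_eq]
        refine ⟨?_, by omega⟩
        rw [← h3] at h1
        exact Nat.lt_of_mul_lt_mul_right h1
      · show r - (r - i) / n * n = i
        omega
    · simp
  · intro d hd
    simp only [Finset.mem_filter, Finset.mem_range] at hd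
    obtain ⟨h1, h2⟩ := hd
    have h3 : r - (r - d * n) = d * n := by omega
    rw [h3]
    unfold kerV
    rw [if_pos ⟨Nat.mul_lt_mul_of_pos_right h1 hn, by simp⟩, Nat.mul_div_cancel _ hn]

theorem conv_ker_lt (n g B C : ℕ) (hn : 0 < n) (U : ℕ → ℕ) (hU : ∀ j, U j < B)
    (hC : ∀ d, dftK n g d ≤ C) (r : ℕ) : conv U (kerV n g) r < (2 * n - 1) * (B * C) := by
  rw [conv_ker n g hn]
  have hB : 0 < B := lt_of_le_of_lt (Nat.zero_le _) (hU 0)
  have hC0 : 0 < C := lt_of_lt_of_le (by unfold dftK; positivity) (hC 0)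
  apply DFT.sum_lt_mul _ _ (by omega)
  intro d
  split_ifs
  · exact Nat.mul_lt_mul_of_lt_of_le (hU _) (hC d) hC0
  · positivity

theorem row_lt (n r q M : ℕ) (hq : q < n) (hr : r < M) : r * n + q < M * n := by
  have : (r + 1) * n ≤ M * n := Nat.mul_le_mul_right n hr
  rw [Nat.succ_mul] at this
  omega

theorem row_ge (n r q M : ℕ) (hr : M ≤ r) : M * n ≤ r * n + q := by
  have : M * n ≤ r * n := Nat.mul_le_mul_right n hr
  omega

theorem selI_eq (n b k q : ℕ) (hk : k < n) (hq : q < n) :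
    selI n ((b * n + k) * n + q) = b * (3 * (n * n)) + (n - 1) * n + (k * n + q) := by
  have h1 : (b * n + k) * n + q = n * n * b + (k * n + q) := by ring
  have h2 : k * n + q < n * n := row_lt n k q n hq hk
  unfold selI
  rw [h1, Nat.mul_add_div (by omega), Nat.div_eq_of_lt h2, Nat.mul_add_mod, Nat.mod_eq_of_lt h2,
    Nat.add_zero]

theorem stage_eq (n g : ℕ) (hn : 0 < n) (v : ℕ → ℕ) (b k q : ℕ) (hk : k < n) (hq : q < n) :
    conv (padV n v) (kerV n g) (selI n ((b * n + k) * n + q))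
      = ∑ i ∈ Finset.range n, v ((b * n + i) * n + q) * dftK n g (k + n - 1 - i) := by
  rw [selI_eq n b k q hk hq, conv_ker n g hn]
  symm
  apply Finset.sum_of_injOn (fun i => k + n - 1 - i)
  · intro i1 h1 i2 h2 h
    simp only [Finset.coe_range, Set.mem_Iio] at h1 h2
    have h' : k + n - 1 - i1 = k + n - 1 - i2 := h
    omega
  · intro i hi
    simp only [Finset.coe_range, Set.mem_Iio] at hi ⊢
    omega
  · intro d hd hni
    rw [Finset.mem_range] at hd
    split_ifs with hle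
    · have hz : padV n v (b * (3 * (n * n)) + (n - 1) * n + (k * n + q) - d * n) = 0 := by
        rcases lt_or_ge d k with hdk | hdk
        · -- rows `n, …` of the same batch
          have e1 : (n - 1) * n + k * n = (n - 1 + k - d) * n + d * n := by
            rw [← Nat.add_mul, ← Nat.add_mul]
            congr 1
            omega
          have e2 : b * (3 * (n * n)) + (n - 1) * n + (k * n + q) - d * n
              = b * (3 * (n * n)) + ((n - 1 + k - d) * n + q) := by omega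
          rw [e2]
          apply padV_ge
          · exact row_ge n _ q n (by omega)
          · have := row_lt n (n - 1 + k - d) q (3 * n) hq (by omega)
            rwa [Nat.mul_assoc] at this
        · rcases lt_or_ge d (k + n) with hdk2 | hdk2
          · exfalso
            apply hni
            refine ⟨k + n - 1 - d, ?_, ?_⟩
            · simp only [Finset.coe_range, Set.mem_Iio]
              omega
            · show k + n - 1 - (k + n - 1 - d) = d
              omega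
          · -- zero rows of the previous batch
            have e1 : d * n = (n - 1) * n + k * n + (d - (k + n - 1)) * n := by
              rw [← Nat.add_mul, ← Nat.add_mul]
              congr 1
              omega
            have e3 : n ≤ (d - (k + n - 1)) * n := by
              have := Nat.mul_le_mul_right n (show 1 ≤ d - (k + n - 1) by omega)
              omega
            have e4 : (d - (k + n - 1)) * n ≤ n * n :=
              Nat.mul_le_mul_right n (by omega)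
            obtain ⟨b', rfl⟩ : ∃ b', b = b' + 1 := by
              refine ⟨b - 1, ?_⟩
              rcases Nat.eq_zero_or_pos b with rfl | hb
              · omega
              · omega
            have e5 : (b' + 1) * (3 * (n * n)) = b' * (3 * (n * n)) + 3 * (n * n) := by ring
            have e2 : (b' + 1) * (3 * (n * n)) + (n - 1) * n + (k * n + q) - d * n
                = b' * (3 * (n * n)) + (3 * (n * n) - (d - (k + n - 1)) * n + q) := by omega
            rw [e2]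
            apply padV_ge
            · omega
            · omega
      rw [hz, Nat.zero_mul]
    · rfl
  · intro i hi
    rw [Finset.mem_range] at hi
    have e1 : (n - 1) * n + k * n = i * n + (k + n - 1 - i) * n := by
      rw [← Nat.add_mul, ← Nat.add_mul]
      congr 1
      omega
    have e2 : b * (3 * (n * n)) + (n - 1) * n + (k * n + q) - (k + n - 1 - i) * n
        = b * (3 * (n * n)) + (i * n + q) := by omega
    rw [if_pos (by omega), e2, padV_lt n v b _ (row_lt n i q n hq hi)]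
    congr 2
    ring

/-! ### The successive values -/

/-- Values after a shift pass. -/
def shV (n g : ℕ) (ε : ℕ → ℕ → ℕ) (v : ℕ → ℕ) (j : ℕ) : ℕ :=
  v j * 2 ^ (g * ε ((j / n) % n) (j % n))

/-- Values after padding, multiplication by the kernel and selection. -/
def stV (n g : ℕ) (v : ℕ → ℕ) (j : ℕ) : ℕ := conv (padV n v) (kerV n g) (selI n j)

/-- The entries of batch `b`. -/
def xb (n : ℕ) (X : ℕ → ℕ) (b i q : ℕ) : ℕ := X ((b * n + i) * n + q)

theorem shV_idx (n g : ℕ) (ε : ℕ → ℕ → ℕ) (v : ℕ → ℕ) (b i q : ℕ) (hi : i < n) (hq : q < n) :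
    shV n g ε v ((b * n + i) * n + q) = v ((b * n + i) * n + q) * 2 ^ (g * ε i q) := by
  unfold shV
  rw [idx_div_mod n b i q hi hq, idx_mod n b i q hq]

def V1 (n g : ℕ) (X : ℕ → ℕ) : ℕ → ℕ := shV n g (epsCH n) (fun j => 16 * X j)
def V2 (n g : ℕ) (X : ℕ → ℕ) : ℕ → ℕ := stV n g (V1 n g X)
def V3 (n g : ℕ) (X : ℕ → ℕ) : ℕ → ℕ := shV n g (epsB n) (V2 n g X)
def V4 (n g : ℕ) (X : ℕ → ℕ) : ℕ → ℕ := stV n g (V3 n g X)
def V5 (n g : ℕ) (X : ℕ → ℕ) : ℕ → ℕ := shV n g (epsCH n) (V4 n g X)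

theorem V1_eq (n g : ℕ) (X : ℕ → ℕ) (b i q : ℕ) (hi : i < n) (hq : q < n) :
    V1 n g X ((b * n + i) * n + q) = dftU n g (xb n X b) i q := by
  unfold V1
  rw [shV_idx n g _ _ b i q hi hq]
  rfl

theorem V2_eq (n g : ℕ) (X : ℕ → ℕ) (b i q : ℕ) (hi : i < n) (hq : q < n) :
    V2 n g X ((b * n + i) * n + q) = dftV n g (xb n X b) i q := by
  unfold V2 stV
  rw [stage_eq n g (by omega) _ b i q hi hq]
  unfold dftV
  apply Finset.sum_congr rfl
  intro k hk
  rw [V1_eq n g X b k q (Finset.mem_range.mp hk) hq]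

theorem V3_eq (n g : ℕ) (X : ℕ → ℕ) (b i q : ℕ) (hi : i < n) (hq : q < n) :
    V3 n g X ((b * n + i) * n + q) = dftV' n g (xb n X b) i q := by
  unfold V3
  rw [shV_idx n g _ _ b i q hi hq, V2_eq n g X b i q hi hq]
  rfl

theorem V4_eq (n g : ℕ) (X : ℕ → ℕ) (b i q : ℕ) (hi : i < n) (hq : q < n) :
    V4 n g X ((b * n + i) * n + q) = dftY n g (xb n X b) i q := by
  unfold V4 stV
  rw [stage_eq n g (by omega) _ b i q hi hq]
  unfold dftY
  apply Finset.sum_congr rfl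
  intro k hk
  rw [V3_eq n g X b k q (Finset.mem_range.mp hk) hq]

theorem V5_eq (n g : ℕ) (X : ℕ → ℕ) (b i q : ℕ) (hi : i < n) (hq : q < n) :
    V5 n g X ((b * n + i) * n + q) = dftZ n g (xb n X b) i q := by
  unfold V5
  rw [shV_idx n g _ _ b i q hi hq, V4_eq n g X b i q hi hq]
  rfl

theorem decomp (n j : ℕ) (hn : 0 < n) :
    ∃ b p q, p < n ∧ q < n ∧ j = (b * n + p) * n + q :=
  ⟨j / n / n, j / n % n, j % n, Nat.mod_lt _ hn, Nat.mod_lt _ hn, by
    rw [Nat.div_add_mod' (j / n) n, Nat.div_add_mod' j n]⟩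

theorem padV_lt_of (n B : ℕ) (v : ℕ → ℕ) (hv : ∀ j, v j < B) (j : ℕ) : padV n v j < B := by
  unfold padV
  split_ifs
  · exact hv _
  · exact lt_of_le_of_lt (Nat.zero_le _) (hv 0)

/-- One multiplication stage on sequences of slots. -/
theorem mult_stage (n g s K B C : ℕ) (hn : 0 < n) (hs : 0 < s) (v : ℕ → ℕ)
    (hv : ∀ j, v j < B) (hC : ∀ d, dftK n g d ≤ C) (hB : B ≤ 2 ^ s) (hC' : C < 2 ^ s)
    (hBC : (2 * n - 1) * (B * C) ≤ 2 ^ s) :
    selRows n s (multL (cat (K * (3 * (n * n))) fun j => bitsLE s (padV n v j))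
      (cat (K * (3 * (n * n))) fun j => bitsLE s (kerV n g j)))
      = cat (K * (n * n)) fun j => bitsLE s (stV n g v j) := by
  rw [multL_slots s _ (padV n v) (kerV n g)
    (fun r _ => lt_of_lt_of_le (padV_lt_of n B v hv r) hB) ?_
    (fun r _ => lt_of_lt_of_le (conv_ker_lt n g B C hn _ (padV_lt_of n B v hv) hC r) hBC),
    selRows_slots n s K hn hs]
  · rfl
  · intro r _
    unfold kerV
    split_ifs
    · exact lt_of_le_of_lt (hC _) hC'
    · positivity

/-! ### Assembly -/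

theorem g_mul (a ρ : ℕ) (haρ : a ≤ ρ) : 2 ^ (ρ + 2 - a) * 2 ^ a = 4 * 2 ^ ρ := by
  rw [← pow_add, Nat.sub_add_cancel (by omega), pow_add]
  ring

theorem g_eq (a ρ : ℕ) (haρ : a ≤ ρ) : 4 * 2 ^ ρ / 2 ^ a = 2 ^ (ρ + 2 - a) := by
  rw [← g_mul a ρ haρ, Nat.mul_div_cancel _ (by positivity)]

theorem g_lt (a ρ e : ℕ) (haρ : a ≤ ρ) (he : e < 2 * 2 ^ a) :
    2 ^ (ρ + 2 - a) * e < 2 * (4 * 2 ^ ρ) := by
  have h1 : 2 ^ (ρ + 2 - a) * e < 2 ^ (ρ + 2 - a) * (2 * 2 ^ a) :=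
    Nat.mul_lt_mul_of_pos_left he (by positivity)
  have h2 : 2 ^ (ρ + 2 - a) * (2 * 2 ^ a) = 2 * (4 * 2 ^ ρ) := by
    rw [← g_mul a ρ haρ]
    ring
  omega

theorem colOp_slots (a ρ K : ℕ) (ha : 1 ≤ a) (haρ : a ≤ ρ) (hK : 0 < K) (X : ℕ → ℕ)
    (hX : ∀ j, X j < 2 ^ 2 ^ ρ) :
    colOp a ρ (cat (K * (2 ^ a * 2 ^ a)) fun j => bitsLE (2 ^ ρ) (X j))
      = cat (K * (2 ^ a * 2 ^ a)) fun j => bitsLE (2 ^ ρ)
          (X (j / (2 ^ a * 2 ^ a) * (2 ^ a * 2 ^ a)
            + ((j % 2 ^ a + 2 ^ a - (j / 2 ^ a) % 2 ^ a) % 2 ^ a) * 2 ^ a + j % 2 ^ a)) := by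
  have hn : 0 < 2 ^ a := by positivity
  have hw : 0 < 2 ^ ρ := by positivity
  have hs : 0 < 12 * (4 * 2 ^ ρ) := by positivity
  have hρ : ρ < 2 ^ ρ := Nat.lt_two_pow_self
  have hgn := g_mul a ρ haρ
  have hxb : ∀ b i q, xb (2 ^ a) X b i q < 2 ^ 2 ^ ρ := fun b i q => hX _
  have hCH : ∀ r q, 2 ^ (ρ + 2 - a) * epsCH (2 ^ a) r q ≤ 12 * (4 * 2 ^ ρ) := by
    intro r q
    have := g_lt a ρ (epsCH (2 ^ a) r q) haρ (Nat.mod_lt _ (by positivity))
    omega
  have hB : ∀ r q, 2 ^ (ρ + 2 - a) * epsB (2 ^ a) r q ≤ 12 * (4 * 2 ^ ρ) := by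
    intro r q
    have := g_lt a ρ (epsB (2 ^ a) r q) haρ (Nat.mod_lt _ (by positivity))
    omega
  have hKe : ∀ r, 2 ^ (ρ + 2 - a) * epsK (2 ^ a) r < 12 * (4 * 2 ^ ρ) := by
    intro r
    have := g_lt a ρ (epsK (2 ^ a) r) haρ (Nat.mod_lt _ (by positivity))
    omega
  have hC : ∀ d, dftK (2 ^ a) (2 ^ (ρ + 2 - a)) d ≤ 2 ^ (2 * (4 * 2 ^ ρ)) := by
    intro d
    exact DFT.two_pow_le (2 ^ a) _ _ _ hgn (Nat.mod_lt _ (by positivity))
  have b1 : ∀ j, V1 (2 ^ a) (2 ^ (ρ + 2 - a)) X j < 2 ^ (3 * (4 * 2 ^ ρ)) := by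
    intro j
    obtain ⟨b, p, q, hp, hq, rfl⟩ := decomp (2 ^ a) j hn
    rw [V1_eq _ _ X b p q hp hq]
    exact (dft_bounds a ρ ha haρ _ (hxb b) p q).1
  have b3 : ∀ j, V3 (2 ^ a) (2 ^ (ρ + 2 - a)) X j < 2 ^ (8 * (4 * 2 ^ ρ)) := by
    intro j
    obtain ⟨b, p, q, hp, hq, rfl⟩ := decomp (2 ^ a) j hn
    rw [V3_eq _ _ X b p q hp hq]
    exact (dft_bounds a ρ ha haρ _ (hxb b) p q).2.2.1
  have b5 : ∀ j, V5 (2 ^ a) (2 ^ (ρ + 2 - a)) X j < 2 ^ (12 * (4 * 2 ^ ρ)) := by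
    intro j
    obtain ⟨b, p, q, hp, hq, rfl⟩ := decomp (2 ^ a) j hn
    rw [V5_eq _ _ X b p q hp hq]
    exact (dft_bounds a ρ ha haρ _ (hxb b) p q).2.2.2.2
  have h2n : 2 * 2 ^ a - 1 ≤ 2 ^ (2 * (4 * 2 ^ ρ)) := by
    have : 2 * 2 ^ a = 2 ^ (a + 1) := by rw [pow_succ]; ring
    have h2 : 2 ^ (a + 1) ≤ 2 ^ (2 * (4 * 2 ^ ρ)) :=
      Nat.pow_le_pow_right (by norm_num) (by omega)
    omega
  have hBC1 : (2 * 2 ^ a - 1) * (2 ^ (3 * (4 * 2 ^ ρ)) * 2 ^ (2 * (4 * 2 ^ ρ)))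
      ≤ 2 ^ (12 * (4 * 2 ^ ρ)) := by
    calc _ ≤ 2 ^ (2 * (4 * 2 ^ ρ)) * (2 ^ (3 * (4 * 2 ^ ρ)) * 2 ^ (2 * (4 * 2 ^ ρ))) :=
          Nat.mul_le_mul_right _ h2n
      _ = 2 ^ (7 * (4 * 2 ^ ρ)) := by rw [← pow_add, ← pow_add]; congr 1; ring
      _ ≤ _ := Nat.pow_le_pow_right (by norm_num) (by omega)
  have hBC2 : (2 * 2 ^ a - 1) * (2 ^ (8 * (4 * 2 ^ ρ)) * 2 ^ (2 * (4 * 2 ^ ρ)))
      ≤ 2 ^ (12 * (4 * 2 ^ ρ)) := by
    calc _ ≤ 2 ^ (2 * (4 * 2 ^ ρ)) * (2 ^ (8 * (4 * 2 ^ ρ)) * 2 ^ (2 * (4 * 2 ^ ρ))) :=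
          Nat.mul_le_mul_right _ h2n
      _ = 2 ^ (12 * (4 * 2 ^ ρ)) := by rw [← pow_add, ← pow_add]; congr 1; ring
      _ ≤ _ := le_refl _
  have hR : (2 * 2 ^ a - 1) * 2 ^ a ≤ K * (3 * (2 ^ a * 2 ^ a)) := by
    have h1 : (2 * 2 ^ a - 1) * 2 ^ a ≤ (3 * 2 ^ a) * 2 ^ a := Nat.mul_le_mul_right _ (by omega)
    have h2 : 1 * (3 * (2 ^ a * 2 ^ a)) ≤ K * (3 * (2 ^ a * 2 ^ a)) := Nat.mul_le_mul_right _ hK
    calc _ ≤ (3 * 2 ^ a) * 2 ^ a := h1
      _ = 1 * (3 * (2 ^ a * 2 ^ a)) := by ring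
      _ ≤ _ := h2
  have s1 := padSlots_slots (2 ^ ρ) (12 * (4 * 2 ^ ρ)) (K * (2 ^ a * 2 ^ a)) hw (by omega) X hX
  have s2 : shiftSlots false (2 ^ a) (2 ^ (ρ + 2 - a)) (12 * (4 * 2 ^ ρ)) (epsCH (2 ^ a))
      (cat (K * (2 ^ a * 2 ^ a)) fun j => bitsLE (12 * (4 * 2 ^ ρ)) (16 * X j))
      = cat (K * (2 ^ a * 2 ^ a)) fun j =>
          bitsLE (12 * (4 * 2 ^ ρ)) (V1 (2 ^ a) (2 ^ (ρ + 2 - a)) X j) :=
    shiftSlots_slots (2 ^ a) (2 ^ (ρ + 2 - a)) (12 * (4 * 2 ^ ρ)) _ hs _ hCH _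
  have s3 := padRows_slots (2 ^ a) (12 * (4 * 2 ^ ρ)) K hn hs (V1 (2 ^ a) (2 ^ (ρ + 2 - a)) X)
  have s4 := kernelL_slots (2 ^ a) (2 ^ (ρ + 2 - a)) (12 * (4 * 2 ^ ρ)) _ hn hR hKe
  have s5 : selRows (2 ^ a) (12 * (4 * 2 ^ ρ)) (multL _ _) = cat (K * (2 ^ a * 2 ^ a)) fun j =>
          bitsLE (12 * (4 * 2 ^ ρ)) (V2 (2 ^ a) (2 ^ (ρ + 2 - a)) X j) :=
    mult_stage (2 ^ a) (2 ^ (ρ + 2 - a)) (12 * (4 * 2 ^ ρ)) K _ _ hn hs _ b1 hC
      (Nat.pow_le_pow_right (by norm_num) (by omega))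
      (Nat.pow_lt_pow_right (by norm_num) (by omega)) hBC1
  have s6 : shiftSlots false (2 ^ a) (2 ^ (ρ + 2 - a)) (12 * (4 * 2 ^ ρ)) (epsB (2 ^ a))
      (cat (K * (2 ^ a * 2 ^ a)) fun j =>
          bitsLE (12 * (4 * 2 ^ ρ)) (V2 (2 ^ a) (2 ^ (ρ + 2 - a)) X j))
      = cat (K * (2 ^ a * 2 ^ a)) fun j =>
          bitsLE (12 * (4 * 2 ^ ρ)) (V3 (2 ^ a) (2 ^ (ρ + 2 - a)) X j) :=
    shiftSlots_slots (2 ^ a) (2 ^ (ρ + 2 - a)) (12 * (4 * 2 ^ ρ)) _ hs _ hB _
  have s7 := padRows_slots (2 ^ a) (12 * (4 * 2 ^ ρ)) K hn hs (V3 (2 ^ a) (2 ^ (ρ + 2 - a)) X)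
  have s8 : selRows (2 ^ a) (12 * (4 * 2 ^ ρ)) (multL _ _) = cat (K * (2 ^ a * 2 ^ a)) fun j =>
          bitsLE (12 * (4 * 2 ^ ρ)) (V4 (2 ^ a) (2 ^ (ρ + 2 - a)) X j) :=
    mult_stage (2 ^ a) (2 ^ (ρ + 2 - a)) (12 * (4 * 2 ^ ρ)) K _ _ hn hs _ b3 hC
      (Nat.pow_le_pow_right (by norm_num) (by omega))
      (Nat.pow_lt_pow_right (by norm_num) (by omega)) hBC2
  have s9 : shiftSlots false (2 ^ a) (2 ^ (ρ + 2 - a)) (12 * (4 * 2 ^ ρ)) (epsCH (2 ^ a))
      (cat (K * (2 ^ a * 2 ^ a)) fun j =>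
          bitsLE (12 * (4 * 2 ^ ρ)) (V4 (2 ^ a) (2 ^ (ρ + 2 - a)) X j))
      = cat (K * (2 ^ a * 2 ^ a)) fun j =>
          bitsLE (12 * (4 * 2 ^ ρ)) (V5 (2 ^ a) (2 ^ (ρ + 2 - a)) X j) :=
    shiftSlots_slots (2 ^ a) (2 ^ (ρ + 2 - a)) (12 * (4 * 2 ^ ρ)) _ hs _ hCH _
  dsimp only [colOp]
  rw [g_eq a ρ haρ, s1, s2, s3, length_cat _ (12 * (4 * 2 ^ ρ)) _ (fun _ _ => length_bitsLE _ _),
    s4, s5, s6, s7, s8, s9]
  apply reduceSlots_slots a (2 ^ ρ) (4 * 2 ^ ρ) _ (by omega) _ _ (fun j _ => b5 j)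
    (fun j _ => hX _)
  intro j _
  obtain ⟨b, p, q, hp, hq, rfl⟩ := decomp (2 ^ a) j hn
  rw [V5_eq _ _ X b p q hp hq, idx_div_sq _ b p q hp hq, idx_mod _ b p q hq,
    idx_div_mod _ b p q hp hq]
  have h := dftZ_modEq a (2 ^ (ρ + 2 - a)) ha (xb (2 ^ a) X b) p q hp hq
  rw [hgn] at h
  have e : b * (2 ^ a * 2 ^ a) + (q + 2 ^ a - p) % 2 ^ a * 2 ^ a + q
      = (b * 2 ^ a + (q + 2 ^ a - p) % 2 ^ a) * 2 ^ a + q := by ring
  rw [e]
  exact h

end Col

/-- Length of the operands of the two multiplications: `144` times the length of the data. -/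
theorem length_operand (a ρ K : ℕ) (l : List Bool) (hl : l.length = K * (2 ^ a * 2 ^ a * 2 ^ ρ))
    (ε : ℕ → ℕ → ℕ) (hε : ∀ r q, ε r q < 2 * 2 ^ a) (haρ : a ≤ ρ) :
    (padRows false (2 ^ a) (12 * (4 * 2 ^ ρ)) (shiftSlots false (2 ^ a) (4 * 2 ^ ρ / 2 ^ a)
      (12 * (4 * 2 ^ ρ)) ε (padSlots false (2 ^ ρ) (12 * (4 * 2 ^ ρ)) l))).length
      = 144 * l.length := by
  have hn : 0 < 2 ^ a := by positivity
  have hw : 0 < 2 ^ ρ := by positivity
  have hs : 0 < 12 * (4 * 2 ^ ρ) := by positivity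
  have h1 : (padSlots false (2 ^ ρ) (12 * (4 * 2 ^ ρ)) l).length
      = (K * (2 ^ a * 2 ^ a)) * (12 * (4 * 2 ^ ρ)) := by
    apply length_mapChunks _ (2 ^ ρ) _ hw _ l (by rw [hl]; ring)
    intro j c _ hc
    simp only [List.length_append, List.length_replicate, hc]
    omega
  have h2 : (shiftSlots false (2 ^ a) (4 * 2 ^ ρ / 2 ^ a) (12 * (4 * 2 ^ ρ)) ε
      (padSlots false (2 ^ ρ) (12 * (4 * 2 ^ ρ)) l)).length
      = K * (2 ^ a * 2 ^ a * (12 * (4 * 2 ^ ρ))) := by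
    rw [← Nat.mul_assoc K]
    apply length_mapChunks _ (12 * (4 * 2 ^ ρ)) _ hs _ _ h1
    intro j c _ hc
    have := Col.g_lt a ρ (ε (j / 2 ^ a % 2 ^ a) (j % 2 ^ a)) haρ (hε _ _)
    rw [Col.g_eq a ρ haρ]
    simp only [List.length_append, List.length_replicate, List.length_take, hc]
    omega
  have h3 : (padRows false (2 ^ a) (12 * (4 * 2 ^ ρ)) (shiftSlots false (2 ^ a) (4 * 2 ^ ρ / 2 ^ a)
      (12 * (4 * 2 ^ ρ)) ε (padSlots false (2 ^ ρ) (12 * (4 * 2 ^ ρ)) l))).length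
      = K * (2 ^ a * 2 ^ a * (12 * (4 * 2 ^ ρ)) + 2 * 2 ^ a * 2 ^ a * (12 * (4 * 2 ^ ρ))) := by
    apply length_mapChunks _ (2 ^ a * 2 ^ a * (12 * (4 * 2 ^ ρ))) _ (by positivity) _ _ h2
    intro j c _ hc
    simp only [List.length_append, List.length_replicate, hc]
  rw [h3, hl]
  ring

theorem colOp_eq (a ρ K : ℕ) (ha : 1 ≤ a) (haρ : a ≤ ρ) (l : List Bool)
    (hl : l.length = K * (2 ^ a * 2 ^ a * 2 ^ ρ)) : colOp a ρ l = colPerm (2 ^ a) (2 ^ ρ) l := by
  rcases Nat.eq_zero_or_pos K with rfl | hK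
  · have h0 : l = [] := by simpa using hl
    subst h0
    simp [colOp, colPerm, padSlots, shiftSlots, padRows, selRows, reduceSlots, multL, mapChunks,
      reindex, bitsLE]
  have hw : 0 < 2 ^ ρ := by positivity
  have hn : 0 < 2 ^ a := by positivity
  have hl' : l.length = (K * (2 ^ a * 2 ^ a)) * 2 ^ ρ := by rw [hl]; ring
  have hcat : l = cat (K * (2 ^ a * 2 ^ a)) fun j => bitsLE (2 ^ ρ) (valLE (chunk (2 ^ ρ) l j)) := by
    conv_lhs => rw [← cat_chunk _ _ l hl']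
    apply cat_congr
    intro j hj
    have h2 := length_chunk_of_lt _ _ l hl' j hj
    have h3 := bitsLE_valLE (chunk (2 ^ ρ) l j)
    rw [h2] at h3
    exact h3.symm
  have hmain := Col.colOp_slots a ρ K ha haρ hK (fun j => valLE (chunk (2 ^ ρ) l j))
    (fun j => Reduce.valLE_chunk_lt _ l j)
  rw [← hcat] at hmain
  rw [hmain, colPerm, reindex_eq_cat _ _ hw _ l hl']
  apply cat_congr
  intro j hj
  have hj' : j < K * 2 ^ a * 2 ^ a := by rwa [Nat.mul_assoc]
  have hπ := colPerm_lt (2 ^ a) K hn j hj'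
  rw [Nat.mul_assoc] at hπ
  have h2 := length_chunk_of_lt _ _ l hl' _ hπ
  have h3 := bitsLE_valLE (chunk (2 ^ ρ) l (j / (2 ^ a * 2 ^ a) * (2 ^ a * 2 ^ a)
    + ((j % 2 ^ a + 2 ^ a - (j / 2 ^ a) % 2 ^ a) % 2 ^ a) * 2 ^ a + j % 2 ^ a))
  rw [h2] at h3
  exact h3

theorem swapA_eq (a ρ K : ℕ) (ha : 1 ≤ a) (haρ : a ≤ ρ) (l : List Bool)
    (hl : l.length = K * (2 ^ a * 2 ^ a * 2 ^ ρ)) : swapA a ρ l = swapL (2 ^ a) (2 ^ ρ) l := by
  unfold swapA
  rw [colOp_eq a ρ K ha haρ _ (length_rowRot false _ _ K l hl),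
    shear_swap _ _ K (by positivity) (by positivity) l hl]

end Vale.Agent.P338
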