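import Vale.Agent.P338.TM.ListLib

/-!
TASK M1.  Kronecker substitution: the product of two numbers given by sequences of slots is the
sequence of slots of the convolution.
-/

namespace Vale.Agent.P338

/-- Convolution of two sequences. -/
def conv (x y : ℕ → ℕ) (r : ℕ) : ℕ := ∑ i ∈ Finset.range (r + 1), x i * y (r - i)

/-- The product of two slot sums: the convolution slots plus a multiple of `2 ^ (s * R)`. -/
theorem prod_slots (s R : ℕ) (x y : ℕ → ℕ) :
    (∑ r ∈ Finset.range R, x r * 2 ^ (s * r)) * (∑ r ∈ Finset.range R, y r * 2 ^ (s * r))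
      = ∑ r ∈ Finset.range R, conv x y r * 2 ^ (s * r)
        + 2 ^ (s * R) * ∑ i ∈ Finset.range R, ∑ j ∈ Finset.range i,
            x i * y (R - i + j) * 2 ^ (s * j) := by
  have h1 : ∑ r ∈ Finset.range R, conv x y r * 2 ^ (s * r)
      = ∑ i ∈ Finset.range R, ∑ j ∈ Finset.range (R - i), x i * y j * 2 ^ (s * (i + j)) := by
    rw [← Finset.sum_range_diag_flip]
    apply Finset.sum_congr rfl
    intro t _
    rw [conv, Finset.sum_mul]
    apply Finset.sum_congr rfl
    intro i hi
    rw [Finset.mem_range] at hi
    rw [Nat.add_sub_cancel' (by omega)]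
  rw [h1, Finset.sum_mul, Finset.mul_sum (Finset.range R) _ (2 ^ (s * R)),
    ← Finset.sum_add_distrib]
  apply Finset.sum_congr rfl
  intro i hi
  rw [Finset.mem_range] at hi
  have h2 : ∑ r ∈ Finset.range R, y r * 2 ^ (s * r)
      = ∑ r ∈ Finset.range (R - i), y r * 2 ^ (s * r)
        + ∑ r ∈ Finset.range i, y (R - i + r) * 2 ^ (s * (R - i + r)) := by
    rw [← Finset.sum_range_add, Nat.sub_add_cancel (le_of_lt hi)]
  rw [h2, mul_add, Finset.mul_sum, Finset.mul_sum, Finset.mul_sum]
  congr 1
  · apply Finset.sum_congr rfl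
    intro j _
    ring
  · apply Finset.sum_congr rfl
    intro j _
    have e : s * i + s * (R - i + j) = s * R + s * j := by
      rw [← Nat.mul_add, ← Nat.mul_add]
      congr 1
      omega
    calc x i * 2 ^ (s * i) * (y (R - i + j) * 2 ^ (s * (R - i + j)))
        = x i * y (R - i + j) * 2 ^ (s * i + s * (R - i + j)) := by rw [pow_add]; ring
      _ = 2 ^ (s * R) * (x i * y (R - i + j) * 2 ^ (s * j)) := by rw [e, pow_add]; ring

/-- If the first `R` convolution sums fit into a slot then the low half of the product consists of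
the slots of the convolution. -/
theorem multL_slots (s R : ℕ) (x y : ℕ → ℕ) (hx : ∀ r, r < R → x r < 2 ^ s)
    (hy : ∀ r, r < R → y r < 2 ^ s) (hc : ∀ r, r < R → conv x y r < 2 ^ s) :
    multL (cat R fun r => bitsLE s (x r)) (cat R fun r => bitsLE s (y r))
      = cat R fun r => bitsLE s (conv x y r) := by
  unfold multL
  rw [valLE_slots s R x hx, valLE_slots s R y hy, length_cat R s _ (fun _ _ => length_bitsLE _ _),
    prod_slots, bitsLE_slots s R _ hc]

end Vale.Agent.P338
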