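import Vale.Agent.P338.TM.SimDefs

namespace Vale.Agent.P338
open GB Frag Matrix

variable {kA : ℕ} (A : Machine kA)

theorem encList_length (f : ℕ → A.Γ) (r : ℕ) : (encList A f r).length = r := by
  simp [encList]

theorem encList_succ (f : ℕ → A.Γ) (r : ℕ) :
    encList A f (r + 1) = acell A (f 0) true ::
      (List.range r).map fun j => acell A (f (j + 1)) false := by
  simp [encList, List.range_succ_eq_map, Function.comp_def]

theorem encList_isVis (f : ℕ → A.Γ) (r : ℕ) : ∀ x ∈ encList A f r, isVis A x = true := by
  intro x hx
  obtain ⟨j, _, rfl⟩ := List.mem_map.1 hx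
  rfl

theorem encTape_eq_zt (f : ℕ → A.Γ) (r h : ℕ) (hh : h ≤ r) :
    encTape A f r h = zt ((encList A f r).take h) ((encList A f r).drop h) := by
  unfold encTape zt
  rw [List.take_append_drop, List.length_take, encList_length, min_eq_left hh]

theorem blankTape_eq_zt : blankTape A = zt [] [] := rfl

/-- Move right over the visited cells. -/
def toEndVis : Frag (GB A) 1 :=
  loop (fun s => isVis A (s 0)) (prim fun s => ![(s 0, Dir.right)])

theorem runsLE_toEndVis (L R : List (GB A)) (hR : ∀ x ∈ R, isVis A x = true) :
    RunsLE (toEndVis A) ![zt L R] (2 * R.length + 1) ![zt (L ++ R) []] := by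
  unfold toEndVis
  induction R generalizing L with
  | nil =>
    have : RunsLE (loop (fun s => isVis A (s 0)) (prim fun s => ![(s 0, Dir.right)]))
        ![zt L ([] : List (GB A))] 1 ![zt L []] := RunsLE.loop_false (by simp [default_eq, isVis])
    simpa using this
  | cons x R ih =>
    have hx : isVis A x = true := hR x (by simp)
    have h1 := ih (L ++ [x]) (fun y hy => hR y (by simp [hy]))
    rw [List.append_assoc] at h1
    refine RunsLE.mono (RunsLE.loop_true (by simpa using hx)
      (RunsLE.prim _ _ ![zt (L ++ [x]) R] (by simp)) h1) ?_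
    simp
    omega

/-- Erase back to the marked cell. -/
def eraseBackVis : Frag (GB A) 1 :=
  loop (fun s => !isOrg A (s 0)) (prim fun _ => ![(default, Dir.left)])

theorem runsLE_eraseBackVis (c0 : GB A) (h0 : isOrg A c0 = true) (M : List (GB A))
    (hM : ∀ x ∈ M, isOrg A x = false) :
    RunsLE (eraseBackVis A) ![zt (c0 :: M) []] (2 * M.length + 3) ![zt [] [c0]] := by
  unfold eraseBackVis
  have key : ∀ (M : List (GB A)) (x : GB A), (∀ y ∈ M, isOrg A y = false) → isOrg A x = false →
      RunsLE (loop (fun s => !isOrg A (s 0)) (prim fun _ => ![(default, Dir.left)]))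
        ![zt (c0 :: M) [x]] (2 * M.length + 3) ![zt [] [c0]] := by
    intro M
    induction M using List.reverseRecOn with
    | nil =>
      intro x _ hx
      refine RunsLE.loop_true (b := 1) (b' := 1) (by simpa using hx)
        (RunsLE.prim _ _ ![zt [] [c0]] ?_) (RunsLE.loop_false (by simpa using h0))
      have := zt_erase_left' ([] : List (GB A)) c0 x
      simp only [List.nil_append] at this
      simp [this]
    | append_singleton M c ih =>
      intro x hM hx
      have hc' : isOrg A c = false := hM c (by simp)
      refine RunsLE.mono (RunsLE.loop_true (by simpa using hx)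
        (RunsLE.prim _ _ ![zt (c0 :: M) [c]] ?_) (ih c (fun y hy => hM y (by simp [hy])) hc')) ?_
      · have := zt_erase_left' (c0 :: M) c x
        simp only [List.cons_append] at this
        simp [this]
      · simp
        omega
  have := key M default hM rfl
  simpa using this

/-- Go right to the first unvisited cell, come back erasing, stop on cell `0`. -/
def cleanTape : Frag (GB A) 1 :=
  seq (toEndVis A) (seq (eraseBackVis A) (prim fun _ => ![(default, Dir.stay)]))

theorem runsLE_cleanTape (f : ℕ → A.Γ) (r h : ℕ) (hr : 1 ≤ r) (hh : h ≤ r) :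
    RunsLE (cleanTape A) ![encTape A f r h] (4 * r + 8) ![blankTape A] := by
  obtain ⟨r', rfl⟩ : ∃ r', r = r' + 1 := ⟨r - 1, by omega⟩
  rw [encTape_eq_zt A f _ h hh, blankTape_eq_zt]
  have h1 := runsLE_toEndVis A ((encList A f (r' + 1)).take h) ((encList A f (r' + 1)).drop h)
    (fun x hx => encList_isVis A f _ x (List.mem_of_mem_drop hx))
  rw [List.take_append_drop] at h1
  have hlen : ((encList A f (r' + 1)).drop h).length = r' + 1 - h := by
    rw [List.length_drop, encList_length]
  rw [hlen] at h1
  nth_rewrite 3 [encList_succ] at h1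
  have h2 := runsLE_eraseBackVis A (acell A (f 0) true) rfl
    ((List.range r').map fun j => acell A (f (j + 1)) false) (by
      intro x hx
      obtain ⟨j, _, rfl⟩ := List.mem_map.1 hx
      rfl)
  have h3 : RunsLE (prim fun _ => ![(default, Dir.stay)] : Frag (GB A) 1)
      ![zt [] [acell A (f 0) true]] 1 ![zt [] []] := RunsLE.prim _ _ _ (by simp)
  refine RunsLE.mono (h1.seq (h2.seq h3)) ?_
  simp only [List.length_map, List.length_range]
  omega

/-- Mark cell `0` of a blank tape as visited. -/
def markTape : Frag (GB A) 1 := prim fun _ => ![(acell A A.blank true, Dir.stay)]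

theorem runsLE_markTape :
    RunsLE (markTape A) ![blankTape A] 1 ![encTape A (fun _ => A.blank) 1 0] := by
  refine RunsLE.prim _ _ _ ?_
  rw [blankTape_eq_zt, encTape_eq_zt A _ 1 0 (by omega)]
  simp [encList]

namespace Frag

variable {Γ : Type} {k : ℕ}

/-- Run the one-tape fragment `G` on the tapes of the list, one after the other. -/
noncomputable def forAll (G : Frag Γ 1) : List (Fin k) → Frag Γ k
  | [] => prim noop
  | i :: is => seq (lift ![i] G) (forAll G is)

theorem runsLE_forAll_list (G : Frag Γ 1) (T' : Fin k → Tape Γ) (b : Fin k → ℕ)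
    (is : List (Fin k)) (hnd : is.Nodup) (T : Fin k → Tape Γ)
    (h : ∀ i ∈ is, RunsLE G ![T i] (b i) ![T' i]) :
    RunsLE (forAll G is) T ((is.map b).sum + 1) (fun i => if i ∈ is then T' i else T i) := by
  induction is generalizing T with
  | nil =>
    have := RunsLE.prim (k := k) (Γ := Γ) noop T T (acts_noop T)
    simpa [forAll] using this
  | cons i is ih =>
    have hi : i ∉ is := (List.nodup_cons.1 hnd).1
    have h1 : RunsLE (lift ![i] G : Frag Γ k) T (b i) (Function.update T i (T' i)) := by
      refine RunsLE.lift (fun a b _ => Subsingleton.elim a b) (h i (by simp)) _ _ ?_ ?_ ?_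
      · intro a
        fin_cases a
        rfl
      · intro a
        fin_cases a
        simp
      · intro c hc
        have : c ≠ i := fun e => hc 0 (by simp [e])
        simp [this]
    have h2 := ih (List.nodup_cons.1 hnd).2 (Function.update T i (T' i)) (by
      intro j hj
      have hji : j ≠ i := fun e => hi (e ▸ hj)
      rw [Function.update_of_ne hji]
      exact h j (by simp [hj]))
    have e : (fun j => if j ∈ is then T' j else Function.update T i (T' i) j)
        = fun j => if j ∈ i :: is then T' j else T j := by
      funext j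
      by_cases hj : j ∈ is
      · simp [hj]
      · by_cases hji : j = i
        · subst hji
          simp
        · simp [hj, hji]
    rw [e] at h2
    refine RunsLE.mono (h1.seq h2) ?_
    simp
    omega

theorem runsLE_forAll (G : Frag Γ 1) (T T' : Fin k → Tape Γ) (b : Fin k → ℕ)
    (h : ∀ i, RunsLE G ![T i] (b i) ![T' i]) :
    RunsLE (forAll G (List.finRange k)) T ((∑ i, b i) + k + 1) T' := by
  have := runsLE_forAll_list G T' b (List.finRange k) (List.nodup_finRange k) T (fun i _ => h i)
  simp only [List.mem_finRange, if_true] at this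
  refine RunsLE.mono this ?_
  have e : ((List.finRange k).map b).sum = ∑ i, b i := by
    rw [← List.ofFn_eq_map, List.sum_ofFn]
  omega

end Frag

end Vale.Agent.P338
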