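import Vale.Agent.P338.TM.SimLib

/-!
TASK S2: loading the operands onto the input tape of `A`.
-/

namespace Vale.Agent.P338
open GB Frag Matrix

variable {kA : ℕ} (A : Machine kA)

theorem val_revW (N : ℕ) (X : List Bool) (hX : X.length = N) : val (revW N X) = valLE X := by
  subst hX
  induction X with
  | nil => simp [val, valLE]
  | cons b X ih =>
    rw [valLE, ← ih]
    simp only [val, List.length_cons]
    rw [Fin.sum_univ_castSucc, Finset.mul_sum, add_comm]
    congr 1
    · simp [revW]
    · apply Finset.sum_congr rfl
      intro i _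
      have hi := i.2
      have e : X.length + 1 - 1 - (i : ℕ) = (X.length - 1 - (i : ℕ)) + 1 := by omega
      simp only [revW, Fin.val_castSucc, e, List.getD_cons_succ, pow_succ]
      ring

/-- Cells of a tape of `A`, the first one flagged. -/
def flagL : List A.Γ → List (GB A)
  | [] => []
  | γ :: W => acell A γ true :: W.map fun γ => acell A γ false

theorem flagL_eq_encList (W : List A.Γ) (f : ℕ → A.Γ) (h : ∀ j (hj : j < W.length), W[j] = f j) :
    flagL A W = encList A f W.length := by
  apply List.ext_getElem
  · cases W <;> simp [flagL, encList]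
  · intro j h1 h2
    cases W with
    | nil => simp [flagL] at h1
    | cons γ W =>
      cases j with
      | zero =>
        have := h 0 (by simp)
        rw [List.getElem_cons_zero] at this
        simp [flagL, encList, this]
      | succ j =>
        have := h (j+1) (by simpa [flagL] using h1)
        simpa [flagL, encList] using this

/-- The input tape of `A` while the word `W` has been written. -/
def wrT : List A.Γ → Tape (GB A)
  | [] => zt [] [acell A A.blank true]
  | γ :: W => zt (flagL A (γ :: W)) []

theorem wrT_step (W : List A.Γ) (γ : A.Γ) :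
    (wrT A W).step (encW A γ (wrT A W).read, Dir.right) = wrT A (W ++ [γ]) := by
  cases W with
  | nil => simp [wrT, flagL, encW, isOrg]
  | cons γ' W => simp [wrT, flagL, encW, isOrg, default_eq]

/-- A bit in the alphabet of `A`. -/
def sb (b : Bool) : A.Γ := A.sym (some b)

/-- A bit on an own tape. -/
def ob (b : Bool) : GB A := own A (bit b)

/-- Tapes: source (head on the last symbol), destination.  Copy leftwards up to the origin mark. -/
def revCopy : Frag (GB A) 2 :=
  loop (fun s => unown A (s 0) != Sym.org)
    (prim fun s => ![(s 0, Dir.left),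
      (encW A (A.sym (some (unown A (s 0) == Sym.b1))) (s 1), Dir.right)])

theorem bit_beq (b : Bool) : (bit b == Sym.b1) = b := by cases b <;> rfl

theorem runsLE_revCopy (L : List Bool) (b : Bool) (R : List (GB A)) (W : List A.Γ) :
    RunsLE (revCopy A) ![zt (own A Sym.org :: L.map (ob A)) (ob A b :: R), wrT A W]
      (2 * L.length + 3)
      ![zt [] (own A Sym.org :: (L.map (ob A) ++ ob A b :: R)),
        wrT A (W ++ sb A b :: L.reverse.map (sb A))] := by
  unfold revCopy
  induction L using List.reverseRecOn generalizing R W b with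
  | nil =>
    refine RunsLE.loop_true (b := 1) (b' := 1) (by cases b <;> simp [ob, bit])
      (RunsLE.prim _ _ ![zt [] (own A Sym.org :: ob A b :: R), wrT A (W ++ [sb A b])] ?_)
      (RunsLE.loop_false (by simp))
    have h1 := zt_left_cons ([] : List (GB A)) R (own A Sym.org) (ob A b) (ob A b)
    have h2 := wrT_step A W (sb A b)
    simp only [List.nil_append] at h1
    simp [ob, sb, bit_beq]
    exact ⟨h1, h2⟩
  | append_singleton L d ih =>
    have h1 := ih d (ob A b :: R) (W ++ [sb A b])
    have e : own A Sym.org :: ((L ++ [d]).map (ob A) ++ ob A b :: R)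
        = own A Sym.org :: (L.map (ob A) ++ ob A d :: ob A b :: R) := by simp
    have e2 : W ++ sb A b :: (L ++ [d]).reverse.map (sb A)
        = W ++ [sb A b] ++ sb A d :: L.reverse.map (sb A) := by simp
    rw [e, e2]
    refine RunsLE.mono (RunsLE.loop_true (by cases b <;> simp [ob, bit])
      (RunsLE.prim _ _ ![zt (own A Sym.org :: L.map (ob A)) (ob A d :: ob A b :: R),
        wrT A (W ++ [sb A b])] ?_) h1) ?_
    · have h3 := zt_left_cons (own A Sym.org :: L.map (ob A)) R (ob A d) (ob A b) (ob A b)
      have h2 := wrT_step A W (sb A b)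
      simp only [List.cons_append] at h3
      simp [ob, sb, bit_beq]
      exact ⟨h3, h2⟩
    · simp; omega

/-- Tapes: source in rest position, destination: append the reversed source. -/
noncomputable def loadOne : Frag (GB A) 2 :=
  seq (lift ![0] (scanR fun x => unown A x != Sym.blank)) (seq (lift ![0] gL) (revCopy A))

theorem ownT_rest (X : List Bool) :
    ownT A (zt [] (Sym.org :: X.map bit)) = zt [] (own A Sym.org :: X.map (ob A)) := by
  unfold ownT
  rw [zt_map (own A) rfl]
  simp only [List.map_nil, List.map_cons, List.map_map]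
  rfl

theorem runsLE_loadOne (X : List Bool) (W : List A.Γ) :
    RunsLE (loadOne A) ![zt [] (own A Sym.org :: X.map (ob A)), wrT A W] (4 * X.length + 7)
      ![zt [] (own A Sym.org :: X.map (ob A)), wrT A (W ++ X.reverse.map (sb A))] := by
  have h1 : RunsLE (lift ![0] (scanR fun x => unown A x != Sym.blank))
      ![zt [] (own A Sym.org :: X.map (ob A)), wrT A W] (2 * (X.length + 1) + 1)
      ![zt (own A Sym.org :: X.map (ob A)) [], wrT A W] := by
    have := runsLE_scanR (fun x => unown A x != Sym.blank) [] (own A Sym.org :: X.map (ob A)) []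
      ?_ ?_
    · simp only [List.append_nil, List.nil_append, List.length_cons, List.length_map] at this
      exact RunsLE.lift (by decide) this _ _ (by simp) (by simp) (by simp [Fin.forall_fin_succ])
    · intro x hx
      simp only [List.mem_cons, List.mem_map] at hx
      rcases hx with rfl | ⟨b, _, rfl⟩
      · rfl
      · cases b <;> rfl
    · rfl
  rcases List.eq_nil_or_concat X with rfl | ⟨L, b, rfl⟩
  · have h2 : RunsLE (lift ![0] gL) ![zt [own A Sym.org] [], wrT A W] 1
        ![zt [] [own A Sym.org], wrT A W] :=
      RunsLE.lift (by decide) (runsLE_gL [] [] (own A Sym.org)) _ _ (by simp) (by simp)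
        (by simp [Fin.forall_fin_succ])
    have h3 : RunsLE (revCopy A) ![zt [] [own A Sym.org], wrT A W] 1
        ![zt [] [own A Sym.org], wrT A W] := RunsLE.loop_false (by simp)
    simpa [loadOne] using (h1.seq (h2.seq h3)).mono (by simp)
  · rw [List.concat_eq_append] at h1 ⊢
    have h2 : RunsLE (lift ![0] gL) ![zt (own A Sym.org :: (L ++ [b]).map (ob A)) [], wrT A W] 1
        ![zt (own A Sym.org :: L.map (ob A)) [ob A b], wrT A W] := by
      have := runsLE_gL (own A Sym.org :: L.map (ob A)) [] (ob A b)
      have e : own A Sym.org :: (L ++ [b]).map (ob A) = own A Sym.org :: L.map (ob A) ++ [ob A b] := by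
        simp
      rw [e]
      exact RunsLE.lift (by decide) this _ _ (by simp) (by simp) (by simp [Fin.forall_fin_succ])
    have h3 := runsLE_revCopy A L b [] W
    have e1 : own A Sym.org :: (L.map (ob A) ++ [ob A b]) = own A Sym.org :: (L ++ [b]).map (ob A) := by
      simp
    have e2 : W ++ sb A b :: L.reverse.map (sb A) = W ++ (L ++ [b]).reverse.map (sb A) := by simp
    rw [e1, e2] at h3
    refine (h1.seq (h2.seq h3)).mono ?_
    simp only [List.length_append, List.length_singleton]
    omega

/-- The word written on the input tape. -/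
def loadW (X Y : List Bool) : List A.Γ :=
  X.reverse.map (sb A) ++ A.sym none :: Y.reverse.map (sb A)

theorem loadW_getElem (N : ℕ) (X Y : List Bool) (hX : X.length = N) (hY : Y.length = N) (j : ℕ)
    (hj : j < (loadW A X Y).length) :
    (loadW A X Y)[j] = inputTape A (revW N X) (revW N Y) j := by
  have hlen : (loadW A X Y).length = 2 * N + 1 := by simp [loadW, hX, hY]; omega
  have key : ∀ (Z : List Bool) (i : ℕ) (hZ : Z.length = N) (hi : i < N),
      (Z.reverse.map (sb A))[i]? = some (A.sym (some (revW N Z ⟨i, hi⟩))) := by
    intro Z i hZ hi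
    have h2 : N - 1 - i < Z.length := by omega
    simp only [List.getElem?_map, revW, List.getD_eq_getElem _ _ h2]
    rw [List.getElem?_reverse (by omega), hZ, List.getElem?_eq_getElem h2]
    rfl
  rw [← Option.some_inj, ← List.getElem?_eq_getElem hj]
  unfold inputTape loadW
  by_cases h1 : j < N
  · rw [dif_pos h1, List.getElem?_append_left (by simpa [hX] using h1), key X j hX h1]
  · rw [dif_neg h1, List.getElem?_append_right (by simp [hX]; omega)]
    simp only [List.length_map, List.length_reverse, hX]
    by_cases h2 : j = N
    · simp [h2]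
    · have h3 : j - (N + 1) < N := by omega
      have e : j - N = (j - (N + 1)) + 1 := by omega
      rw [if_neg h2, dif_pos h3, e, List.getElem?_cons_succ, key Y _ hY h3]

theorem runsLE_putW (γ : A.Γ) (W : List A.Γ) :
    RunsLE (prim fun s => ![(encW A γ (s 0), Dir.right)]) ![wrT A W] 1 ![wrT A (W ++ [γ])] :=
  RunsLE.prim _ _ _ (by simp [wrT_step])

noncomputable def loadFrag : Frag (GB A) 3 :=
  seq (lift ![2] (prim fun _ => ![(acell A A.blank true, Dir.stay)]))
  (seq (lift ![0, 2] (loadOne A))
  (seq (lift ![2] (prim fun s => ![(encW A (A.sym none) (s 0), Dir.right)]))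
  (seq (lift ![1, 2] (loadOne A))
    (lift ![2] (scanL fun x => !isOrg A x)))))

theorem runsLE_loadFrag (N : ℕ) (X Y : List Bool) (hX : X.length = N) (hY : Y.length = N) :
    RunsLE (loadFrag A)
      ![ownT A (zt [] (Sym.org :: X.map bit)), ownT A (zt [] (Sym.org :: Y.map bit)), blankTape A]
      (20 * N + 20)
      ![ownT A (zt [] (Sym.org :: X.map bit)), ownT A (zt [] (Sym.org :: Y.map bit)),
        encTape A (inputTape A (revW N X) (revW N Y)) (2 * N + 1) 0] := by
  rw [ownT_rest, ownT_rest]
  set TX := zt [] (own A Sym.org :: X.map (ob A)) with hTX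
  set TY := zt [] (own A Sym.org :: Y.map (ob A)) with hTY
  have h1 : RunsLE (lift ![2] (prim fun _ => ![(acell A A.blank true, Dir.stay)]))
      ![TX, TY, blankTape A] 1 ![TX, TY, wrT A []] := by
    have : RunsLE (prim fun _ => ![(acell A A.blank true, Dir.stay)]) ![blankTape A] 1
        ![wrT A []] := RunsLE.prim _ _ _ (by
      have : blankTape A = zt [] [] := rfl
      simp [this, wrT])
    exact RunsLE.lift (by decide) this _ _ (by simp) (by simp) (by simp [Fin.forall_fin_succ])
  have h2 : RunsLE (lift ![0, 2] (loadOne A)) ![TX, TY, wrT A []] (4 * N + 7)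
      ![TX, TY, wrT A (X.reverse.map (sb A))] := by
    have := runsLE_loadOne A X []
    rw [hX, List.nil_append, ← hTX] at this
    exact RunsLE.lift (by decide) this _ _ (by simp [Fin.forall_fin_succ])
      (by simp [Fin.forall_fin_succ]) (by simp [Fin.forall_fin_succ])
  have h3 : RunsLE (lift ![2] (prim fun s => ![(encW A (A.sym none) (s 0), Dir.right)]))
      ![TX, TY, wrT A (X.reverse.map (sb A))] 1
      ![TX, TY, wrT A (X.reverse.map (sb A) ++ [A.sym none])] := by
    have : RunsLE (prim fun s => ![(encW A (A.sym none) (s 0), Dir.right)])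
        ![wrT A (X.reverse.map (sb A))] 1 ![wrT A (X.reverse.map (sb A) ++ [A.sym none])] :=
      runsLE_putW A _ _
    exact RunsLE.lift (by decide) this _ _ (by simp) (by simp) (by simp [Fin.forall_fin_succ])
  have h4 : RunsLE (lift ![1, 2] (loadOne A))
      ![TX, TY, wrT A (X.reverse.map (sb A) ++ [A.sym none])] (4 * N + 7)
      ![TX, TY, wrT A (loadW A X Y)] := by
    have := runsLE_loadOne A Y (X.reverse.map (sb A) ++ [A.sym none])
    rw [hY] at this
    have e : X.reverse.map (sb A) ++ [A.sym none] ++ Y.reverse.map (sb A) = loadW A X Y := by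
      simp [loadW]
    rw [e, ← hTY] at this
    exact RunsLE.lift (by decide) this _ _ (by simp [Fin.forall_fin_succ])
      (by simp [Fin.forall_fin_succ]) (by simp [Fin.forall_fin_succ])
  have hlen : (loadW A X Y).length = 2 * N + 1 := by simp [loadW, hX, hY]; omega
  have h5 : RunsLE (lift ![2] (scanL fun x => !isOrg A x)) ![TX, TY, wrT A (loadW A X Y)]
      (4 * N + 3) ![TX, TY, encTape A (inputTape A (revW N X) (revW N Y)) (2 * N + 1) 0] := by
    have e := flagL_eq_encList A (loadW A X Y) (inputTape A (revW N X) (revW N Y))
      (loadW_getElem A N X Y hX hY)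
    rw [hlen] at e
    unfold encTape
    rw [← e]
    generalize loadW A X Y = W at hlen
    cases W with
    | nil => simp at hlen
    | cons γ W =>
      have := runsLE_scanL (fun x => !isOrg A x) [] (W.map fun γ => acell A γ false) []
        (acell A γ true) ?_ rfl rfl
      · have hl : W.length = 2 * N := by simpa using hlen
        simp only [List.nil_append, List.append_nil, List.length_map, hl] at this
        refine (RunsLE.lift (by decide) this _ _ (by simp [wrT, flagL]) (by simp [flagL, zt_nil_left])
          (by simp [Fin.forall_fin_succ])).mono (by omega)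
      · intro x hx
        simp only [List.mem_map] at hx
        obtain ⟨γ', _, rfl⟩ := hx
        rfl
  exact (h1.seq (h2.seq (h3.seq (h4.seq h5)))).mono (by omega)

end Vale.Agent.P338
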