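import Vale.Agent.P338.TM.SimDefs

namespace Vale.Agent.P338
open GB Frag Matrix

variable {kA : ℕ} (A : Machine kA)

@[simp] theorem ownT_readU (t : Tape Sym) : (ownT A t).read = own A t.read := rfl

@[simp] theorem ownT_step (t : Tape Sym) (x : Sym) (d : Dir) :
    (ownT A t).step (own A x, d) = ownT A (t.step (x, d)) :=
  (Tape.map_step (own A) t (x, d)).symm

theorem encTape_move (f : ℕ → A.Γ) (r h : ℕ) (d : Dir) :
    (encTape A f r h).step ((encTape A f r h).read, d) = encTape A f r (d.apply h) :=
  tp_move _ _ _

theorem encTape_read_lt (f : ℕ → A.Γ) (r h : ℕ) (hh : h < r) :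
    (encTape A f r h).read = acell A (f h) (h == 0) := by
  simp [encTape, encList, hh]

theorem encTape_read_ge (f : ℕ → A.Γ) (r h : ℕ) (hh : r ≤ h) :
    (encTape A f r h).read = default := by
  simp [encTape, encList, hh]

theorem encTape_isOrg_succ (f : ℕ → A.Γ) (r h : ℕ) :
    isOrg A (encTape A f r (h + 1)).read = false := by
  by_cases hh : h + 1 < r
  · rw [encTape_read_lt A f r _ hh]
    rfl
  · rw [encTape_read_ge A f r _ (by omega)]
    rfl

/-- Move left to the marked cell. -/
def toOrgVis : Frag (GB A) 1 :=
  loop (fun s => !isOrg A (s 0)) (prim fun s => ![(s 0, Dir.left)])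

theorem runsLE_toOrgVis (f : ℕ → A.Γ) (r h : ℕ) (hr : 1 ≤ r) :
    RunsLE (toOrgVis A) ![encTape A f r h] (2 * h + 1) ![encTape A f r 0] := by
  unfold toOrgVis
  induction h with
  | zero =>
    refine RunsLE.loop_false ?_
    simp only [reads_cons, cons_val_zero]
    rw [encTape_read_lt A f r 0 (by omega)]
    rfl
  | succ h ih =>
    refine RunsLE.mono (RunsLE.loop_true ?_ (RunsLE.prim _ _ ![encTape A f r h] ?_) ih) (by omega)
    · simp only [reads_cons, cons_val_zero]
      rw [encTape_isOrg_succ]
      rfl
    · simp only [reads_cons, cons_val_zero, acts_cons, encTape_move]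
      simp [Dir.apply]

/-- Tapes: ruler, tape of `A`: both move right up to the end of the ruler. -/
def walkR : Frag (GB A) 2 :=
  loop (fun s => unown A (s 0) != Sym.blank) (prim fun s => ![(s 0, Dir.right), (s 1, Dir.right)])

theorem runsLE_walkR (f : ℕ → A.Γ) (r : ℕ) (L R : List Sym) (hR : Sym.blank ∉ R) (p : ℕ) :
    RunsLE (walkR A) ![ownT A (zt L R), encTape A f r p] (2 * R.length + 1)
      ![ownT A (zt (L ++ R) []), encTape A f r (p + R.length)] := by
  unfold walkR
  induction R generalizing L p with
  | nil => simpa using RunsLE.loop_false (by simp)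
  | cons x R ih =>
    have hx : x ≠ Sym.blank := fun h => hR (by simp [h])
    have h1 := ih (L ++ [x]) (fun h => hR (by simp [h])) (p + 1)
    rw [List.append_assoc] at h1
    have e : p + 1 + R.length = p + (x :: R).length := by simp; omega
    rw [e] at h1
    refine RunsLE.mono (RunsLE.loop_true (by simpa using hx)
      (RunsLE.prim _ _ ![ownT A (zt (L ++ [x]) R), encTape A f r (p + 1)] ?_) h1) ?_
    · simp only [reads_cons, cons_val_zero, cons_val_one, acts_cons, encTape_move, ownT_readU,
        ownT_step, zt_read_cons, zt_right_cons]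
      simp [Dir.apply]
    · simp
      omega

/-- Tapes: ruler, tape of `A`: the ruler is rewound, the other head moves right. -/
def walkL : Frag (GB A) 2 :=
  loop (fun s => unown A (s 0) != Sym.org) (prim fun s => ![(s 0, Dir.left), (s 1, Dir.right)])

theorem runsLE_walkL (f : ℕ → A.Γ) (r : ℕ) (L R : List Sym) (hL : Sym.org ∉ L)
    (hR : R.head? ≠ some Sym.org) (p : ℕ) :
    RunsLE (walkL A) ![ownT A (zt (Sym.org :: L) R), encTape A f r p] (2 * L.length + 3)
      ![ownT A (zt [] (Sym.org :: (L ++ R))), encTape A f r (p + L.length + 1)] := by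
  have hc : ∀ (L R : List Sym) (p : ℕ), R.head? ≠ some Sym.org →
      (unown A (reads ![ownT A (zt L R), encTape A f r p] 0) != Sym.org) = true := by
    intro L R p hR
    cases R with
    | nil => simp
    | cons x R => simpa using hR
  have hstep : ∀ (L R : List Sym) (c : Sym) (p : ℕ),
      RunsLE (prim fun s => ![(s 0, Dir.left), (s 1, Dir.right)] : Frag (GB A) 2)
        ![ownT A (zt (L ++ [c]) R), encTape A f r p] 1
        ![ownT A (zt L (c :: R)), encTape A f r (p + 1)] := by
    intro L R c p
    refine RunsLE.prim _ _ _ ?_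
    simp only [reads_cons, cons_val_zero, cons_val_one, acts_cons, encTape_move, ownT_readU,
      ownT_step, zt_move_left]
    simp [Dir.apply]
  unfold walkL
  induction L using List.reverseRecOn generalizing R p with
  | nil =>
    exact RunsLE.loop_true (b := 1) (b' := 1) (hc _ _ _ hR) (hstep [] R Sym.org p)
      (RunsLE.loop_false (by simp))
  | append_singleton L c ih =>
    have hc' : c ≠ Sym.org := fun h => hL (by simp [h])
    have h1 := ih (c :: R) (fun h => hL (by simp [h])) (by simpa using hc') (p + 1)
    have e : Sym.org :: (L ++ [c] ++ R) = Sym.org :: (L ++ c :: R) := by simp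
    have e2 : p + (L ++ [c]).length + 1 = p + 1 + L.length + 1 := by simp; omega
    rw [e, e2]
    refine RunsLE.mono (RunsLE.loop_true (hc _ _ _ hR) (hstep (Sym.org :: L) R c p) h1) ?_
    simp
    omega

/-- Tapes: destination, ruler, tape of `A`: copy decoded bits while moving left on the tape of `A`. -/
noncomputable def copyBack : Frag (GB A) 3 :=
  loop (fun s => unown A (s 1) != Sym.blank)
    (prim fun s => ![(own A (decBit A (s 2)), Dir.right), (s 1, Dir.right), (s 2, Dir.left)])

theorem runsLE_copyBack (f : ℕ → A.Γ) (r : ℕ) (O L R : List Sym) (hR : Sym.blank ∉ R) (p : ℕ) :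
    RunsLE (copyBack A) ![ownT A (zt O []), ownT A (zt L R), encTape A f r p] (2 * R.length + 1)
      ![ownT A (zt (O ++ (List.range R.length).map
          fun i => decBit A (encTape A f r (p - i)).read) []),
        ownT A (zt (L ++ R) []), encTape A f r (p - R.length)] := by
  unfold copyBack
  induction R generalizing O L p with
  | nil => simpa using RunsLE.loop_false (by simp)
  | cons x R ih =>
    have hx : x ≠ Sym.blank := fun h => hR (by simp [h])
    have h1 := ih (O ++ [decBit A (encTape A f r p).read]) (L ++ [x])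
      (fun h => hR (by simp [h])) (p - 1)
    rw [List.append_assoc, List.append_assoc] at h1
    have e : p - 1 - R.length = p - (x :: R).length := by simp; omega
    have e2 : [decBit A (encTape A f r p).read] ++ (List.range R.length).map
          (fun i => decBit A (encTape A f r (p - 1 - i)).read)
        = (List.range (x :: R).length).map fun i => decBit A (encTape A f r (p - i)).read := by
      rw [List.length_cons, List.range_succ_eq_map, List.map_cons, List.map_map]
      simp only [Nat.sub_zero, List.singleton_append, Function.comp_def]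
      congr 1
      apply List.map_congr_left
      intro i _
      rw [Nat.sub_sub, Nat.add_comm 1 i]
    rw [e, e2] at h1
    refine RunsLE.mono (RunsLE.loop_true (by simpa using hx)
      (RunsLE.prim _ _ ![ownT A (zt (O ++ [decBit A (encTape A f r p).read]) []),
        ownT A (zt (L ++ [x]) R), encTape A f r (p - 1)] ?_) h1) ?_
    · simp only [reads_cons, cons_val_zero, cons_val_one, cons_val_two, acts_cons, encTape_move,
        ownT_readU, ownT_step, zt_read_cons, zt_right_cons, zt_right_nil, tail_cons, head_cons]
      simp [Dir.apply]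
    · simp
      omega

/-- Rewinding an own tape. -/
def rewindOwn : Frag (GB A) 1 := mapΓ (own A) (unown A) rewind

theorem runsLE_rewindOwn (L : List Sym) (hL : Sym.org ∉ L) :
    RunsLE (rewindOwn A) ![ownT A (zt (Sym.org :: L) [])] (2 * L.length + 3)
      ![ownT A (zt [] (Sym.org :: L))] := by
  have h := RunsLE.mapΓ (e := own A) (p := unown A) (unown_own A)
    (runsLE_rewind L [] hL (by simp))
  rw [List.append_nil] at h
  have e1 : (fun i => Tape.map (own A) (![zt (Sym.org :: L) []] i))
      = ![ownT A (zt (Sym.org :: L) [])] := by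
    funext i
    fin_cases i
    rfl
  have e2 : (fun i => Tape.map (own A) (![zt [] (Sym.org :: L)] i))
      = ![ownT A (zt [] (Sym.org :: L))] := by
    funext i
    fin_cases i
    rfl
  rw [e1, e2] at h
  exact h

/-- Tapes: destination, ruler of length `N`, output tape of `A`. -/
noncomputable def unloadFrag : Frag (GB A) 3 :=
  seq (lift ![2] (toOrgVis A))
  (seq (prim fun s => ![(s 0, Dir.right), (s 1, Dir.right), (s 2, Dir.stay)])
  (seq (lift ![1, 2] (walkR A))
  (seq (lift ![1, 2] (walkL A))
  (seq (prim fun s => ![(s 0, Dir.stay), (s 1, Dir.right), (s 2, Dir.left)])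
  (seq (prim fun s => ![(s 0, Dir.stay), (s 1, Dir.stay), (s 2, Dir.left)])
  (seq (copyBack A)
  (seq (lift ![1] (rewindOwn A)) (lift ![0] (rewindOwn A)))))))))

theorem decBit_sym (b : Bool) (o : Bool) : decBit A (acell A (A.sym (some b)) o) = bit b := by
  have hdec : dec A (acell A (A.sym (some b)) o) = A.sym (some b) := rfl
  unfold decBit
  rw [hdec]
  cases b
  · rw [if_neg]
    · rfl
    · intro h
      have := A.sym_inj h
      simp at this
  · rw [if_pos rfl]
    rfl

/-- The output tape holds the `2 N`-bit number `P`, most significant bit first; the low `N` bits are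
copied, least significant bit first, to the destination. -/
theorem runsLE_unloadFrag (N P : ℕ) (X : List Sym) (hX : X.length = N) (hd : IsData X)
    (f : ℕ → A.Γ) (r h : ℕ) (hr : 1 ≤ r) (hh : h ≤ r) (hb : ∀ j, r ≤ j → f j = A.blank)
    (hf : ∀ j, j < 2 * N → f j = A.sym (some (P.testBit (2 * N - 1 - j)))) :
    ∃ h', h' ≤ r ∧ RunsLE (unloadFrag A)
      ![ownT A (zt [] [Sym.org]), ownT A (zt [] (Sym.org :: X)), encTape A f r h]
      (20 * N + 2 * r + 20)
      ![ownT A (zt [] (Sym.org :: (bitsLE N P).map bit)), ownT A (zt [] (Sym.org :: X)),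
        encTape A f r h'] := by
  have hNr : 2 * N ≤ r := by
    by_contra hc
    have h1 := hb r le_rfl
    have h2 := hf r (by omega)
    rw [h1] at h2
    exact A.sym_ne_blank _ h2.symm
  have hXb : Sym.blank ∉ X := fun hh => (hd _ hh).1 rfl
  have hXo : Sym.org ∉ X := fun hh => (hd _ hh).2 rfl
  refine ⟨2 * N - 1 - N, by omega, ?_⟩
  have s1 : RunsLE (lift ![2] (toOrgVis A) : Frag (GB A) 3)
      ![ownT A (zt [] [Sym.org]), ownT A (zt [] (Sym.org :: X)), encTape A f r h] (2 * h + 1)
      ![ownT A (zt [] [Sym.org]), ownT A (zt [] (Sym.org :: X)), encTape A f r 0] :=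
    RunsLE.lift (by decide) (runsLE_toOrgVis A f r h hr) _ _ (by simp [Fin.forall_fin_succ])
      (by simp [Fin.forall_fin_succ]) (by simp [Fin.forall_fin_succ])
  have s2 : RunsLE (prim fun s => ![(s 0, Dir.right), (s 1, Dir.right), (s 2, Dir.stay)] :
        Frag (GB A) 3)
      ![ownT A (zt [] [Sym.org]), ownT A (zt [] (Sym.org :: X)), encTape A f r 0] 1
      ![ownT A (zt [Sym.org] []), ownT A (zt [Sym.org] X), encTape A f r 0] := by
    refine RunsLE.prim _ _ _ ?_
    simp only [reads_cons, cons_val_zero, cons_val_one, cons_val_two, acts_cons, encTape_move,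
      ownT_readU, ownT_step, zt_read_cons, zt_right_cons, tail_cons, head_cons]
    simp [Dir.apply]
  have s3 : RunsLE (lift ![1, 2] (walkR A) : Frag (GB A) 3)
      ![ownT A (zt [Sym.org] []), ownT A (zt [Sym.org] X), encTape A f r 0] (2 * X.length + 1)
      ![ownT A (zt [Sym.org] []), ownT A (zt ([Sym.org] ++ X) []),
        encTape A f r (0 + X.length)] :=
    RunsLE.lift (by decide) (runsLE_walkR A f r [Sym.org] X hXb 0) _ _
      (by simp [Fin.forall_fin_succ]) (by simp [Fin.forall_fin_succ])
      (by simp [Fin.forall_fin_succ])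
  have s4 : RunsLE (lift ![1, 2] (walkL A) : Frag (GB A) 3)
      ![ownT A (zt [Sym.org] []), ownT A (zt (Sym.org :: X) []),
        encTape A f r (0 + X.length)] (2 * X.length + 3)
      ![ownT A (zt [Sym.org] []), ownT A (zt [] (Sym.org :: (X ++ []))),
        encTape A f r (0 + X.length + X.length + 1)] :=
    RunsLE.lift (by decide) (runsLE_walkL A f r X [] hXo (by simp) (0 + X.length)) _ _
      (by simp [Fin.forall_fin_succ]) (by simp [Fin.forall_fin_succ])
      (by simp [Fin.forall_fin_succ])
  rw [List.append_nil, hX] at s4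
  have s5 : RunsLE (prim fun s => ![(s 0, Dir.stay), (s 1, Dir.right), (s 2, Dir.left)] :
        Frag (GB A) 3)
      ![ownT A (zt [Sym.org] []), ownT A (zt [] (Sym.org :: X)), encTape A f r (0 + N + N + 1)] 1
      ![ownT A (zt [Sym.org] []), ownT A (zt [Sym.org] X), encTape A f r (2 * N)] := by
    refine RunsLE.prim _ _ _ ?_
    simp only [reads_cons, cons_val_zero, cons_val_one, cons_val_two, acts_cons, encTape_move,
      Tape.step_read_stay, ownT_readU, ownT_step, zt_read_cons, zt_right_cons, tail_cons, head_cons]
    have e : Dir.left.apply (0 + N + N + 1) = 2 * N := by simp [Dir.apply]; omega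
    rw [e]
    simp
  have s6 : RunsLE (prim fun s => ![(s 0, Dir.stay), (s 1, Dir.stay), (s 2, Dir.left)] :
        Frag (GB A) 3)
      ![ownT A (zt [Sym.org] []), ownT A (zt [Sym.org] X), encTape A f r (2 * N)] 1
      ![ownT A (zt [Sym.org] []), ownT A (zt [Sym.org] X), encTape A f r (2 * N - 1)] := by
    refine RunsLE.prim _ _ _ ?_
    simp only [reads_cons, cons_val_zero, cons_val_one, cons_val_two, acts_cons, encTape_move,
      Tape.step_read_stay, tail_cons, head_cons]
    simp [Dir.apply]
  have s7 := runsLE_copyBack A f r [Sym.org] [Sym.org] X hXb (2 * N - 1)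
  have edec : (List.range X.length).map
      (fun i => decBit A (encTape A f r (2 * N - 1 - i)).read) = (bitsLE N P).map bit := by
    rw [hX]
    unfold bitsLE
    rw [List.map_map]
    apply List.map_congr_left
    intro i hi
    have hi' : i < N := List.mem_range.1 hi
    rw [encTape_read_lt A f r _ (by omega), hf _ (by omega), decBit_sym]
    simp only [Function.comp]
    congr 2
    omega
  rw [edec, hX] at s7
  have s8 : RunsLE (lift ![1] (rewindOwn A) : Frag (GB A) 3)
      ![ownT A (zt ([Sym.org] ++ (bitsLE N P).map bit) []), ownT A (zt (Sym.org :: X) []),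
        encTape A f r (2 * N - 1 - N)] (2 * X.length + 3)
      ![ownT A (zt ([Sym.org] ++ (bitsLE N P).map bit) []), ownT A (zt [] (Sym.org :: X)),
        encTape A f r (2 * N - 1 - N)] :=
    RunsLE.lift (by decide) (runsLE_rewindOwn A X hXo) _ _
      (by simp [Fin.forall_fin_succ]) (by simp [Fin.forall_fin_succ])
      (by simp [Fin.forall_fin_succ])
  have hDo : Sym.org ∉ (bitsLE N P).map bit := fun hh => (isData_map_bit _ _ hh).2 rfl
  have s9 : RunsLE (lift ![0] (rewindOwn A) : Frag (GB A) 3)
      ![ownT A (zt (Sym.org :: (bitsLE N P).map bit) []), ownT A (zt [] (Sym.org :: X)),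
        encTape A f r (2 * N - 1 - N)] (2 * ((bitsLE N P).map bit).length + 3)
      ![ownT A (zt [] (Sym.org :: (bitsLE N P).map bit)), ownT A (zt [] (Sym.org :: X)),
        encTape A f r (2 * N - 1 - N)] :=
    RunsLE.lift (by decide) (runsLE_rewindOwn A _ hDo) _ _
      (by simp [Fin.forall_fin_succ]) (by simp [Fin.forall_fin_succ])
      (by simp [Fin.forall_fin_succ])
  have hlen : ((bitsLE N P).map bit).length = N := by simp [bitsLE]
  rw [hlen] at s9
  rw [hX] at s3 s8
  refine RunsLE.mono (s1.seq (s2.seq (s3.seq (s4.seq (s5.seq (s6.seq (s7.seq (s8.seq s9)))))))) ?_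
  omega

end Vale.Agent.P338
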