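import Vale.Agent.P338.TM.SimRun
import Vale.Agent.P338.TM.SimLoad
import Vale.Agent.P338.TM.SimUnload
import Vale.Agent.P338.TM.SimClean
import Vale.Agent.P338.TM.SwapSpec

/-!
S5: the capped multiplication as a fragment of the big machine.
Local layout: six named tapes `![E1, E2, E3, a, flag, sh]`, then the register, then the tapes of `A`.
-/

namespace Vale.Agent.P338
open GB Frag Matrix

variable {kA : ℕ} (A : Machine kA)

/-- Local state. -/
def LS (S : Fin 6 → Tape (GB A)) (reg : Tape (GB A)) (aT : Fin kA → Tape (GB A)) :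
    Fin (6 + (kA + 1)) → Tape (GB A) :=
  Fin.append S (Fin.cons reg aT)

/-- A fragment on the tapes of `A`. -/
noncomputable def onA (F : Frag (GB A) kA) : Frag (GB A) (6 + (kA + 1)) :=
  onRight 6 (lift Fin.succ F)

theorem runsLE_onA {F : Frag (GB A) kA} {aT aT' : Fin kA → Tape (GB A)} {b : ℕ}
    (h : RunsLE F aT b aT') (S : Fin 6 → Tape (GB A)) (reg : Tape (GB A)) :
    RunsLE (onA A F) (LS A S reg aT) b (LS A S reg aT') := by
  refine RunsLE.onRight (RunsLE.lift (Fin.succ_injective _) h _ _ (fun a => by simp)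
    (fun a => by simp) ?_) S
  intro c
  refine Fin.cases (fun _ => rfl) (fun c hc => absurd rfl (hc c)) c

/-- A fragment on the register. -/
noncomputable def onReg (F : Frag (GB A) 1) : Frag (GB A) (6 + (kA + 1)) :=
  onRight 6 (lift ![0] F)

theorem runsLE_onReg {F : Frag (GB A) 1} {reg reg' : Tape (GB A)} {b : ℕ}
    (h : RunsLE F ![reg] b ![reg']) (S : Fin 6 → Tape (GB A)) (aT : Fin kA → Tape (GB A)) :
    RunsLE (onReg A F) (LS A S reg aT) b (LS A S reg' aT) := by
  refine RunsLE.onRight (RunsLE.lift (fun a b _ => Subsingleton.elim a b) h _ _ ?_ ?_ ?_) S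
  · intro a; fin_cases a; rfl
  · intro a; fin_cases a; rfl
  · intro c
    refine Fin.cases (fun hc => absurd rfl (hc 0)) (fun c _ => rfl) c

/-- A fragment on two named tapes and one tape of `A`. -/
noncomputable def mix3 (j1 j2 : Fin 6) (i : Fin kA) (F : Frag (GB A) 3) : Frag (GB A) (6 + (kA + 1)) :=
  lift ![Fin.castAdd (kA + 1) j1, Fin.castAdd (kA + 1) j2, Fin.natAdd 6 i.succ] F

theorem runsLE_mix3 {j1 j2 : Fin 6} (hj : j1 ≠ j2) (i : Fin kA) {F : Frag (GB A) 3}
    {x y z x' y' z' : Tape (GB A)} {b : ℕ} (h : RunsLE F ![x, y, z] b ![x', y', z'])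
    (S : Fin 6 → Tape (GB A)) (reg : Tape (GB A)) (aT : Fin kA → Tape (GB A))
    (h1 : S j1 = x) (h2 : S j2 = y) (h3 : aT i = z) :
    RunsLE (mix3 A j1 j2 i F) (LS A S reg aT) b
      (LS A (Function.update (Function.update S j1 x') j2 y') reg (Function.update aT i z')) := by
  refine RunsLE.lift ?_ h _ _ ?_ ?_ ?_
  · intro a b hab
    have hv := congrArg Fin.val hab
    fin_cases a <;> fin_cases b <;> first
      | rfl
      | (exfalso; simp at hv; omega)
  · intro a
    fin_cases a
    · simp [LS, h1]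
    · simp [LS, h2]
    · simp [LS, h3]
  · intro a
    fin_cases a
    · simp [LS, hj]
    · simp [LS]
    · simp [LS]
  · intro c
    refine Fin.addCases (fun c hc => ?_) (fun c => ?_) c
    · have c1 : c ≠ j1 := fun e => hc 0 (by simp [e])
      have c2 : c ≠ j2 := fun e => hc 1 (by simp [e])
      simp [LS, c1, c2]
    · refine Fin.cases (fun _ => ?_) (fun c hc => ?_) c
      · unfold LS
        rw [Fin.append_right, Fin.append_right]
        rfl
      · have c3 : c ≠ i := fun e => hc 2 (by simp [e])
        unfold LS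
        rw [Fin.append_right, Fin.append_right, Fin.cons_succ, Fin.cons_succ,
          Function.update_of_ne c3]

/-- Index map of the simulation. -/
def simMap : Fin (4 + kA) → Fin (6 + (kA + 1)) :=
  Fin.addCases ![Fin.natAdd 6 0, Fin.castAdd (kA + 1) 1, Fin.castAdd (kA + 1) 3,
    Fin.castAdd (kA + 1) 5] (fun i => Fin.natAdd 6 i.succ)

theorem simMap_val (x : Fin (4 + kA)) : ((simMap (kA := kA) x : Fin (6 + (kA + 1))) : ℕ) =
    if (x : ℕ) = 0 then (6 : ℕ) else if (x : ℕ) = 1 then (1 : ℕ) else if (x : ℕ) = 2 then (3 : ℕ)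
      else if (x : ℕ) = 3 then (5 : ℕ) else (x : ℕ) + 3 := by
  refine Fin.addCases (fun a => ?_) (fun a => ?_) x
  · fin_cases a <;> simp [simMap]
  · have h1 : ((Fin.natAdd 4 a : Fin (4 + kA)) : ℕ) = 4 + a := rfl
    rw [h1, if_neg (by omega), if_neg (by omega), if_neg (by omega), if_neg (by omega)]
    simp [simMap]
    omega

theorem simMap_injective : Function.Injective (simMap (kA := kA)) := by
  intro x y h
  have h' := congrArg Fin.val h
  rw [simMap_val, simMap_val] at h'
  apply Fin.ext
  split_ifs at h' <;> omega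

theorem runsLE_simL {F : Frag (GB A) (4 + kA)} {reg clk o sh reg' clk' o' sh' : Tape (GB A)}
    {aT aT' : Fin kA → Tape (GB A)} {b : ℕ}
    (h : RunsLE F (Fin.append ![reg, clk, o, sh] aT) b (Fin.append ![reg', clk', o', sh'] aT'))
    (E1 E3 fl : Tape (GB A)) :
    RunsLE (lift simMap F) (LS A ![E1, clk, E3, o, fl, sh] reg aT) b
      (LS A ![E1, clk', E3, o', fl, sh'] reg' aT') := by
  refine RunsLE.lift simMap_injective h _ _ ?_ ?_ ?_
  · intro a
    refine Fin.addCases (fun a => ?_) (fun a => ?_) a
    · fin_cases a <;> simp [simMap, LS]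
    · simp [simMap, LS]
  · intro a
    refine Fin.addCases (fun a => ?_) (fun a => ?_) a
    · fin_cases a <;> simp [simMap, LS]
    · simp [simMap, LS]
  · intro c
    refine Fin.addCases (fun c hc => ?_) (fun c => ?_) c
    · fin_cases c
      · simp [LS]
      · exact absurd (by simp [simMap]) (hc (Fin.castAdd kA 1))
      · simp [LS]
      · exact absurd (by simp [simMap]) (hc (Fin.castAdd kA 2))
      · simp [LS]
      · exact absurd (by simp [simMap]) (hc (Fin.castAdd kA 3))
    · refine Fin.cases (fun hc => ?_) (fun c hc => ?_) c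
      · exact absurd (by simp [simMap]) (hc (Fin.castAdd kA 0))
      · exact absurd (by simp [simMap]) (hc (Fin.natAdd 4 c))

/-- The first tape of `A`. -/
def i0 : Fin kA := ⟨0, lt_of_le_of_lt (Nat.zero_le _) A.out.2⟩

/-- The other tapes of `A`. -/
def others : List (Fin kA) := (List.finRange kA).filter fun i => decide (i.val ≠ 0)

/-- Has `A` halted? -/
def isHalt : GB A → Bool
  | Sum.inl Sym.one => true
  | _ => false

/-- Marking, loading, register, clock. -/
noncomputable def mulPre : Frag (GB A) (6 + (kA + 1)) :=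
  seq (onA A (forAll (markTape A) others))
  (seq (mix3 A 1 2 (i0 A) (loadFrag A))
  (seq (onReg A (prim fun _ => ![(qcell A A.start, Dir.stay)]))
    (ownP A (kA + 1) (p := 6) ![1] mvR)))

/-- Restore the round counter and the clock. -/
noncomputable def mulRestore : Frag (GB A) (6 + (kA + 1)) :=
  seq (ownP A (kA + 1) (p := 6) ![5, 3] moveCnt) (ownP A (kA + 1) (p := 6) ![1] mvL)

/-- If `A` has halted: copy the result and set the flag. -/
noncomputable def mulOut : Frag (GB A) (6 + (kA + 1)) :=
  ite (fun s => isHalt A (s (Fin.natAdd 6 0)))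
    (seq (mix3 A 0 1 A.out (unloadFrag A)) (ownP A (kA + 1) (p := 6) ![4] mvR)) (prim noop)

/-- Erase the tapes of `A` and the register. -/
noncomputable def mulClean : Frag (GB A) (6 + (kA + 1)) :=
  seq (onA A (forAll (cleanTape A) (List.finRange kA)))
    (onReg A (prim fun _ => ![(own A Sym.blank, Dir.stay)]))

/-- The capped multiplication on the local layout. -/
noncomputable def mulLocal : Frag (GB A) (6 + (kA + 1)) :=
  seq (mulPre A) (seq (lift simMap (simOuter A)) (seq (mulRestore A) (seq (mulOut A) (mulClean A))))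

/-- The six named tapes. -/
def S6 (E1 E2 E3 : Tape Sym) (a fl sh : ℕ) : Fin 6 → Tape (GB A) :=
  ![ownT A E1, ownT A E2, ownT A E3, ownT A (cnt a), ownT A (cnt fl), ownT A (cnt sh)]

/-- The tapes of `A` after loading. -/
def loaded (N : ℕ) (X Y : List Bool) : Fin kA → Tape (GB A) := fun i =>
  if i.val = 0 then encTape A (inputTape A (revW N X) (revW N Y)) (2 * N + 1) 0
  else encTape A (fun _ => A.blank) 1 0

theorem repA_loaded (N : ℕ) (X Y : List Bool) :
    RepA A (init A (revW N X) (revW N Y)) (fun i => if i.val = 0 then 2 * N + 1 else 1)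
      (loaded A N X Y) := by
  intro i
  by_cases hi : i.val = 0
  · simp only [loaded, init, hi, if_true]
    refine ⟨trivial, by omega, by omega, ?_⟩
    intro j hj
    unfold inputTape
    rw [dif_neg (by omega), if_neg (by omega), dif_neg (by omega)]
  · simp only [loaded, init, hi, if_false]
    exact ⟨trivial, le_rfl, by omega, fun _ _ => trivial⟩

theorem haltTime_le_worstTime (N : ℕ) (x y : Fin N → Bool) :
    haltTime A (init A x y) ≤ worstTime A N :=
  Finset.le_sup (f := fun xy : (Fin N → Bool) × (Fin N → Bool) => haltTime A (init A xy.1 xy.2))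
    (Finset.mem_univ (x, y))

theorem reads_LS_reg (S : Fin 6 → Tape (GB A)) (reg : Tape (GB A)) (aT : Fin kA → Tape (GB A)) :
    reads (LS A S reg aT) (Fin.natAdd 6 0) = reg.read := by
  simp [reads, LS]

/-- Steps 1 to 4: marking, loading, register, clock. -/
theorem runsLE_mul_pre (N : ℕ) (X Y : List Bool) (hX : X.length = N) (hY : Y.length = N) (a : ℕ) :
    RunsLE (mulPre A)
      (LS A (S6 A (dat []) (dat (X.map bit)) (dat (Y.map bit)) a 0 0) (blankTape A)
        (fun _ => blankTape A))
      (kA + 20 * N + 23)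
      (LS A (S6 A (dat []) (zt [Sym.org] (X.map bit)) (dat (Y.map bit)) a 0 0) (regT A A.start)
        (loaded A N X Y)) := by
  -- marking
  have h1 := runsLE_forAll_list (markTape A) (fun _ => encTape A (fun _ => A.blank) 1 0) (fun _ => 1)
    (others (kA := kA)) ((List.nodup_finRange kA).filter _) (fun _ => blankTape A)
    (fun i _ => runsLE_markTape A)
  have h1' := runsLE_onA A h1 (S6 A (dat []) (dat (X.map bit)) (dat (Y.map bit)) a 0 0) (blankTape A)
  -- loading
  have h2 := runsLE_mix3 A (j1 := 1) (j2 := 2) (by decide) (i0 A) (runsLE_loadFrag A N X Y hX hY)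
    (S6 A (dat []) (dat (X.map bit)) (dat (Y.map bit)) a 0 0) (blankTape A)
    (fun i => if i ∈ others (kA := kA) then encTape A (fun _ => A.blank) 1 0 else blankTape A)
    rfl rfl (by simp [others, i0])
  have eS : Function.update (Function.update (S6 A (dat []) (dat (X.map bit)) (dat (Y.map bit)) a 0 0)
      1 (ownT A (zt [] (Sym.org :: X.map bit)))) 2 (ownT A (zt [] (Sym.org :: Y.map bit)))
      = S6 A (dat []) (dat (X.map bit)) (dat (Y.map bit)) a 0 0 := by
    funext j
    fin_cases j <;> rfl
  have eA : Function.update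
      (fun i => if i ∈ others (kA := kA) then encTape A (fun _ => A.blank) 1 0 else blankTape A) (i0 A)
      (encTape A (inputTape A (revW N X) (revW N Y)) (2 * N + 1) 0) = loaded A N X Y := by
    funext i
    by_cases hi : i.val = 0
    · have : i = i0 A := Fin.ext hi
      subst this
      simp [loaded, i0]
    · have : i ≠ i0 A := fun e => hi (by rw [e]; rfl)
      simp [loaded, hi, this, others]
  rw [eS, eA] at h2
  -- register
  have h3 : RunsLE (prim fun _ : Fin 1 → GB A => ![(qcell A A.start, Dir.stay)]) ![blankTape A] 1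
      ![regT A A.start] := by
    refine RunsLE.prim _ _ _ ?_
    have : (blankTape A).step (qcell A A.start, Dir.stay) = regT A A.start :=
      zt_stay_nil ([] : List (GB A)) (qcell A A.start)
    simp [this]
  have h3' := runsLE_onReg A h3 (S6 A (dat []) (dat (X.map bit)) (dat (Y.map bit)) a 0 0)
    (loaded A N X Y)
  -- clock
  have h4 := runsLE_ownP A (q := kA + 1) (p := 6) (ι := ![1]) (fun a b _ => Subsingleton.elim a b)
    (runsLE_mvR_cons [] (X.map bit) Sym.org)
    (S6 A (dat []) (dat (X.map bit)) (dat (Y.map bit)) a 0 0)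
    (S6 A (dat []) (zt [Sym.org] (X.map bit)) (dat (Y.map bit)) a 0 0)
    (by intro a; fin_cases a; rfl) (by intro a; fin_cases a; rfl)
    (by intro c hc; fin_cases c <;> first | rfl | (exfalso; revert hc; decide))
    (Fin.cons (regT A A.start) (loaded A N X Y))
  refine RunsLE.mono (h1'.seq (h2.seq (h3'.seq h4))) ?_
  have hlen : ((others (kA := kA)).map fun _ => 1).sum ≤ kA := by
    simp only [List.map_const', List.sum_replicate, smul_eq_mul, mul_one]
    calc (others (kA := kA)).length ≤ (List.finRange kA).length := List.length_filter_le _ _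
      _ = kA := List.length_finRange
  omega

/-- Restoring the round counter and the clock. -/
theorem runsLE_mulRestore (E1 E3 fl reg : Tape (GB A)) (X : List Sym) (o sh : ℕ)
    (aT : Fin kA → Tape (GB A)) :
    RunsLE (mulRestore A)
      (LS A ![E1, ownT A (zt [Sym.org] X), E3, ownT A (cnt o), fl, ownT A (cnt sh)] reg aT)
      (2 * sh + 2)
      (LS A ![E1, ownT A (dat X), E3, ownT A (cnt (o + sh)), fl, ownT A (cnt 0)] reg aT) := by
  have h1 := runsLE_ownP A (q := kA + 1) (p := 6) (ι := ![5, 3]) (by decide)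
    (runsLE_moveCnt sh o)
    ![E1, ownT A (zt [Sym.org] X), E3, ownT A (cnt o), fl, ownT A (cnt sh)]
    ![E1, ownT A (zt [Sym.org] X), E3, ownT A (cnt (o + sh)), fl, ownT A (cnt 0)]
    (by intro a; fin_cases a <;> rfl) (by intro a; fin_cases a <;> rfl)
    (by intro c hc; fin_cases c <;> first | rfl | (exfalso; revert hc; decide))
    (Fin.cons reg aT)
  have h2 := runsLE_ownP A (q := kA + 1) (p := 6) (ι := ![1]) (fun a b _ => Subsingleton.elim a b)
    (runsLE_mvL [] X Sym.org)
    ![E1, ownT A (zt [Sym.org] X), E3, ownT A (cnt (o + sh)), fl, ownT A (cnt 0)]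
    ![E1, ownT A (dat X), E3, ownT A (cnt (o + sh)), fl, ownT A (cnt 0)]
    (by intro a; fin_cases a; rfl) (by intro a; fin_cases a; rfl)
    (by intro c hc; fin_cases c <;> first | rfl | (exfalso; revert hc; decide))
    (Fin.cons reg aT)
  exact RunsLE.mono (h1.seq h2) (by omega)

/-- The tapes of `A` have visited prefixes of lengths `r i`. -/
def VisA (r : Fin kA → ℕ) (T : Fin kA → Tape (GB A)) : Prop :=
  ∀ i, ∃ (f : ℕ → A.Γ) (h : ℕ), T i = encTape A f (r i) h ∧ 1 ≤ r i ∧ h ≤ r i

theorem RepA.visA {c : Cfg A} {r : Fin kA → ℕ} {T : Fin kA → Tape (GB A)} (h : RepA A c r T) :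
    VisA A r T := fun i => ⟨_, _, (h i).1, (h i).2.1, (h i).2.2.1⟩

/-- Erasing the tapes of `A` and the register. -/
theorem runsLE_mulClean (S : Fin 6 → Tape (GB A)) (x : GB A) (r : Fin kA → ℕ)
    (T : Fin kA → Tape (GB A)) (h : VisA A r T) (R : ℕ) (hR : ∀ i, r i ≤ R) :
    RunsLE (mulClean A) (LS A S (tp [x] 0) T) (kA * (4 * R + 9) + 2)
      (LS A S (blankTape A) fun _ => blankTape A) := by
  have h1 := runsLE_forAll (cleanTape A) T (fun _ => blankTape A) (fun i => 4 * r i + 8) (by
    intro i
    obtain ⟨f, hd, e, h1, h2⟩ := h i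
    rw [e]
    exact runsLE_cleanTape A _ _ _ h1 h2)
  have h1' := runsLE_onA A h1 S (tp [x] 0)
  have h2 : RunsLE (prim fun _ : Fin 1 → GB A => ![(own A Sym.blank, Dir.stay)]) ![tp [x] 0] 1
      ![blankTape A] := by
    refine RunsLE.prim _ _ _ ?_
    have : (tp [x] 0 : Tape (GB A)).step (own A Sym.blank, Dir.stay) = blankTape A := by
      rw [tp_set _ _ _ _ (by simp)]
      exact tp_trailing ([] : List (GB A)) 0
    simp [this]
  have h2' := runsLE_onReg A h2 S (fun _ => blankTape A)
  refine RunsLE.mono (h1'.seq h2') ?_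
  have hs : ∑ i, (4 * r i + 8) ≤ ∑ _i : Fin kA, (4 * R + 8) :=
    Finset.sum_le_sum fun i _ => by have := hR i; omega
  simp only [Finset.sum_const, Finset.card_univ, Fintype.card_fin, smul_eq_mul] at hs
  have e : kA * (4 * R + 9) = kA * (4 * R + 8) + kA := by ring
  omega

/-- Copying the result. -/
theorem runsLE_mulOut_true (N P : ℕ) (X : List Sym) (hX : X.length = N) (hd : IsData X)
    (E3 o sh : Tape (GB A)) (c : Cfg A) (r : Fin kA → ℕ) (T : Fin kA → Tape (GB A))
    (h : RepA A c r T)
    (hf : ∀ j, j < 2 * N → c.tape A.out j = A.sym (some (P.testBit (2 * N - 1 - j)))) :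
    ∃ T', VisA A r T' ∧ RunsLE (mulOut A)
      (LS A ![ownT A (dat []), ownT A (dat X), E3, o, ownT A (cnt 0), sh] (haltT A) T)
      (20 * N + 2 * r A.out + 22)
      (LS A ![ownT A (dat ((bitsLE N P).map bit)), ownT A (dat X), E3, o, ownT A (cnt 1), sh]
        (haltT A) T') := by
  obtain ⟨e, h1, h2, h3⟩ := h A.out
  obtain ⟨h', hh', hr⟩ := runsLE_unloadFrag A N P X hX hd (c.tape A.out) (r A.out) (c.head A.out)
    h1 h2 h3 hf
  refine ⟨Function.update T A.out (encTape A (c.tape A.out) (r A.out) h'), ?_, ?_⟩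
  · intro i
    by_cases hi : i = A.out
    · subst hi
      exact ⟨c.tape A.out, h', by simp, h1, hh'⟩
    · rw [Function.update_of_ne hi]
      exact h.visA A i
  have g1 := runsLE_mix3 A (j1 := 0) (j2 := 1) (by decide) A.out hr
    ![ownT A (dat []), ownT A (dat X), E3, o, ownT A (cnt 0), sh] (haltT A) T rfl rfl e
  have eS : Function.update (Function.update
      ![ownT A (dat []), ownT A (dat X), E3, o, ownT A (cnt 0), sh] 0
      (ownT A (zt [] (Sym.org :: (bitsLE N P).map bit)))) 1 (ownT A (zt [] (Sym.org :: X)))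
      = ![ownT A (dat ((bitsLE N P).map bit)), ownT A (dat X), E3, o, ownT A (cnt 0), sh] := by
    funext j
    fin_cases j <;> rfl
  rw [eS] at g1
  have g2 := runsLE_ownP A (q := kA + 1) (p := 6) (ι := ![4]) (fun a b _ => Subsingleton.elim a b)
    (runsLE_mvR_cnt 0)
    ![ownT A (dat ((bitsLE N P).map bit)), ownT A (dat X), E3, o, ownT A (cnt 0), sh]
    ![ownT A (dat ((bitsLE N P).map bit)), ownT A (dat X), E3, o, ownT A (cnt 1), sh]
    (by intro a; fin_cases a; rfl) (by intro a; fin_cases a; rfl)
    (by intro c hc; fin_cases c <;> first | rfl | (exfalso; revert hc; decide))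
    (Fin.cons (haltT A) (Function.update T A.out (encTape A (c.tape A.out) (r A.out) h')))
  refine RunsLE.mono (RunsLE.ite_true ?_ (g1.seq g2)) (by omega)
  rw [reads_LS_reg]
  rfl

/-- Nothing to copy. -/
theorem runsLE_mulOut_false (S : Fin 6 → Tape (GB A)) (q : A.Q) (T : Fin kA → Tape (GB A)) :
    RunsLE (mulOut A) (LS A S (regT A q) T) 2 (LS A S (regT A q) T) := by
  refine RunsLE.ite_false ?_ (RunsLE.prim _ _ _ (acts_noop _))
  rw [reads_LS_reg]
  rfl

theorem isData_map_bit (X : List Bool) : IsData (X.map bit) := by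
  intro x hx
  obtain ⟨b, _, rfl⟩ := List.mem_map.1 hx
  cases b <;> exact ⟨by decide, by decide⟩

/-- The capped multiplication on the local layout. -/
theorem runsLE_mulLocal (hA : Multiplies A) (N : ℕ) (hN : 1 ≤ N) (X Y : List Bool)
    (hX : X.length = N) (hY : Y.length = N) (a : ℕ) :
    RunsLE (mulLocal A)
      (LS A (S6 A (dat []) (dat (X.map bit)) (dat (Y.map bit)) a 0 0) (blankTape A)
        (fun _ => blankTape A))
      (108 * (kA + 1) * (min (worstTime A N) (a * N) + N))
      (LS A (S6 A (dat ((multL X Y).map bit)) (dat (X.map bit)) (dat (Y.map bit)) a 1 0) (blankTape A)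
        (fun _ => blankTape A)) ∨
    (a * N ≤ worstTime A N ∧ RunsLE (mulLocal A)
      (LS A (S6 A (dat []) (dat (X.map bit)) (dat (Y.map bit)) a 0 0) (blankTape A)
        (fun _ => blankTape A))
      (108 * (kA + 1) * (a * N + N))
      (LS A (S6 A (dat []) (dat (X.map bit)) (dat (Y.map bit)) a 0 0) (blankTape A)
        (fun _ => blankTape A))) := by
  obtain ⟨t, c', hh, hout⟩ := hA N hN (revW N X) (revW N Y)
  have ht : t ≤ worstTime A N := by
    rw [← haltTime_eq A _ t c' hh]
    exact haltTime_le_worstTime A N _ _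
  have hpre := runsLE_mul_pre A N X Y hX hY a
  have hlen : (X.map bit).length = N := by simp [hX]
  have hsim := runsLE_simOuter A (X.map bit) (isData_map_bit X) (by omega) a 0 t _ c' _ _
    (repA_loaded A N X Y) hh
  rw [hlen] at hsim
  have hr0 : ∀ i : Fin kA, (if i.val = 0 then 2 * N + 1 else 1) ≤ 2 * N + 1 := by
    intro i
    split_ifs <;> omega
  rcases Nat.lt_or_ge t (a * N) with hlt | hge
  · left
    obtain ⟨o', sh', T', r', hrun, ho, hsh, hrep, hr⟩ := hsim.1 hlt
    have hrun' := runsLE_simL A hrun (ownT A (dat [])) (ownT A (dat (Y.map bit))) (ownT A (cnt 0))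
    have hres := runsLE_mulRestore A (ownT A (dat [])) (ownT A (dat (Y.map bit))) (ownT A (cnt 0))
      (haltT A) (X.map bit) o' sh' T'
    rw [val_revW N X hX, val_revW N Y hY] at hout
    obtain ⟨T'', hvis, hO⟩ := runsLE_mulOut_true A N (valLE X * valLE Y) (X.map bit) hlen
      (isData_map_bit X) (ownT A (dat (Y.map bit))) (ownT A (cnt (o' + sh'))) (ownT A (cnt 0))
      c' r' T' hrep hout
    have hcl := runsLE_mulClean A
      ![ownT A (dat ((bitsLE N (valLE X * valLE Y)).map bit)), ownT A (dat (X.map bit)),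
        ownT A (dat (Y.map bit)), ownT A (cnt (o' + sh')), ownT A (cnt 1), ownT A (cnt 0)]
      (own A Sym.one) r' T'' hvis (2 * N + 1 + t) (fun i => by
        have := hr i
        have := hr0 i
        omega)
    have hall := hpre.seq (hrun'.seq (hres.seq (hO.seq hcl)))
    have e1 : o' + sh' = a := by omega
    rw [e1] at hall
    have e2 : multL X Y = bitsLE N (valLE X * valLE Y) := by rw [multL, hX]
    rw [e2]
    refine RunsLE.mono hall ?_
    have hro := hr A.out
    have hro0 := hr0 A.out
    have hmin : t ≤ min (worstTime A N) (a * N) := le_min ht hlt.le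
    generalize min (worstTime A N) (a * N) = μ at hmin
    have e3 : 108 * (kA + 1) * (μ + N) = 108 * (kA * μ) + 108 * (kA * N) + 108 * μ + 108 * N := by ring
    have e4 : kA * (4 * (2 * N + 1 + t) + 9) = 8 * (kA * N) + 4 * (kA * t) + 13 * kA := by ring
    have h5 : kA * t ≤ kA * μ := Nat.mul_le_mul_left _ hmin
    have h6 : kA ≤ kA * N := Nat.le_mul_of_pos_right _ hN
    omega
  · right
    refine ⟨hge.trans ht, ?_⟩
    obtain ⟨c'', T', r', hrun, hrep, hr⟩ := hsim.2 hge
    have hrun' := runsLE_simL A hrun (ownT A (dat [])) (ownT A (dat (Y.map bit))) (ownT A (cnt 0))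
    have hres := runsLE_mulRestore A (ownT A (dat [])) (ownT A (dat (Y.map bit))) (ownT A (cnt 0))
      (regT A c''.q) (X.map bit) 0 (a + 0) T'
    have hO := runsLE_mulOut_false A
      ![ownT A (dat []), ownT A (dat (X.map bit)), ownT A (dat (Y.map bit)), ownT A (cnt (0 + (a + 0))),
        ownT A (cnt 0), ownT A (cnt 0)] c''.q T'
    have hcl := runsLE_mulClean A
      ![ownT A (dat []), ownT A (dat (X.map bit)), ownT A (dat (Y.map bit)), ownT A (cnt (0 + (a + 0))),
        ownT A (cnt 0), ownT A (cnt 0)]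
      (qcell A c''.q) r' T' (hrep.visA A) (2 * N + 1 + a * N) (fun i => by
        have := hr i
        have := hr0 i
        omega)
    have hall := hpre.seq (hrun'.seq (hres.seq (hO.seq hcl)))
    have e1 : 0 + (a + 0) = a := by omega
    rw [e1] at hall
    refine RunsLE.mono hall ?_
    have e3 : 108 * (kA + 1) * (a * N + N)
        = 108 * (kA * (a * N)) + 108 * (kA * N) + 108 * (a * N) + 108 * N := by ring
    have e4 : kA * (4 * (2 * N + 1 + a * N) + 9) = 8 * (kA * N) + 4 * (kA * (a * N)) + 13 * kA := by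
      ring
    have h6 : kA ≤ kA * N := Nat.le_mul_of_pos_right _ hN
    have h7 : a ≤ a * N := Nat.le_mul_of_pos_right _ hN
    omega

/-- The capped multiplication in the world of `A`. -/
noncomputable def mulFrag : Frag (worldOf A).Γ (worldOf A).K :=
  liftLeft (q := kA + 1) (P := nOwn) ![3, 4, 5, 7, 15, 21] (mulLocal A)

theorem cons_blank : (Fin.cons (blankTape A) fun _ : Fin kA => blankTape A : Fin (kA + 1) → Tape (GB A))
    = fun _ => blankTape A := by
  funext i
  refine Fin.cases rfl (fun _ => rfl) i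

theorem vec_frame (σ : OS) (l : List Sym) (f : ℕ) (c : Fin nOwn) (h3 : c ≠ 3) (h15 : c ≠ 15) :
    ({ σ with E1 := l, flag := f } : OS).vec c = σ.vec c := by
  have h3' : c.val ≠ 3 := fun e => h3 (Fin.ext e)
  have h15' : c.val ≠ 15 := fun e => h15 (Fin.ext e)
  unfold OS.vec
  split <;> first | rfl | omega

theorem mulSpec_worldOf (hA : Multiplies A) :
    MulSpec (worldOf A) (mulFrag A) (worstTime A) (108 * (kA + 1)) := by
  intro σ X Y h2 h3 h1 hf hY hX
  have hι : Function.Injective (![3, 4, 5, 7, 15, 21] : Fin 6 → Fin nOwn) := by decide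
  have start : ∀ a : Fin 6, (fun j => ownT A (σ.vec j)) ((![3, 4, 5, 7, 15, 21] : Fin 6 → Fin nOwn) a)
      = S6 A (dat []) (dat (X.map bit)) (dat (Y.map bit)) σ.a 0 0 a := by
    intro a
    fin_cases a <;> simp [S6, h1, h2, h3, hf]
  rcases runsLE_mulLocal A hA X.length hX X Y rfl hY σ.a with h | ⟨hle, h⟩
  · left
    unfold LS at h
    rw [cons_blank] at h
    refine RunsLE.liftLeft hι h (fun j => ownT A (σ.vec j))
      (fun j => ownT A (({ σ with E1 := (multL X Y).map bit, flag := 1 } : OS).vec j)) start ?_ ?_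
    · intro a
      fin_cases a <;> simp [S6, h2, h3]
    · intro c hc
      show ownT A _ = ownT A _
      rw [vec_frame σ _ _ c (fun e => hc 0 e.symm) (fun e => hc 4 e.symm)]
  · right
    refine ⟨hle, ?_⟩
    unfold LS at h
    rw [cons_blank] at h
    exact RunsLE.liftLeft hι h (fun j => ownT A (σ.vec j)) (fun j => ownT A (σ.vec j)) start start
      (fun _ _ => rfl)

end Vale.Agent.P338
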