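import Vale.Agent.P338.TM.Cyc

/-!
TASK T6: the pass `kernelPass` writing the kernel operand `kernelL`.
The input tape is only a ruler: every output symbol consumes one input symbol.
-/

namespace Vale.Agent.P338

/-! ### Arithmetic of the exponent schedule -/

theorem negmod_unique (M u a : ℕ) (hu : u < M) (h : (u + a) % M = 0) : u = (M - a % M) % M := by
  have hM : 0 < M := by omega
  have h1 : (u + a % M) % M = 0 := by rw [Nat.add_mod_mod]; exact h
  have h2 : a % M < M := Nat.mod_lt _ hM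
  rcases Nat.eq_zero_or_pos (a % M) with h0 | h0
  · rw [h0] at h1 ⊢
    rw [Nat.add_zero, Nat.mod_eq_of_lt hu] at h1
    simp [h1]
  · rw [Nat.mod_eq_of_lt (by omega)]
    have h3 : u + a % M < 2 * M := by omega
    have h4 : M ∣ u + a % M := Nat.dvd_of_mod_eq_zero h1
    obtain ⟨c, hc⟩ := h4
    have : c = 1 := by
      rcases c with _ | _ | c
      · omega
      · rfl
      · exfalso
        have : M * (c + 1 + 1) ≥ 2 * M := by nlinarith
        omega
    subst this
    omega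

theorem negmod_add (M a : ℕ) (hM : 0 < M) : ((M - a % M) % M + a) % M = 0 := by
  have h2 : a % M < M := Nat.mod_lt _ hM
  rw [Nat.mod_add_mod]
  have : (M - a % M + a) % M = (M - a % M + a % M) % M := by rw [Nat.add_mod_mod]
  rw [this, Nat.sub_add_cancel h2.le, Nat.mod_self]

theorem epsK_lt (n j : ℕ) (hn : 0 < n) : epsK n j < 2 * n := Nat.mod_lt _ (by omega)

theorem epsK_succ (n j : ℕ) (hn : 0 < n) :
    epsK n (j + 1) = (epsK n j + (2 * n - (2 * j + 3) % (2 * n))) % (2 * n) := by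
  have hM : 0 < 2 * n := by omega
  symm
  unfold epsK
  apply negmod_unique _ _ _ (Nat.mod_lt _ hM)
  generalize 2 * n = M at hM
  have e : (j + 1 + 1) * (j + 1 + 1) = (j + 1) * (j + 1) + (2 * j + 3) := by ring
  rw [e, Nat.mod_add_mod]
  have h1 := negmod_add M ((j + 1) * (j + 1)) hM
  have h3 : (2 * j + 3) % M < M := Nat.mod_lt _ hM
  have h2 : (M - (2 * j + 3) % M + (2 * j + 3)) % M = 0 := by
    have : (M - (2 * j + 3) % M + (2 * j + 3)) % M = (M - (2 * j + 3) % M + (2 * j + 3) % M) % M := by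
      rw [Nat.add_mod_mod]
    rw [this, Nat.sub_add_cancel h3.le, Nat.mod_self]
  have e2 : (M - (j + 1) * (j + 1) % M) % M + (M - (2 * j + 3) % M) + ((j + 1) * (j + 1) + (2 * j + 3))
      = ((M - (j + 1) * (j + 1) % M) % M + (j + 1) * (j + 1)) + (M - (2 * j + 3) % M + (2 * j + 3)) := by
    ring
  rw [e2, Nat.add_mod, h1, h2]
  simp

theorem epsK_zero (n : ℕ) (hn : 2 ≤ n) : epsK n 0 = 2 * n - 1 := by
  unfold epsK
  have : (0 + 1) * (0 + 1) % (2 * n) = 1 := by
    rw [Nat.mod_eq_of_lt]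
    omega
  rw [this, Nat.mod_eq_of_lt]
  omega

theorem krow_len (n g x : ℕ) (hn : 0 < n) (hg : 0 < g) (hx : x < 2 * n) :
    x * g + (1 + ((g - 1) + ((2 * n - x - 1) * g + (6 * n - 1) * (2 * n * g)))) = n * (12 * g * n) := by
  obtain ⟨y, hy⟩ : ∃ y, 2 * n = x + 1 + y := ⟨2 * n - x - 1, by omega⟩
  obtain ⟨c, hc⟩ : ∃ c, 6 * n = c + 1 := ⟨6 * n - 1, by omega⟩
  have e1 : 2 * n - x - 1 = y := by omega
  have e2 : 6 * n - 1 = c := by omega
  have e3 : 1 + (g - 1) = g := by omega
  rw [e1, e2, ← Nat.add_assoc 1, e3]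
  have : n * (12 * g * n) = (6 * n) * ((2 * n) * g) := by ring
  rw [this, hc]
  have : x * g + (g + (y * g + c * (2 * n * g))) = (x + 1 + y) * g + c * (2 * n * g) := by ring
  rw [this, ← hy]
  ring

namespace Frag
open Matrix

variable {k K : ℕ}

/-! ### Ruler streams: only the length of the consumed block matters -/

/-- `F` consumes any block of length `N`, produces `d`. -/
def RS (F : Frag Sym (k + 2)) (N : ℕ) (d : List Sym) (aux aux' : Fin k → Tape Sym) (τ : ℕ) : Prop :=
  ∀ A : List Sym, A.length = N → Stream F A d aux aux' τ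

theorem RS.mono {F : Frag Sym (k + 2)} {N : ℕ} {d : List Sym} {aux aux' : Fin k → Tape Sym}
    {τ τ' : ℕ} (h : RS F N d aux aux' τ) (hτ : τ ≤ τ') : RS F N d aux aux' τ' :=
  fun A hA => (h A hA).mono hτ

theorem RS.seq {F G : Frag Sym (k + 2)} {N N' : ℕ} {d d' : List Sym}
    {aux aux' aux'' : Fin k → Tape Sym} {τ τ' : ℕ} (h : RS F N d aux aux' τ)
    (h' : RS G N' d' aux' aux'' τ') :
    RS (Frag.seq F G) (N + N') (d ++ d') aux aux'' (τ + τ') := by
  intro A hA
  have h1 := h (A.take N) (by rw [List.length_take, hA]; omega)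
  have h2 := h' (A.drop N) (by rw [List.length_drop, hA]; omega)
  have := h1.seq h2
  rwa [List.take_append_drop] at this

theorem RS.lift {ι : Fin k → Fin K} (hι : Function.Injective ι) {F : Frag Sym (k + 2)}
    {N : ℕ} {d : List Sym} {aux aux' : Fin k → Tape Sym} {τ : ℕ} (h : RS F N d aux aux' τ)
    (AUX AUX' : Fin K → Tape Sym) (h0 : ∀ a, AUX (ι a) = aux a) (h1 : ∀ a, AUX' (ι a) = aux' a)
    (h2 : ∀ b, (∀ a, ι a ≠ b) → AUX' b = AUX b) : RS (liftS ι F) N d AUX AUX' τ :=
  fun A hA => (h A hA).lift hι AUX AUX' h0 h1 h2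

theorem RS.onAuxAt {ι : Fin k → Fin K} (hι : Function.Injective ι) {G : Frag Sym k}
    {aux aux' : Fin k → Tape Sym} {τ : ℕ} (h : RunsLE G aux τ aux') (AUX AUX' : Fin K → Tape Sym)
    (h0 : ∀ a, AUX (ι a) = aux a) (h1 : ∀ a, AUX' (ι a) = aux' a)
    (h2 : ∀ b, (∀ a, ι a ≠ b) → AUX' b = AUX b) : RS (Frag.onAuxAt ι G) 0 [] AUX AUX' τ := by
  intro A hA
  rw [List.length_eq_zero_iff.1 hA]
  exact Stream.onAuxAt hι h AUX AUX' h0 h1 h2

/-- Repeating a producer of `N` copies of `z`. -/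
theorem RS.repZ {body : Frag Sym (k + 2)} {N : ℕ} {z : Sym} {aux : Fin k → Tape Sym} {τ : ℕ}
    (h : RS body N (List.replicate N z) aux aux τ) (v : ℕ) :
    RS (repS body) (v * N) (List.replicate (v * N) z) (vecCons (cnt v) (vecCons (cnt 0) aux))
      (vecCons (cnt v) (vecCons (cnt 0) aux)) (v * (τ + 4) + 2) := by
  intro A hA
  have := Stream.rep (body := body) v (chunk N A) (fun _ => List.replicate N z) (fun _ => aux) τ
    (fun j hj => h _ (length_chunk_of_lt v N A hA j hj))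
  rwa [cat_chunk v N A hA, cat_replicate] at this

/-- Consume one symbol, output `x`. -/
def sub1 (x : Sym) : Frag Sym 2 := prim fun s => ![(s 0, Dir.right), (x, Dir.right)]

theorem rs_sub1 (x : Sym) : RS (sub1 x) 1 [x] ![] ![] 1 := by
  intro A hA
  obtain ⟨y, rfl⟩ := List.length_eq_one_iff.1 hA
  intro L R O
  exact RunsLE.prim _ _ _ (by simp)

theorem rs_zN (z : Sym) (v : ℕ) :
    RS (repS (sub1 z)) v (List.replicate v z) ![cnt v, cnt 0] ![cnt v, cnt 0] (v * 5 + 2) := by
  have := RS.repZ (body := sub1 z) (N := 1) (z := z) (aux := ![]) (τ := 1) (rs_sub1 z) v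
  simpa using this

theorem rs_zNM (z : Sym) (v g : ℕ) :
    RS (repS (repS (sub1 z))) (v * g) (List.replicate (v * g) z) ![cnt v, cnt 0, cnt g, cnt 0]
      ![cnt v, cnt 0, cnt g, cnt 0] (v * (g * 5 + 6) + 2) :=
  RS.repZ (rs_zN z g) v

theorem rs_zNMM (z : Sym) (c v g : ℕ) :
    RS (repS (repS (repS (sub1 z)))) (c * (v * g)) (List.replicate (c * (v * g)) z)
      ![cnt c, cnt 0, cnt v, cnt 0, cnt g, cnt 0] ![cnt c, cnt 0, cnt v, cnt 0, cnt g, cnt 0]
      (c * (v * (g * 5 + 6) + 6) + 2) :=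
  RS.repZ (rs_zNM z v g) c

/-! ### The rows -/

/-- The auxiliary tapes: `n g M c0 rw x xh D Dh` and three shadows. -/
def kst (n g M c0 rw x xh D Dh : ℕ) : Fin 12 → Tape Sym :=
  ![cnt n, cnt g, cnt M, cnt c0, cnt rw, cnt x, cnt xh, cnt D, cnt Dh, cnt 0, cnt 0, cnt 0]

/-- A row containing a one, followed by the update of the counters. -/
noncomputable def kRow : Frag Sym 14 :=
  seq (liftS (K := 12) ![5, 9, 1, 10] (repS (repS (sub1 Sym.b0))))
  (seq (liftS (k := 0) (K := 12) ![] (sub1 Sym.b1))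
  (seq (onAuxAt (K := 12) ![1] mvL)
  (seq (liftS (K := 12) ![1, 9] (repS (sub1 Sym.b0)))
  (seq (onAuxAt (K := 12) ![1] mvR)
  (seq (onAuxAt (K := 12) ![6] mvL)
  (seq (liftS (K := 12) ![6, 9, 1, 10] (repS (repS (sub1 Sym.b0))))
  (seq (onAuxAt (K := 12) ![6] mvR)
  (seq (onAuxAt (K := 12) ![3] mvL)
  (seq (liftS (K := 12) ![3, 9, 2, 10, 1, 11] (repS (repS (repS (sub1 Sym.b0)))))
  (seq (onAuxAt (K := 12) ![3] mvR)
  (seq (onAuxAt (K := 12) ![8, 9, 5, 6] (rep incCyc))
  (seq (onAuxAt (K := 12) ![7, 8] incCyc)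
  (seq (onAuxAt (K := 12) ![7, 8] incCyc)
    (onAuxAt (K := 12) ![4] mvL))))))))))))))

section steps
variable (n g M c0 rw x xh D Dh : ℕ)

theorem kstep_x : RS (liftS (K := 12) ![5, 9, 1, 10] (repS (repS (sub1 Sym.b0)))) (x * g)
    (List.replicate (x * g) Sym.b0) (kst n g M c0 rw x xh D Dh)
    (kst n g M c0 rw x xh D Dh) (x * (g * 5 + 6) + 2) :=
  (rs_zNM Sym.b0 x g).lift (by decide) _ _ (by intro a; fin_cases a <;> simp [kst])
    (by intro a; fin_cases a <;> simp [kst]) (fun _ _ => rfl)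

theorem kstep_one : RS (liftS (k := 0) (K := 12) ![] (sub1 Sym.b1)) 1 [Sym.b1]
    (kst n g M c0 rw x xh D Dh) (kst n g M c0 rw x xh D Dh) 1 :=
  (rs_sub1 Sym.b1).lift (fun a => a.elim0) _ _ (fun a => a.elim0) (fun a => a.elim0)
    (fun _ _ => rfl)

theorem kstep_gL : RS (onAuxAt (K := 12) ![1] mvL) 0 [] (kst n g M c0 rw x xh D Dh)
    (kst n (g - 1) M c0 rw x xh D Dh) 1 :=
  RS.onAuxAt (by decide) (runsLE_mvL_cnt g) _ _ (by intro a; fin_cases a <;> simp [kst])
    (by intro a; fin_cases a <;> simp [kst])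
    (by intro b hb; fin_cases b <;> first | (simp [kst]; done) | (exfalso; revert hb; simp [Fin.forall_fin_succ]))

theorem kstep_g : RS (liftS (K := 12) ![1, 9] (repS (sub1 Sym.b0))) g
    (List.replicate g Sym.b0) (kst n g M c0 rw x xh D Dh)
    (kst n g M c0 rw x xh D Dh) (g * 5 + 2) :=
  (rs_zN Sym.b0 g).lift (by decide) _ _ (by intro a; fin_cases a <;> simp [kst])
    (by intro a; fin_cases a <;> simp [kst]) (fun _ _ => rfl)

theorem kstep_gR : RS (onAuxAt (K := 12) ![1] mvR) 0 [] (kst n g M c0 rw x xh D Dh)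
    (kst n (g + 1) M c0 rw x xh D Dh) 1 :=
  RS.onAuxAt (by decide) (runsLE_mvR_cnt g) _ _ (by intro a; fin_cases a <;> simp [kst])
    (by intro a; fin_cases a <;> simp [kst])
    (by intro b hb; fin_cases b <;> first | (simp [kst]; done) | (exfalso; revert hb; simp [Fin.forall_fin_succ]))

theorem kstep_xhL : RS (onAuxAt (K := 12) ![6] mvL) 0 [] (kst n g M c0 rw x xh D Dh)
    (kst n g M c0 rw x (xh - 1) D Dh) 1 :=
  RS.onAuxAt (by decide) (runsLE_mvL_cnt xh) _ _ (by intro a; fin_cases a <;> simp [kst])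
    (by intro a; fin_cases a <;> simp [kst])
    (by intro b hb; fin_cases b <;> first | (simp [kst]; done) | (exfalso; revert hb; simp [Fin.forall_fin_succ]))

theorem kstep_xh : RS (liftS (K := 12) ![6, 9, 1, 10] (repS (repS (sub1 Sym.b0)))) (xh * g)
    (List.replicate (xh * g) Sym.b0) (kst n g M c0 rw x xh D Dh)
    (kst n g M c0 rw x xh D Dh) (xh * (g * 5 + 6) + 2) :=
  (rs_zNM Sym.b0 xh g).lift (by decide) _ _ (by intro a; fin_cases a <;> simp [kst])
    (by intro a; fin_cases a <;> simp [kst]) (fun _ _ => rfl)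

theorem kstep_xhR : RS (onAuxAt (K := 12) ![6] mvR) 0 [] (kst n g M c0 rw x xh D Dh)
    (kst n g M c0 rw x (xh + 1) D Dh) 1 :=
  RS.onAuxAt (by decide) (runsLE_mvR_cnt xh) _ _ (by intro a; fin_cases a <;> simp [kst])
    (by intro a; fin_cases a <;> simp [kst])
    (by intro b hb; fin_cases b <;> first | (simp [kst]; done) | (exfalso; revert hb; simp [Fin.forall_fin_succ]))

theorem kstep_cL : RS (onAuxAt (K := 12) ![3] mvL) 0 [] (kst n g M c0 rw x xh D Dh)
    (kst n g M (c0 - 1) rw x xh D Dh) 1 :=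
  RS.onAuxAt (by decide) (runsLE_mvL_cnt c0) _ _ (by intro a; fin_cases a <;> simp [kst])
    (by intro a; fin_cases a <;> simp [kst])
    (by intro b hb; fin_cases b <;> first | (simp [kst]; done) | (exfalso; revert hb; simp [Fin.forall_fin_succ]))

theorem kstep_c : RS (liftS (K := 12) ![3, 9, 2, 10, 1, 11] (repS (repS (repS (sub1 Sym.b0)))))
    (c0 * (M * g)) (List.replicate (c0 * (M * g)) Sym.b0)
    (kst n g M c0 rw x xh D Dh) (kst n g M c0 rw x xh D Dh)
    (c0 * (M * (g * 5 + 6) + 6) + 2) :=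
  (rs_zNMM Sym.b0 c0 M g).lift (by decide) _ _ (by intro a; fin_cases a <;> simp [kst])
    (by intro a; fin_cases a <;> simp [kst]) (fun _ _ => rfl)

theorem kstep_cR : RS (onAuxAt (K := 12) ![3] mvR) 0 [] (kst n g M c0 rw x xh D Dh)
    (kst n g M (c0 + 1) rw x xh D Dh) 1 :=
  RS.onAuxAt (by decide) (runsLE_mvR_cnt c0) _ _ (by intro a; fin_cases a <;> simp [kst])
    (by intro a; fin_cases a <;> simp [kst])
    (by intro b hb; fin_cases b <;> first | (simp [kst]; done) | (exfalso; revert hb; simp [Fin.forall_fin_succ]))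

theorem kstep_add (hx : x < M) : RS (onAuxAt (K := 12) ![8, 9, 5, 6] (rep incCyc)) 0 []
    (kst n g M c0 rw x (M - x) D Dh)
    (kst n g M c0 rw ((x + Dh) % M) (M - (x + Dh) % M) D Dh) (2 * x + 12 * Dh + 2) :=
  RS.onAuxAt (by decide) (runsLE_addCyc M x Dh hx) _ _ (by intro a; fin_cases a <;> simp [kst])
    (by intro a; fin_cases a <;> simp [kst])
    (by intro b hb; fin_cases b <;> first | (simp [kst]; done) | (exfalso; revert hb; simp [Fin.forall_fin_succ]))

theorem kstep_inc (hD : D < M) : RS (onAuxAt (K := 12) ![7, 8] incCyc) 0 []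
    (kst n g M c0 rw x xh D (M - D))
    (kst n g M c0 rw x xh ((D + 1) % M) (M - (D + 1) % M)) (2 * M + 8) :=
  RS.onAuxAt (by decide) ((runsLE_incCyc M D hD).mono (by omega)) _ _ (by intro a; fin_cases a <;> simp [kst])
    (by intro a; fin_cases a <;> simp [kst])
    (by intro b hb; fin_cases b <;> first | (simp [kst]; done) | (exfalso; revert hb; simp [Fin.forall_fin_succ]))

theorem kstep_rwL : RS (onAuxAt (K := 12) ![4] mvL) 0 [] (kst n g M c0 rw x xh D Dh)
    (kst n g M c0 (rw - 1) x xh D Dh) 1 :=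
  RS.onAuxAt (by decide) (runsLE_mvL_cnt rw) _ _ (by intro a; fin_cases a <;> simp [kst])
    (by intro a; fin_cases a <;> simp [kst])
    (by intro b hb; fin_cases b <;> first | (simp [kst]; done) | (exfalso; revert hb; simp [Fin.forall_fin_succ]))

end steps

theorem rs_kRow (n g M c0 rw x D : ℕ) (hx : x < M) (hD : D < M) (hg : 0 < g) (hc0 : 0 < c0) :
    RS kRow (x * g + (1 + ((g - 1) + ((M - x - 1) * g + (c0 - 1) * (M * g)))))
      (List.replicate (x * g) Sym.b0 ++ ([Sym.b1] ++ (List.replicate (g - 1) Sym.b0 ++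
        (List.replicate ((M - x - 1) * g) Sym.b0 ++ List.replicate ((c0 - 1) * (M * g)) Sym.b0))))
      (kst n g M c0 rw x (M - x) D (M - D))
      (kst n g M c0 (rw - 1) ((x + (M - D)) % M) (M - (x + (M - D)) % M) ((D + 2) % M)
        (M - (D + 2) % M))
      ((x * (g * 5 + 6) + 2) + (1 + (1 + (((g - 1) * 5 + 2) + (1 + (1 + (((M - x - 1) * (g * 5 + 6) + 2)
        + (1 + (1 + (((c0 - 1) * (M * (g * 5 + 6) + 6) + 2) + (1 + ((2 * x + 12 * (M - D) + 2)
        + ((2 * M + 8) + ((2 * M + 8) + 1)))))))))))))) := by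
  have hM : 0 < M := by omega
  have t1 := kstep_x n g M c0 rw x (M - x) D (M - D)
  have t2 := kstep_one n g M c0 rw x (M - x) D (M - D)
  have t3 := kstep_gL n g M c0 rw x (M - x) D (M - D)
  have t4 := kstep_g n (g - 1) M c0 rw x (M - x) D (M - D)
  have t5 := kstep_gR n (g - 1) M c0 rw x (M - x) D (M - D)
  rw [Nat.sub_add_cancel hg] at t5
  have t6 := kstep_xhL n g M c0 rw x (M - x) D (M - D)
  have t7 := kstep_xh n g M c0 rw x (M - x - 1) D (M - D)
  have t8 := kstep_xhR n g M c0 rw x (M - x - 1) D (M - D)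
  rw [Nat.sub_add_cancel (by omega)] at t8
  have t9 := kstep_cL n g M c0 rw x (M - x) D (M - D)
  have t10 := kstep_c n g M (c0 - 1) rw x (M - x) D (M - D)
  have t11 := kstep_cR n g M (c0 - 1) rw x (M - x) D (M - D)
  rw [Nat.sub_add_cancel hc0] at t11
  have t12 := kstep_add n g M c0 rw x D (M - D) hx
  have t13 := kstep_inc n g M c0 rw ((x + (M - D)) % M) (M - (x + (M - D)) % M) D hD
  have t14 := kstep_inc n g M c0 rw ((x + (M - D)) % M) (M - (x + (M - D)) % M) ((D + 1) % M)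
    (Nat.mod_lt _ hM)
  have e : ((D + 1) % M + 1) % M = (D + 2) % M := by rw [Nat.mod_add_mod]
  rw [e] at t14
  have t15 := kstep_rwL n g M c0 rw ((x + (M - D)) % M) (M - (x + (M - D)) % M) ((D + 2) % M)
    (M - (D + 2) % M)
  have := t1.seq (t2.seq (t3.seq (t4.seq (t5.seq (t6.seq (t7.seq (t8.seq (t9.seq (t10.seq
    (t11.seq (t12.seq (t13.seq (t14.seq t15)))))))))))))
  simp only [Nat.zero_add, Nat.add_zero, List.nil_append, List.append_nil] at this
  exact this

/-- The state of the auxiliary tapes before row `j`. -/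
def kstJ (n g j rw : ℕ) : Fin 12 → Tape Sym :=
  kst n g (2 * n) (6 * n) rw (epsK n j) (2 * n - epsK n j) ((2 * j + 3) % (2 * n))
    (2 * n - (2 * j + 3) % (2 * n))

/-- Row `j` of the kernel. -/
def krow (n g j : ℕ) : List Sym :=
  List.replicate (g * epsK n j) Sym.b0 ++ [Sym.b1] ++
    List.replicate (12 * g * n - 1 - g * epsK n j) Sym.b0 ++
    List.replicate ((n - 1) * (12 * g * n)) Sym.b0

theorem krow_eq (n g x : ℕ) (hn : 0 < n) (hg : 0 < g) (hx : x < 2 * n) :
    List.replicate (x * g) Sym.b0 ++ ([Sym.b1] ++ (List.replicate (g - 1) Sym.b0 ++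
      (List.replicate ((2 * n - x - 1) * g) Sym.b0 ++
        List.replicate ((6 * n - 1) * (2 * n * g)) Sym.b0)))
    = List.replicate (g * x) Sym.b0 ++ [Sym.b1] ++
      List.replicate (12 * g * n - 1 - g * x) Sym.b0 ++
      List.replicate ((n - 1) * (12 * g * n)) Sym.b0 := by
  have h1 := krow_len n g x hn hg hx
  have h2 : x * g + 1 ≤ 12 * g * n := by
    have : x * g + g ≤ 2 * n * g := by
      have : (x + 1) * g ≤ 2 * n * g := Nat.mul_le_mul_right _ hx
      linarith
    nlinarith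
  have h3 : n * (12 * g * n) = 12 * g * n + (n - 1) * (12 * g * n) := by
    obtain ⟨u, rfl⟩ : ∃ u, n = u + 1 := ⟨n - 1, by omega⟩
    simp only [Nat.add_sub_cancel]
    ring
  rw [List.replicate_append_replicate, List.replicate_append_replicate, List.append_assoc,
    List.append_assoc, List.replicate_append_replicate, Nat.mul_comm g x]
  congr 3
  generalize x * g = P at *
  generalize (2 * n - x - 1) * g = B at *
  generalize (6 * n - 1) * (2 * n * g) = Cc at *
  generalize (n - 1) * (12 * g * n) = Q at *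
  generalize n * (12 * g * n) = NS at *
  generalize 12 * g * n = S at *
  omega

theorem krow_time (n g x D : ℕ) (hn : 2 ≤ n) (hg : 0 < g) (hx : x < 2 * n) :
    ((x * (g * 5 + 6) + 2) + (1 + (1 + (((g - 1) * 5 + 2) + (1 + (1 +
      (((2 * n - x - 1) * (g * 5 + 6) + 2)
        + (1 + (1 + (((6 * n - 1) * (2 * n * (g * 5 + 6) + 6) + 2) + (1 +
        ((2 * x + 12 * (2 * n - D) + 2)
        + ((2 * (2 * n) + 8) + ((2 * (2 * n) + 8) + 1)))))))))))))) ≤ 20 * (n * (12 * g * n)) := by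
  have h1 := krow_len n g x (by omega) hg hx
  have a1 : x * (g * 5 + 6) ≤ 11 * (x * g) := by nlinarith
  have a2 : (2 * n - x - 1) * (g * 5 + 6) ≤ 11 * ((2 * n - x - 1) * g) := by
    generalize 2 * n - x - 1 = y
    nlinarith
  have a3 : (6 * n - 1) * (2 * n * (g * 5 + 6) + 6) ≤ 17 * ((6 * n - 1) * (2 * n * g)) := by
    generalize 6 * n - 1 = c
    have : 2 * n * (g * 5 + 6) + 6 ≤ 17 * (2 * n * g) := by nlinarith
    calc c * (2 * n * (g * 5 + 6) + 6) ≤ c * (17 * (2 * n * g)) := Nat.mul_le_mul_left _ this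
      _ = 17 * (c * (2 * n * g)) := by ring
  have a4 : 24 * n ≤ n * (12 * g * n) := by
    have h5 : 2 * 1 ≤ n * g := Nat.mul_le_mul hn hg
    calc 24 * n = n * (12 * (2 * 1)) := by ring
      _ ≤ n * (12 * (n * g)) := Nat.mul_le_mul_left _ (Nat.mul_le_mul_left _ h5)
      _ = n * (12 * g * n) := by ring
  generalize x * (g * 5 + 6) = u1 at *
  generalize (2 * n - x - 1) * (g * 5 + 6) = u2 at *
  generalize (6 * n - 1) * (2 * n * (g * 5 + 6) + 6) = u3 at *
  generalize x * g = P at *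
  generalize (2 * n - x - 1) * g = B at *
  generalize (6 * n - 1) * (2 * n * g) = Cc at *
  generalize n * (12 * g * n) = NS at *
  omega

theorem rs_kRowJ (n g j rw : ℕ) (hn : 2 ≤ n) (hg : 0 < g) :
    RS kRow (n * (12 * g * n)) (krow n g j) (kstJ n g j rw) (kstJ n g (j + 1) (rw - 1))
      (20 * (n * (12 * g * n))) := by
  have hx := epsK_lt n j (by omega)
  have hM : 0 < 2 * n := by omega
  have h := rs_kRow n g (2 * n) (6 * n) rw (epsK n j) ((2 * j + 3) % (2 * n)) hx
    (Nat.mod_lt _ hM) hg (by omega)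
  rw [krow_len n g _ (by omega) hg hx, krow_eq n g _ (by omega) hg hx,
    ← epsK_succ n j (by omega)] at h
  have e : ((2 * j + 3) % (2 * n) + 2) % (2 * n) = (2 * (j + 1) + 3) % (2 * n) := by
    rw [Nat.mod_add_mod]
    congr 1
  rw [e] at h
  exact h.mono (krow_time n g _ _ hn hg hx)

/-! ### The body of the pass -/

theorem RS.ite_true {c : (Fin (k + 2) → Sym) → Bool} {F G : Frag Sym (k + 2)} {N : ℕ}
    {d : List Sym} {aux aux' : Fin k → Tape Sym} {τ : ℕ}
    (hc : ∀ x y, c (vecCons x (vecCons y (reads aux))) = true) (h : RS F N d aux aux' τ) :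
    RS (ite c F G) N d aux aux' (τ + 1) := by
  intro A hA L R O
  exact RunsLE.ite_true (by rw [reads_cons, reads_cons]; exact hc _ _) (h A hA L R O)

theorem RS.ite_false {c : (Fin (k + 2) → Sym) → Bool} {F G : Frag Sym (k + 2)} {N : ℕ}
    {d : List Sym} {aux aux' : Fin k → Tape Sym} {τ : ℕ}
    (hc : ∀ x y, c (vecCons x (vecCons y (reads aux))) = false) (h : RS G N d aux aux' τ) :
    RS (ite c F G) N d aux aux' (τ + 1) := by
  intro A hA L R O
  exact RunsLE.ite_false (by rw [reads_cons, reads_cons]; exact hc _ _) (h A hA L R O)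

/-- A row of zeros. -/
noncomputable def kZero : Frag Sym 14 :=
  liftS (K := 12) ![3, 9, 2, 10, 1, 11] (repS (repS (repS (sub1 Sym.b0))))

theorem rs_kZero (n g j rw : ℕ) (hn : 2 ≤ n) (hg : 0 < g) :
    RS kZero (n * (12 * g * n)) (List.replicate (n * (12 * g * n)) Sym.b0) (kstJ n g j rw)
      (kstJ n g j rw) (20 * (n * (12 * g * n))) := by
  have h := kstep_c n g (2 * n) (6 * n) rw (epsK n j) (2 * n - epsK n j) ((2 * j + 3) % (2 * n))
    (2 * n - (2 * j + 3) % (2 * n))
  have e : 6 * n * (2 * n * g) = n * (12 * g * n) := by ring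
  rw [e] at h
  refine h.mono ?_
  have h5 : 2 * 1 ≤ n * g := Nat.mul_le_mul hn hg
  have a3 : 2 * n * (g * 5 + 6) + 6 ≤ 17 * (2 * n * g) := by nlinarith
  have a4 : 6 * n * (2 * n * (g * 5 + 6) + 6) ≤ 17 * (n * (12 * g * n)) := by
    calc 6 * n * (2 * n * (g * 5 + 6) + 6) ≤ 6 * n * (17 * (2 * n * g)) :=
          Nat.mul_le_mul_left _ a3
      _ = 17 * (n * (12 * g * n)) := by ring
  have a5 : 24 * n ≤ n * (12 * g * n) := by
    calc 24 * n = n * (12 * (2 * 1)) := by ring
      _ ≤ n * (12 * (n * g)) := Nat.mul_le_mul_left _ (Nat.mul_le_mul_left _ h5)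
      _ = n * (12 * g * n) := by ring
  omega

/-- One row: with a one as long as the counter `rw` is positive. -/
noncomputable def kBody : Frag Sym 14 := ite (fun s => s 6 != Sym.org) kRow kZero

theorem rs_kBody_pos (n g j rw : ℕ) (hn : 2 ≤ n) (hg : 0 < g) (hrw : 0 < rw) :
    RS kBody (n * (12 * g * n)) (krow n g j) (kstJ n g j rw) (kstJ n g (j + 1) (rw - 1))
      (20 * (n * (12 * g * n)) + 1) := by
  refine RS.ite_true ?_ (rs_kRowJ n g j rw hn hg)
  intro x y
  obtain ⟨u, rfl⟩ : ∃ u, rw = u + 1 := ⟨rw - 1, by omega⟩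
  simp [kstJ, kst]

theorem rs_kBody_zero (n g j : ℕ) (hn : 2 ≤ n) (hg : 0 < g) :
    RS kBody (n * (12 * g * n)) (List.replicate (n * (12 * g * n)) Sym.b0) (kstJ n g j 0)
      (kstJ n g j 0) (20 * (n * (12 * g * n)) + 1) := by
  refine RS.ite_false ?_ (rs_kZero n g j 0 hn hg)
  intro x y
  simp [kstJ, kst]

theorem isData_krow (n g j : ℕ) : IsData (krow n g j) := by
  unfold krow
  refine ((IsData.append (isData_replicate _ _ (by decide) (by decide)) ?_).append
    (isData_replicate _ _ (by decide) (by decide))).append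
    (isData_replicate _ _ (by decide) (by decide))
  intro x hx
  rw [List.mem_singleton.1 hx]
  exact ⟨by decide, by decide⟩

theorem cat_krow (n g R : ℕ) (hR : 2 * n - 1 ≤ R) :
    cat R (fun j => if j < 2 * n - 1 then krow n g j
      else List.replicate (n * (12 * g * n)) Sym.b0)
    = kernelL Sym.b0 Sym.b1 n g (12 * g * n) (R * (n * (12 * g * n))) := by
  obtain ⟨Q, rfl⟩ : ∃ Q, R = (2 * n - 1) + Q := ⟨R - (2 * n - 1), by omega⟩
  rw [cat_add]
  unfold kernelL
  congr 1
  · apply cat_congr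
    intro j hj
    rw [if_pos hj]
    rfl
  · have : cat Q (fun j => if 2 * n - 1 + j < 2 * n - 1 then krow n g (2 * n - 1 + j)
        else List.replicate (n * (12 * g * n)) Sym.b0)
        = cat Q (fun _ => List.replicate (n * (12 * g * n)) Sym.b0) := by
      apply cat_congr
      intro j _
      rw [if_neg (by omega)]
    rw [this, cat_replicate]
    congr 1
    have : (2 * n - 1 + Q) * (n * (12 * g * n))
        = (2 * n - 1) * n * (12 * g * n) + Q * (n * (12 * g * n)) := by ring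
    rw [this, Nat.add_sub_cancel_left]

theorem runsLE_kMain (n g R : ℕ) (hn : 2 ≤ n) (hg : 0 < g) (hR : 2 * n - 1 ≤ R) (l : List Sym)
    (hl : l.length = R * (n * (12 * g * n))) (hd : IsData l) :
    RunsLE (pass kBody)
      (vecCons (zt [] (Sym.org :: l)) (vecCons (zt [] [Sym.org]) (kstJ n g 0 (2 * n - 1))))
      (26 * l.length + 8)
      (vecCons (zt [] (Sym.org :: l))
        (vecCons (zt [] (Sym.org :: kernelL Sym.b0 Sym.b1 n g (12 * g * n) l.length))
          (kstJ n g (2 * n - 1) 0))) := by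
  set Lr := n * (12 * g * n) with hLr
  have hLr0 : 0 < Lr := by positivity
  have hlen : ∀ j, j < R → (chunk Lr l j).length = Lr := fun j hj =>
    length_chunk_of_lt R Lr l hl j hj
  have hmem : ∀ j, IsData (chunk Lr l j) := fun j x hx =>
    hd x (List.mem_of_mem_drop (List.mem_of_mem_take hx))
  have key := runsLE_pass (body := kBody) R (chunk Lr l)
    (fun j => if j < 2 * n - 1 then krow n g j else List.replicate Lr Sym.b0)
    (fun j => kstJ n g (min j (2 * n - 1)) (2 * n - 1 - j)) (fun _ => 20 * Lr + 1) ?_ ?_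
  · have e1 : cat R (chunk Lr l) = l := cat_chunk R Lr l hl
    have e2 := cat_krow n g R hR
    rw [← hLr] at e2
    have e3 : (kernelL Sym.b0 Sym.b1 n g (12 * g * n) (R * Lr)).length = R * Lr := by
      rw [← e2]
      apply length_cat
      intro j hj
      split_ifs with h
      · have h1 := krow_len n g (epsK n j) (by omega) hg (epsK_lt n j (by omega))
        have h2 := congrArg List.length (krow_eq n g (epsK n j) (by omega) hg
          (epsK_lt n j (by omega)))
        unfold krow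
        rw [← h2, hLr, ← h1]
        simp
        omega
      · simp
    rw [e1, e2, e3] at key
    have e4 : min R (2 * n - 1) = 2 * n - 1 := Nat.min_eq_right hR
    have e5 : 2 * n - 1 - R = 0 := by omega
    simp only [Nat.zero_min, Nat.sub_zero, e4, e5] at key
    rw [hl]
    refine key.mono ?_
    simp only [Finset.sum_const, Finset.card_range, smul_eq_mul]
    have : R ≤ R * Lr := Nat.le_mul_of_pos_right _ hLr0
    have e6 : R * (20 * Lr + 1) = 20 * (R * Lr) + R := by ring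
    rw [hl, e6]
    omega
  · intro j hj
    refine ⟨?_, hmem j, ?_⟩
    · intro h0
      have := hlen j hj
      rw [h0] at this
      simp at this
      omega
    · split_ifs
      · exact isData_krow n g j
      · exact isData_replicate _ _ (by decide) (by decide)
  · intro j hj
    by_cases h : j < 2 * n - 1
    · have h1 := rs_kBody_pos n g j (2 * n - 1 - j) hn hg (by omega) _ (hlen j hj)
      simp only [if_pos h]
      have e1 : min j (2 * n - 1) = j := Nat.min_eq_left (by omega)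
      have e2 : min (j + 1) (2 * n - 1) = j + 1 := Nat.min_eq_left (by omega)
      have e3 : 2 * n - 1 - (j + 1) = 2 * n - 1 - j - 1 := by omega
      rw [e1, e2, e3]
      exact h1
    · have h1 := rs_kBody_zero n g (2 * n - 1) hn hg _ (hlen j hj)
      simp only [if_neg h]
      have e1 : min j (2 * n - 1) = 2 * n - 1 := Nat.min_eq_right (by omega)
      have e2 : min (j + 1) (2 * n - 1) = 2 * n - 1 := Nat.min_eq_right (by omega)
      have e3 : 2 * n - 1 - (j + 1) = 0 := by omega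
      have e4 : 2 * n - 1 - j = 0 := by omega
      rw [e1, e2, e3, e4]
      exact h1

/-! ### Setting up and clearing the derived counters -/

theorem runsLE_onAuxAt {ι : Fin k → Fin K} (hι : Function.Injective ι) {G : Frag Sym k}
    {aux aux' : Fin k → Tape Sym} {τ : ℕ} (h : RunsLE G aux τ aux') (X Y : Tape Sym)
    (AUX AUX' : Fin K → Tape Sym)
    (h0 : ∀ a, AUX (ι a) = aux a) (h1 : ∀ a, AUX' (ι a) = aux' a)
    (h2 : ∀ b, (∀ a, ι a ≠ b) → AUX' b = AUX b) :
    RunsLE (Frag.onAuxAt ι G) (vecCons X (vecCons Y AUX)) τ (vecCons X (vecCons Y AUX')) := by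
  refine RunsLE.lift (fun a b hab => hι (by simpa using hab)) h _ _ h0 h1 ?_
  intro c
  refine Fin.cases (fun _ => rfl) (fun c' => ?_) c
  refine Fin.cases (fun _ => rfl) (fun c'' => ?_) c'
  intro hc
  exact h2 c'' fun a ha => hc a (by simp [ha])

section fields
variable (X Y : Tape Sym) (n g M c0 rw x xh D Dh : ℕ)

theorem kset_M {G : Frag Sym 1} {v τ : ℕ} (h : RunsLE G ![cnt M] τ ![cnt v]) :
    RunsLE (onAuxAt (K := 12) ![2] G) (vecCons X (vecCons Y (kst n g M c0 rw x xh D Dh))) τ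
      (vecCons X (vecCons Y (kst n g v c0 rw x xh D Dh))) :=
  runsLE_onAuxAt (by decide) h X Y _ _ (by intro a; fin_cases a <;> simp [kst])
    (by intro a; fin_cases a <;> simp [kst])
    (by intro b hb; fin_cases b <;> first | (simp [kst]; done) | (exfalso; revert hb; simp [Fin.forall_fin_succ]))

theorem kset_c0 {G : Frag Sym 1} {v τ : ℕ} (h : RunsLE G ![cnt c0] τ ![cnt v]) :
    RunsLE (onAuxAt (K := 12) ![3] G) (vecCons X (vecCons Y (kst n g M c0 rw x xh D Dh))) τ
      (vecCons X (vecCons Y (kst n g M v rw x xh D Dh))) :=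
  runsLE_onAuxAt (by decide) h X Y _ _ (by intro a; fin_cases a <;> simp [kst])
    (by intro a; fin_cases a <;> simp [kst])
    (by intro b hb; fin_cases b <;> first | (simp [kst]; done) | (exfalso; revert hb; simp [Fin.forall_fin_succ]))

theorem kset_rw {G : Frag Sym 1} {v τ : ℕ} (h : RunsLE G ![cnt rw] τ ![cnt v]) :
    RunsLE (onAuxAt (K := 12) ![4] G) (vecCons X (vecCons Y (kst n g M c0 rw x xh D Dh))) τ
      (vecCons X (vecCons Y (kst n g M c0 v x xh D Dh))) :=
  runsLE_onAuxAt (by decide) h X Y _ _ (by intro a; fin_cases a <;> simp [kst])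
    (by intro a; fin_cases a <;> simp [kst])
    (by intro b hb; fin_cases b <;> first | (simp [kst]; done) | (exfalso; revert hb; simp [Fin.forall_fin_succ]))

theorem kset_x {G : Frag Sym 1} {v τ : ℕ} (h : RunsLE G ![cnt x] τ ![cnt v]) :
    RunsLE (onAuxAt (K := 12) ![5] G) (vecCons X (vecCons Y (kst n g M c0 rw x xh D Dh))) τ
      (vecCons X (vecCons Y (kst n g M c0 rw v xh D Dh))) :=
  runsLE_onAuxAt (by decide) h X Y _ _ (by intro a; fin_cases a <;> simp [kst])
    (by intro a; fin_cases a <;> simp [kst])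
    (by intro b hb; fin_cases b <;> first | (simp [kst]; done) | (exfalso; revert hb; simp [Fin.forall_fin_succ]))

theorem kset_xh {G : Frag Sym 1} {v τ : ℕ} (h : RunsLE G ![cnt xh] τ ![cnt v]) :
    RunsLE (onAuxAt (K := 12) ![6] G) (vecCons X (vecCons Y (kst n g M c0 rw x xh D Dh))) τ
      (vecCons X (vecCons Y (kst n g M c0 rw x v D Dh))) :=
  runsLE_onAuxAt (by decide) h X Y _ _ (by intro a; fin_cases a <;> simp [kst])
    (by intro a; fin_cases a <;> simp [kst])
    (by intro b hb; fin_cases b <;> first | (simp [kst]; done) | (exfalso; revert hb; simp [Fin.forall_fin_succ]))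

theorem kset_D {G : Frag Sym 1} {v τ : ℕ} (h : RunsLE G ![cnt D] τ ![cnt v]) :
    RunsLE (onAuxAt (K := 12) ![7] G) (vecCons X (vecCons Y (kst n g M c0 rw x xh D Dh))) τ
      (vecCons X (vecCons Y (kst n g M c0 rw x xh v Dh))) :=
  runsLE_onAuxAt (by decide) h X Y _ _ (by intro a; fin_cases a <;> simp [kst])
    (by intro a; fin_cases a <;> simp [kst])
    (by intro b hb; fin_cases b <;> first | (simp [kst]; done) | (exfalso; revert hb; simp [Fin.forall_fin_succ]))

theorem kset_Dh {G : Frag Sym 1} {v τ : ℕ} (h : RunsLE G ![cnt Dh] τ ![cnt v]) :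
    RunsLE (onAuxAt (K := 12) ![8] G) (vecCons X (vecCons Y (kst n g M c0 rw x xh D Dh))) τ
      (vecCons X (vecCons Y (kst n g M c0 rw x xh D v))) :=
  runsLE_onAuxAt (by decide) h X Y _ _ (by intro a; fin_cases a <;> simp [kst])
    (by intro a; fin_cases a <;> simp [kst])
    (by intro b hb; fin_cases b <;> first | (simp [kst]; done) | (exfalso; revert hb; simp [Fin.forall_fin_succ]))

theorem kadd_M (c : ℕ) :
    RunsLE (onAuxAt (K := 12) ![0, 9, 2] (rep (incBy c))) (vecCons X (vecCons Y (kst n g M c0 rw x xh D Dh)))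
      (n * (c + 5) + 2) (vecCons X (vecCons Y (kst n g (M + c * n) c0 rw x xh D Dh))) :=
  runsLE_onAuxAt (by decide) (runsLE_addMul c n M) X Y _ _ (by intro a; fin_cases a <;> simp [kst])
    (by intro a; fin_cases a <;> simp [kst])
    (by intro b hb; fin_cases b <;> first | (simp [kst]; done) | (exfalso; revert hb; simp [Fin.forall_fin_succ]))

theorem kadd_c0 (c : ℕ) :
    RunsLE (onAuxAt (K := 12) ![0, 9, 3] (rep (incBy c))) (vecCons X (vecCons Y (kst n g M c0 rw x xh D Dh)))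
      (n * (c + 5) + 2) (vecCons X (vecCons Y (kst n g M (c0 + c * n) rw x xh D Dh))) :=
  runsLE_onAuxAt (by decide) (runsLE_addMul c n c0) X Y _ _ (by intro a; fin_cases a <;> simp [kst])
    (by intro a; fin_cases a <;> simp [kst])
    (by intro b hb; fin_cases b <;> first | (simp [kst]; done) | (exfalso; revert hb; simp [Fin.forall_fin_succ]))

theorem kadd_rw (c : ℕ) :
    RunsLE (onAuxAt (K := 12) ![0, 9, 4] (rep (incBy c))) (vecCons X (vecCons Y (kst n g M c0 rw x xh D Dh)))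
      (n * (c + 5) + 2) (vecCons X (vecCons Y (kst n g M c0 (rw + c * n) x xh D Dh))) :=
  runsLE_onAuxAt (by decide) (runsLE_addMul c n rw) X Y _ _ (by intro a; fin_cases a <;> simp [kst])
    (by intro a; fin_cases a <;> simp [kst])
    (by intro b hb; fin_cases b <;> first | (simp [kst]; done) | (exfalso; revert hb; simp [Fin.forall_fin_succ]))

theorem kadd_x (c : ℕ) :
    RunsLE (onAuxAt (K := 12) ![0, 9, 5] (rep (incBy c))) (vecCons X (vecCons Y (kst n g M c0 rw x xh D Dh)))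
      (n * (c + 5) + 2) (vecCons X (vecCons Y (kst n g M c0 rw (x + c * n) xh D Dh))) :=
  runsLE_onAuxAt (by decide) (runsLE_addMul c n x) X Y _ _ (by intro a; fin_cases a <;> simp [kst])
    (by intro a; fin_cases a <;> simp [kst])
    (by intro b hb; fin_cases b <;> first | (simp [kst]; done) | (exfalso; revert hb; simp [Fin.forall_fin_succ]))

theorem kadd_Dh (c : ℕ) :
    RunsLE (onAuxAt (K := 12) ![0, 9, 8] (rep (incBy c))) (vecCons X (vecCons Y (kst n g M c0 rw x xh D Dh)))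
      (n * (c + 5) + 2) (vecCons X (vecCons Y (kst n g M c0 rw x xh D (Dh + c * n)))) :=
  runsLE_onAuxAt (by decide) (runsLE_addMul c n Dh) X Y _ _ (by intro a; fin_cases a <;> simp [kst])
    (by intro a; fin_cases a <;> simp [kst])
    (by intro b hb; fin_cases b <;> first | (simp [kst]; done) | (exfalso; revert hb; simp [Fin.forall_fin_succ]))

end fields

/-- Compute the derived counters. -/
noncomputable def kSetup : Frag Sym 14 :=
  seq (onAuxAt (K := 12) ![0, 9, 2] (rep (incBy 2)))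
  (seq (onAuxAt (K := 12) ![0, 9, 3] (rep (incBy 6)))
  (seq (onAuxAt (K := 12) ![0, 9, 4] (rep (incBy 2)))
  (seq (onAuxAt (K := 12) ![4] mvL)
  (seq (onAuxAt (K := 12) ![0, 9, 5] (rep (incBy 2)))
  (seq (onAuxAt (K := 12) ![5] mvL)
  (seq (onAuxAt (K := 12) ![6] mvR)
  (seq (onAuxAt (K := 12) ![7] (incBy 3))
  (seq (onAuxAt (K := 12) ![0, 9, 8] (rep (incBy 2)))
  (seq (onAuxAt (K := 12) ![8] mvL)
  (seq (onAuxAt (K := 12) ![8] mvL)
    (onAuxAt (K := 12) ![8] mvL)))))))))))

theorem runsLE_kSetup (X Y : Tape Sym) (n g : ℕ) (hn : 2 ≤ n) :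
    RunsLE kSetup (vecCons X (vecCons Y (kst n g 0 0 0 0 0 0 0))) (39 * n + 20)
      (vecCons X (vecCons Y (kstJ n g 0 (2 * n - 1)))) := by
  have t1 := kadd_M X Y n g 0 0 0 0 0 0 0 2
  have t2 := kadd_c0 X Y n g (0 + 2 * n) 0 0 0 0 0 0 6
  have t3 := kadd_rw X Y n g (0 + 2 * n) (0 + 6 * n) 0 0 0 0 0 2
  have t4 := kset_rw X Y n g (0 + 2 * n) (0 + 6 * n) (0 + 2 * n) 0 0 0 0
    (runsLE_mvL_cnt (0 + 2 * n))
  have t5 := kadd_x X Y n g (0 + 2 * n) (0 + 6 * n) (0 + 2 * n - 1) 0 0 0 0 2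
  have t6 := kset_x X Y n g (0 + 2 * n) (0 + 6 * n) (0 + 2 * n - 1) (0 + 2 * n) 0 0 0
    (runsLE_mvL_cnt (0 + 2 * n))
  have t7 := kset_xh X Y n g (0 + 2 * n) (0 + 6 * n) (0 + 2 * n - 1) (0 + 2 * n - 1) 0 0 0
    (runsLE_mvR_cnt 0)
  have t8 := kset_D X Y n g (0 + 2 * n) (0 + 6 * n) (0 + 2 * n - 1) (0 + 2 * n - 1) (0 + 1) 0 0
    (runsLE_incBy 3 0)
  have t9 := kadd_Dh X Y n g (0 + 2 * n) (0 + 6 * n) (0 + 2 * n - 1) (0 + 2 * n - 1) (0 + 1)
    (0 + 3) 0 2
  have t10 := kset_Dh X Y n g (0 + 2 * n) (0 + 6 * n) (0 + 2 * n - 1) (0 + 2 * n - 1) (0 + 1)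
    (0 + 3) (0 + 2 * n) (runsLE_mvL_cnt (0 + 2 * n))
  have t11 := kset_Dh X Y n g (0 + 2 * n) (0 + 6 * n) (0 + 2 * n - 1) (0 + 2 * n - 1) (0 + 1)
    (0 + 3) (0 + 2 * n - 1) (runsLE_mvL_cnt (0 + 2 * n - 1))
  have t12 := kset_Dh X Y n g (0 + 2 * n) (0 + 6 * n) (0 + 2 * n - 1) (0 + 2 * n - 1) (0 + 1)
    (0 + 3) (0 + 2 * n - 1 - 1) (runsLE_mvL_cnt (0 + 2 * n - 1 - 1))
  have h := t1.seq (t2.seq (t3.seq (t4.seq (t5.seq (t6.seq (t7.seq (t8.seq (t9.seq (t10.seq
    (t11.seq t12))))))))))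
  have e1 : epsK n 0 = 2 * n - 1 := epsK_zero n hn
  have e2 : (2 * 0 + 3) % (2 * n) = 3 := Nat.mod_eq_of_lt (by omega)
  have e3 : 2 * n - (2 * n - 1) = 1 := by omega
  have e4 : 0 + 2 * n - 1 - 1 - 1 = 2 * n - 3 := by omega
  unfold kstJ
  rw [e1, e2, e3]
  simp only [Nat.zero_add] at h e4
  rw [e4] at h
  exact h.mono (by omega)

/-- Clear the derived counters. -/
noncomputable def kClear : Frag Sym 14 :=
  seq (onAuxAt (K := 12) ![2] zero)
  (seq (onAuxAt (K := 12) ![3] zero)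
  (seq (onAuxAt (K := 12) ![5] zero)
  (seq (onAuxAt (K := 12) ![6] zero)
  (seq (onAuxAt (K := 12) ![7] zero)
    (onAuxAt (K := 12) ![8] zero)))))

theorem runsLE_kClear (X Y : Tape Sym) (n g M c0 x xh D Dh : ℕ) :
    RunsLE kClear (vecCons X (vecCons Y (kst n g M c0 0 x xh D Dh)))
      ((2 * M + 1) + ((2 * c0 + 1) + ((2 * x + 1) + ((2 * xh + 1) + ((2 * D + 1) + (2 * Dh + 1))))))
      (vecCons X (vecCons Y (kst n g 0 0 0 0 0 0 0))) :=
  (kset_M X Y n g M c0 0 x xh D Dh (runsLE_zero M)).seq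
  ((kset_c0 X Y n g 0 c0 0 x xh D Dh (runsLE_zero c0)).seq
  ((kset_x X Y n g 0 0 0 x xh D Dh (runsLE_zero x)).seq
  ((kset_xh X Y n g 0 0 0 0 xh D Dh (runsLE_zero xh)).seq
  ((kset_D X Y n g 0 0 0 0 0 D Dh (runsLE_zero D)).seq
    (kset_Dh X Y n g 0 0 0 0 0 0 Dh (runsLE_zero Dh))))))

/-! ### The pass -/

/-- The pass writing the kernel operand.  Tapes: `0` ruler, `1` output, `2` counter `n`,
`3` counter `g`, `4 … 13` scratch. -/
noncomputable def kernelPass : Frag Sym 14 := seq kSetup (seq (pass kBody) kClear)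

theorem runsLE_kernelPass (n g K : ℕ) (hn : 2 ≤ n) (hg : 0 < g) (hK : 1 ≤ K) (l : List Sym)
    (hl : l.length = K * (3 * n * n * (12 * g * n))) (hd : IsData l) :
    RunsLE kernelPass
      ![zt [] (Sym.org :: l), zt [] [Sym.org], cnt n, cnt g, cnt 0, cnt 0, cnt 0, cnt 0, cnt 0,
        cnt 0, cnt 0, cnt 0, cnt 0, cnt 0]
      (30 * l.length)
      ![zt [] (Sym.org :: l), zt [] (Sym.org :: kernelL Sym.b0 Sym.b1 n g (12 * g * n) l.length),
        cnt n, cnt g, cnt 0, cnt 0, cnt 0, cnt 0, cnt 0, cnt 0, cnt 0, cnt 0, cnt 0, cnt 0] := by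
  have hl' : l.length = (K * 3 * n) * (n * (12 * g * n)) := by rw [hl]; ring
  have hR : 2 * n - 1 ≤ K * 3 * n := by
    have : 1 * 3 * n ≤ K * 3 * n := Nat.mul_le_mul_right _ (Nat.mul_le_mul_right _ hK)
    omega
  have s1 := runsLE_kSetup (zt [] (Sym.org :: l)) (zt [] [Sym.org]) n g hn
  have s2 := runsLE_kMain n g (K * 3 * n) hn hg hR l hl' hd
  have s3 := runsLE_kClear (zt [] (Sym.org :: l))
    (zt [] (Sym.org :: kernelL Sym.b0 Sym.b1 n g (12 * g * n) l.length)) n g (2 * n) (6 * n)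
    (epsK n (2 * n - 1)) (2 * n - epsK n (2 * n - 1)) ((2 * (2 * n - 1) + 3) % (2 * n))
    (2 * n - (2 * (2 * n - 1) + 3) % (2 * n))
  have h := s1.seq (s2.seq s3)
  refine RunsLE.mono h ?_
  have b1 := epsK_lt n (2 * n - 1) (by omega)
  have b2 : (2 * (2 * n - 1) + 3) % (2 * n) < 2 * n := Nat.mod_lt _ (by omega)
  have b3 : 144 * n ≤ l.length := by
    have h5 : 1 * 2 * 2 * 1 ≤ K * n * n * g :=
      Nat.mul_le_mul (Nat.mul_le_mul (Nat.mul_le_mul hK hn) hn) hg
    calc 144 * n = 36 * (1 * 2 * 2 * 1) * n := by ring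
      _ ≤ 36 * (K * n * n * g) * n := Nat.mul_le_mul_right _ (Nat.mul_le_mul_left _ h5)
      _ = l.length := by rw [hl]; ring
  omega

end Frag
end Vale.Agent.P338
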