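import Vale.Agent.P338.TM.Stream

/-!
EXAMPLE PASS (template for the other passes): `padSlots`.
Tapes: `0` input, `1` output, `2` counter `w`, `3` counter `z = s - w - 4`, `4` shadow counter.
-/

namespace Vale.Agent.P338
namespace Frag
open Matrix

/-- Output `c` copies of `x` (`c` a constant of the program). -/
def outC (x : Sym) : ℕ → Frag Sym 2
  | 0 => prim noop
  | c + 1 => seq (out1 x) (outC x c)

theorem stream_outC (x : Sym) (c : ℕ) : Stream (outC x c) [] (List.replicate c x) ![] ![] (c + 1) := by
  induction c with
  | zero =>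
    intro L R O
    simpa [outC] using RunsLE.prim noop _ _ (acts_noop _)
  | succ c ih =>
    have := (stream_out1 x).seq ih
    rw [List.nil_append, List.singleton_append, ← List.replicate_succ] at this
    exact this.mono (by omega)

/-- One entry. -/
noncomputable def padBody : Frag Sym 5 :=
  seq (liftS (k := 0) ![] (outC Sym.b0 4))
    (seq (liftS ![0, 2] (repS copy1)) (liftS ![1, 2] (repS (out1 Sym.b0))))

theorem stream_padBody (e : List Sym) (z : ℕ) :
    Stream padBody e (List.replicate 4 Sym.b0 ++ e ++ List.replicate z Sym.b0)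
      ![cnt e.length, cnt z, cnt 0] ![cnt e.length, cnt z, cnt 0] (5 * e.length + 5 * z + 9) := by
  have h1 : Stream (liftS (k := 0) (K := 3) ![] (outC Sym.b0 4)) [] (List.replicate 4 Sym.b0)
      ![cnt e.length, cnt z, cnt 0] ![cnt e.length, cnt z, cnt 0] 5 :=
    (stream_outC Sym.b0 4).lift (fun a => a.elim0) _ _ (fun a => a.elim0) (fun a => a.elim0)
      (fun _ _ => rfl)
  have h2 : Stream (liftS (K := 3) ![0, 2] (repS copy1)) e e
      ![cnt e.length, cnt z, cnt 0] ![cnt e.length, cnt z, cnt 0] (e.length * 5 + 2) :=
    (stream_copyN e).lift (by decide) _ _ (by simp [Fin.forall_fin_succ]) (by simp [Fin.forall_fin_succ])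
      (by simp [Fin.forall_fin_succ])
  have h3 : Stream (liftS (K := 3) ![1, 2] (repS (out1 Sym.b0))) [] (List.replicate z Sym.b0)
      ![cnt e.length, cnt z, cnt 0] ![cnt e.length, cnt z, cnt 0] (z * 5 + 2) :=
    (stream_outN Sym.b0 z).lift (by decide) _ _ (by simp [Fin.forall_fin_succ]) (by simp [Fin.forall_fin_succ])
      (by simp [Fin.forall_fin_succ])
  have := h1.seq (h2.seq h3)
  simp only [List.nil_append, List.append_nil, ← List.append_assoc] at this
  exact this.mono (by omega)

/-- The pass. -/
noncomputable def padPass : Frag Sym 5 := pass padBody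

theorem runsLE_padPass (w s R : ℕ) (hw : 0 < w) (l : List Sym) (hl : l.length = R * w)
    (hd : IsData l) :
    RunsLE padPass ![zt [] (Sym.org :: l), zt [] [Sym.org], cnt w, cnt (s - w - 4), cnt 0]
      (R * (9 * w + 7 * (s - w - 4) + 18) + 8)
      ![zt [] (Sym.org :: l), zt [] (Sym.org :: padSlots Sym.b0 w s l),
        cnt w, cnt (s - w - 4), cnt 0] := by
  have hlen : ∀ j, j < R → (chunk w l j).length = w := fun j hj =>
    length_chunk w l j (by rw [hl]; exact Nat.mul_le_mul_right _ hj)
  have hmem : ∀ j, IsData (chunk w l j) := fun j x hx =>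
    hd x (List.mem_of_mem_drop (List.mem_of_mem_take hx))
  have key := runsLE_pass (body := padBody) R (chunk w l)
    (fun j => List.replicate 4 Sym.b0 ++ chunk w l j ++ List.replicate (s - w - 4) Sym.b0)
    (fun _ => ![cnt w, cnt (s - w - 4), cnt 0]) (fun _ => 5 * w + 5 * (s - w - 4) + 9) ?_ ?_
  · have e1 : cat R (chunk w l) = l := cat_chunk R w l hl
    have e2 : cat R (fun j => List.replicate 4 Sym.b0 ++ chunk w l j ++
        List.replicate (s - w - 4) Sym.b0) = padSlots Sym.b0 w s l := by
      unfold padSlots mapChunks
      rw [hl, Nat.mul_div_cancel _ hw]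
    have e3 : (padSlots Sym.b0 w s l).length = R * (4 + w + (s - w - 4)) := by
      rw [← e2]
      apply length_cat
      intro j hj
      simp [hlen j hj]
      omega
    rw [e1, e2, e3, hl] at key
    refine RunsLE.mono key ?_
    simp only [Finset.sum_const, Finset.card_range, smul_eq_mul]
    generalize s - w - 4 = z
    have e4 : R * (4 + w + z) = 4 * R + R * w + R * z := by ring
    have e5 : R * (5 * w + 5 * z + 9) = 5 * (R * w) + 5 * (R * z) + 9 * R := by ring
    have e6 : R * (9 * w + 7 * z + 18) = 9 * (R * w) + 7 * (R * z) + 18 * R := by ring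
    rw [e4, e5, e6]
    omega
  · intro j hj
    refine ⟨?_, hmem j, ?_⟩
    · intro h0
      have := hlen j hj
      rw [h0] at this
      simp at this
      omega
    · exact ((isData_replicate _ _ (by decide) (by decide)).append (hmem j)).append
        (isData_replicate _ _ (by decide) (by decide))
  · intro j hj
    have := stream_padBody (chunk w l j) (s - w - 4)
    rw [hlen j hj] at this
    exact this

end Frag
end Vale.Agent.P338
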