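import Vale.Agent.P338.TM.Stream

/-!
TASK T1.  The pass `rowRot`.
Inner tape order: `0` input, `1` output, `2` counter `n`, `3` shadow, `4` counter `w`, `5` counter `p`,
`6` counter `q`, `7`, `8` shadows, `9` scratch tape.  In row `i` of a batch `p = i`, `q = n - i`.
-/

set_option linter.unusedSimpArgs false

namespace Vale.Agent.P338
namespace Frag
open Matrix

/-- Copy `c` entries of `w` symbols (aux tapes: counter `c`, shadow, counter `w`, shadow). -/
theorem stream_copyRot (c w : ℕ) (A : List Sym) (hA : A.length = c * w) :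
    Stream (repS (repS copy1)) A A ![cnt c, cnt 0, cnt w, cnt 0] ![cnt c, cnt 0, cnt w, cnt 0]
      (c * (w * 5 + 6) + 2) := by
  have := Stream.rep (body := repS copy1) c (chunk w A) (chunk w A) (fun _ => ![cnt w, cnt 0])
    (w * 5 + 2) (fun j hj => by
      have h := stream_copyN (chunk w A j)
      rw [length_chunk_of_lt c w A hA j hj] at h
      exact h)
  rw [cat_chunk c w A hA] at this
  exact this

/-- One row.  Tapes: `0` input, `1` output, `2` counter `w`, `3` counter `p`, `4` counter `q`,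
`5`, `6` shadows, `7` scratch tape. -/
noncomputable def rotRow (dir : Bool) : Frag Sym 8 :=
  seq (lift ![7] mvR)
  (seq (lift (if dir then ![0, 7, 3, 5, 2, 6] else ![0, 7, 4, 5, 2, 6]) (repS (repS copy1)))
  (seq (lift (if dir then ![0, 1, 4, 5, 2, 6] else ![0, 1, 3, 5, 2, 6]) (repS (repS copy1)))
  (seq (lift ![7] rewind)
  (seq (lift ![7] mvR)
  (seq (lift ![7, 1] copyAll)
  (seq (lift ![7] eraseBack)
    (lift ![3, 4] (prim fun s => ![(s 0, Dir.right), (s 1, Dir.left)]))))))))

theorem stream_rotRow (dir : Bool) (w p q : ℕ) (P S : List Sym)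
    (hP : P.length = (if dir then p else q) * w) (hS : S.length = (if dir then q else p) * w)
    (hd : IsData P) :
    Stream (rotRow dir) (P ++ S) (S ++ P) ![cnt w, cnt p, cnt q, cnt 0, cnt 0, cnt 0]
      ![cnt w, cnt (p + 1), cnt (q - 1), cnt 0, cnt 0, cnt 0]
      (11 * ((p + q) * w) + 6 * (p + q) + 14) := by
  intro L R O
  have horg : Sym.org ∉ P := fun hh => (hd _ hh).2 rfl
  have hbl : Sym.blank ∉ P := fun hh => (hd _ hh).1 rfl
  rw [List.append_assoc P S R, ← List.append_assoc L P S, ← List.append_assoc O S P]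
  have s1 : RunsLE (lift ![7] mvR : Frag Sym 8)
      ![zt L (P ++ (S ++ R)), zt O [], cnt w, cnt p, cnt q, cnt 0, cnt 0, cnt 0] 1
      ![zt L (P ++ (S ++ R)), zt O [], cnt w, cnt p, cnt q, cnt 0, cnt 0, zt [Sym.org] []] :=
    RunsLE.lift (by decide) (runsLE_mvR_cons [] [] Sym.org) _ _
      (by simp [Fin.forall_fin_succ, cnt_eq_zt_zero]) (by simp [Fin.forall_fin_succ, cnt_eq_zt_zero])
      (by simp [Fin.forall_fin_succ])
  have s4 : RunsLE (lift ![7] rewind : Frag Sym 8)
      ![zt (L ++ P ++ S) R, zt (O ++ S) [], cnt w, cnt p, cnt q, cnt 0, cnt 0, zt (Sym.org :: P) []]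
      (2 * P.length + 3)
      ![zt (L ++ P ++ S) R, zt (O ++ S) [], cnt w, cnt p, cnt q, cnt 0, cnt 0,
        zt [] (Sym.org :: P)] := by
    have h := runsLE_rewind P [] horg (by simp)
    rw [List.append_nil] at h
    exact RunsLE.lift (by decide) h _ _
      (by simp [Fin.forall_fin_succ, cnt_eq_zt_zero]) (by simp [Fin.forall_fin_succ, cnt_eq_zt_zero])
      (by simp [Fin.forall_fin_succ])
  have s5 : RunsLE (lift ![7] mvR : Frag Sym 8)
      ![zt (L ++ P ++ S) R, zt (O ++ S) [], cnt w, cnt p, cnt q, cnt 0, cnt 0,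
        zt [] (Sym.org :: P)] 1
      ![zt (L ++ P ++ S) R, zt (O ++ S) [], cnt w, cnt p, cnt q, cnt 0, cnt 0, zt [Sym.org] P] :=
    RunsLE.lift (by decide) (runsLE_mvR_cons [] P Sym.org) _ _
      (by simp [Fin.forall_fin_succ, cnt_eq_zt_zero]) (by simp [Fin.forall_fin_succ, cnt_eq_zt_zero])
      (by simp [Fin.forall_fin_succ])
  have s6 : RunsLE (lift ![7, 1] copyAll : Frag Sym 8)
      ![zt (L ++ P ++ S) R, zt (O ++ S) [], cnt w, cnt p, cnt q, cnt 0, cnt 0, zt [Sym.org] P]
      (2 * P.length + 1)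
      ![zt (L ++ P ++ S) R, zt (O ++ S ++ P) [], cnt w, cnt p, cnt q, cnt 0, cnt 0,
        zt (Sym.org :: P) []] :=
    RunsLE.lift (by decide) (runsLE_copyAll [Sym.org] P (O ++ S) hbl) _ _
      (by simp [Fin.forall_fin_succ, cnt_eq_zt_zero]) (by simp [Fin.forall_fin_succ, cnt_eq_zt_zero])
      (by simp [Fin.forall_fin_succ])
  have s7 : RunsLE (lift ![7] eraseBack : Frag Sym 8)
      ![zt (L ++ P ++ S) R, zt (O ++ S ++ P) [], cnt w, cnt p, cnt q, cnt 0, cnt 0,
        zt (Sym.org :: P) []]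
      (2 * P.length + 3)
      ![zt (L ++ P ++ S) R, zt (O ++ S ++ P) [], cnt w, cnt p, cnt q, cnt 0, cnt 0, cnt 0] :=
    RunsLE.lift (by decide) (runsLE_eraseBack P horg) _ _
      (by simp [Fin.forall_fin_succ, cnt_eq_zt_zero]) (by simp [Fin.forall_fin_succ, cnt_eq_zt_zero])
      (by simp [Fin.forall_fin_succ])
  have s8 : RunsLE (lift ![3, 4] (prim fun s => ![(s 0, Dir.right), (s 1, Dir.left)]) : Frag Sym 8)
      ![zt (L ++ P ++ S) R, zt (O ++ S ++ P) [], cnt w, cnt p, cnt q, cnt 0, cnt 0, cnt 0] 1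
      ![zt (L ++ P ++ S) R, zt (O ++ S ++ P) [], cnt w, cnt (p + 1), cnt (q - 1), cnt 0, cnt 0,
        cnt 0] := by
    have h : RunsLE (prim fun s : Fin 2 → Sym => ![(s 0, Dir.right), (s 1, Dir.left)])
        ![cnt p, cnt q] 1 ![cnt (p + 1), cnt (q - 1)] :=
      RunsLE.prim _ _ _ (by
        simp only [reads_cons, cons_val_zero, cons_val_one, acts_cons, cnt_left, cnt_right]
        simp)
    exact RunsLE.lift (by decide) h _ _
      (by simp [Fin.forall_fin_succ, cnt_eq_zt_zero]) (by simp [Fin.forall_fin_succ, cnt_eq_zt_zero])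
      (by simp [Fin.forall_fin_succ])
  cases dir
  · simp only [Bool.false_eq_true, if_false] at hP hS
    have s2 : RunsLE (lift ![0, 7, 4, 5, 2, 6] (repS (repS copy1)) : Frag Sym 8)
        ![zt L (P ++ (S ++ R)), zt O [], cnt w, cnt p, cnt q, cnt 0, cnt 0, zt [Sym.org] []]
        (q * (w * 5 + 6) + 2)
        ![zt (L ++ P) (S ++ R), zt O [], cnt w, cnt p, cnt q, cnt 0, cnt 0,
          zt (Sym.org :: P) []] :=
      RunsLE.lift (by decide) (stream_copyRot q w P hP L (S ++ R) [Sym.org]) _ _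
        (by simp [Fin.forall_fin_succ, cnt_eq_zt_zero]) (by simp [Fin.forall_fin_succ, cnt_eq_zt_zero])
        (by simp [Fin.forall_fin_succ])
    have s3 : RunsLE (lift ![0, 1, 3, 5, 2, 6] (repS (repS copy1)) : Frag Sym 8)
        ![zt (L ++ P) (S ++ R), zt O [], cnt w, cnt p, cnt q, cnt 0, cnt 0, zt (Sym.org :: P) []]
        (p * (w * 5 + 6) + 2)
        ![zt (L ++ P ++ S) R, zt (O ++ S) [], cnt w, cnt p, cnt q, cnt 0, cnt 0,
          zt (Sym.org :: P) []] :=
      RunsLE.lift (by decide) (stream_copyRot p w S hS (L ++ P) R O) _ _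
        (by simp [Fin.forall_fin_succ, cnt_eq_zt_zero]) (by simp [Fin.forall_fin_succ, cnt_eq_zt_zero])
        (by simp [Fin.forall_fin_succ])
    refine RunsLE.mono (s1.seq (s2.seq (s3.seq (s4.seq (s5.seq (s6.seq (s7.seq s8))))))) ?_
    rw [hP]
    have e1 : (p + q) * w = p * w + q * w := by ring
    have e2 : q * (w * 5 + 6) = 5 * (q * w) + 6 * q := by ring
    have e3 : p * (w * 5 + 6) = 5 * (p * w) + 6 * p := by ring
    rw [e1, e2, e3]
    omega
  · simp only [if_true] at hP hS
    have s2 : RunsLE (lift ![0, 7, 3, 5, 2, 6] (repS (repS copy1)) : Frag Sym 8)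
        ![zt L (P ++ (S ++ R)), zt O [], cnt w, cnt p, cnt q, cnt 0, cnt 0, zt [Sym.org] []]
        (p * (w * 5 + 6) + 2)
        ![zt (L ++ P) (S ++ R), zt O [], cnt w, cnt p, cnt q, cnt 0, cnt 0,
          zt (Sym.org :: P) []] :=
      RunsLE.lift (by decide) (stream_copyRot p w P hP L (S ++ R) [Sym.org]) _ _
        (by simp [Fin.forall_fin_succ, cnt_eq_zt_zero]) (by simp [Fin.forall_fin_succ, cnt_eq_zt_zero])
        (by simp [Fin.forall_fin_succ])
    have s3 : RunsLE (lift ![0, 1, 4, 5, 2, 6] (repS (repS copy1)) : Frag Sym 8)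
        ![zt (L ++ P) (S ++ R), zt O [], cnt w, cnt p, cnt q, cnt 0, cnt 0, zt (Sym.org :: P) []]
        (q * (w * 5 + 6) + 2)
        ![zt (L ++ P ++ S) R, zt (O ++ S) [], cnt w, cnt p, cnt q, cnt 0, cnt 0,
          zt (Sym.org :: P) []] :=
      RunsLE.lift (by decide) (stream_copyRot q w S hS (L ++ P) R O) _ _
        (by simp [Fin.forall_fin_succ, cnt_eq_zt_zero]) (by simp [Fin.forall_fin_succ, cnt_eq_zt_zero])
        (by simp [Fin.forall_fin_succ])
    refine RunsLE.mono (s1.seq (s2.seq (s3.seq (s4.seq (s5.seq (s6.seq (s7.seq s8))))))) ?_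
    rw [hP]
    have e1 : (p + q) * w = p * w + q * w := by ring
    have e2 : q * (w * 5 + 6) = 5 * (q * w) + 6 * q := by ring
    have e3 : p * (w * 5 + 6) = 5 * (p * w) + 6 * p := by ring
    rw [e1, e2, e3]
    omega

theorem IsData.chunk {l : List Sym} (h : IsData l) (L j : ℕ) : IsData (chunk L l j) :=
  fun x hx => h x (List.mem_of_mem_drop (List.mem_of_mem_take hx))

/-- One batch of `n` rows.  Aux tapes: `n`, shadow, `w`, `p`, `q`, shadow, shadow, scratch. -/
noncomputable def rotBatch (dir : Bool) : Frag Sym 10 :=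
  seq (repS (rotRow dir)) (onAuxAt ![3, 4] moveCnt)

theorem stream_rotBatch (dir : Bool) (n w : ℕ) (B : List Sym) (hB : B.length = n * (n * w))
    (hd : IsData B) :
    Stream (rotBatch dir) B
      (cat n fun i => (chunk (n * w) B i).rotate ((if dir then i else n - i) * w))
      ![cnt n, cnt 0, cnt w, cnt 0, cnt n, cnt 0, cnt 0, cnt 0]
      ![cnt n, cnt 0, cnt w, cnt 0, cnt n, cnt 0, cnt 0, cnt 0]
      (n * (11 * (n * w) + 6 * n + 18) + 2 + (2 * n + 1)) := by
  have h1 := Stream.rep (body := rotRow dir) n (chunk (n * w) B)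
    (fun i => (chunk (n * w) B i).rotate ((if dir then i else n - i) * w))
    (fun i => ![cnt w, cnt i, cnt (n - i), cnt 0, cnt 0, cnt 0]) (11 * (n * w) + 6 * n + 14) ?_
  · rw [cat_chunk n (n * w) B hB] at h1
    have h2 : Stream (onAuxAt ![3, 4] moveCnt : Frag Sym 10) [] []
        ![cnt n, cnt 0, cnt w, cnt n, cnt (n - n), cnt 0, cnt 0, cnt 0]
        ![cnt n, cnt 0, cnt w, cnt 0, cnt n, cnt 0, cnt 0, cnt 0] (2 * n + 1) := by
      have h := runsLE_moveCnt n 0
      rw [Nat.zero_add] at h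
      rw [Nat.sub_self]
      exact Stream.onAuxAt (by decide) h _ _ (by simp [Fin.forall_fin_succ])
        (by simp [Fin.forall_fin_succ]) (by simp [Fin.forall_fin_succ])
    have h3 := h1.seq h2
    simp only [List.append_nil, Nat.sub_zero] at h3
    exact h3
  · intro i hi
    have hrow : (chunk (n * w) B i).length = n * w := length_chunk_of_lt n (n * w) B hB i hi
    have hle : (if dir then i else n - i) * w ≤ (chunk (n * w) B i).length := by
      rw [hrow]
      apply Nat.mul_le_mul_right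
      split <;> omega
    have h := stream_rotRow dir w i (n - i) ((chunk (n * w) B i).take ((if dir then i else n - i) * w))
      ((chunk (n * w) B i).drop ((if dir then i else n - i) * w))
      (by rw [List.length_take, Nat.min_eq_left hle])
      (by
        rw [List.length_drop, hrow]
        cases dir
        · simp only [Bool.false_eq_true, if_false]
          rw [← Nat.sub_mul]
          congr 1
          omega
        · simp only [if_true]
          rw [← Nat.sub_mul])
      (fun x hx => hd.chunk _ _ x (List.mem_of_mem_take hx))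
    rw [List.take_append_drop, ← List.rotate_eq_drop_append_take hle,
      show i + (n - i) = n by omega, Nat.sub_sub] at h
    exact h

/-- The pass in the inner tape order. -/
noncomputable def rotPass0 (dir : Bool) : Frag Sym 10 :=
  seq (lift ![2, 3, 6] (rep (incBy 1))) (seq (pass (rotBatch dir)) (lift ![6] zero))

theorem rowRot_eq_cat (dir : Bool) (n w K : ℕ) (hn : 0 < n) (hw : 0 < w) (l : List Sym)
    (hl : l.length = K * (n * n * w)) :
    rowRot dir n w l = cat K fun b => cat n fun i =>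
      (chunk (n * w) (chunk (n * (n * w)) l b) i).rotate ((if dir then i else n - i) * w) := by
  have h1 : l.length = (K * n) * (n * w) := by rw [hl]; ring
  rw [rowRot, mapChunks_eq_cat (K * n) (n * w) (Nat.mul_pos hn hw) _ l h1, ← cat_cat K n]
  refine cat_congr (fun b _ => cat_congr (fun i hi => ?_))
  have h4 : (b * n + i) % n = i := by
    rw [Nat.mul_comm, Nat.mul_add_mod, Nat.mod_eq_of_lt hi]
  rw [chunk_chunk (n * w) n l b i hi, h4]

theorem runsLE_rotPass0 (dir : Bool) (n w K : ℕ) (hn : 0 < n) (hw : 0 < w) (hK : 1 ≤ K)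
    (l : List Sym) (hl : l.length = K * (n * n * w)) (hd : IsData l) :
    RunsLE (rotPass0 dir)
      ![zt [] (Sym.org :: l), zt [] [Sym.org], cnt n, cnt 0, cnt w, cnt 0, cnt 0, cnt 0, cnt 0, cnt 0]
      (70 * l.length)
      ![zt [] (Sym.org :: l), zt [] (Sym.org :: rowRot dir n w l), cnt n, cnt 0, cnt w, cnt 0, cnt 0,
        cnt 0, cnt 0, cnt 0] := by
  have hl' : l.length = K * (n * (n * w)) := by rw [hl]; ring
  have hlen : ∀ j, j < K → (chunk (n * (n * w)) l j).length = n * (n * w) := fun j hj =>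
    length_chunk_of_lt K _ l hl' j hj
  have s1 : RunsLE (lift ![2, 3, 6] (rep (incBy 1)) : Frag Sym 10)
      ![zt [] (Sym.org :: l), zt [] [Sym.org], cnt n, cnt 0, cnt w, cnt 0, cnt 0, cnt 0, cnt 0, cnt 0]
      (n * (1 + 5) + 2)
      ![zt [] (Sym.org :: l), zt [] [Sym.org], cnt n, cnt 0, cnt w, cnt 0, cnt n, cnt 0, cnt 0,
        cnt 0] := by
    have h := runsLE_addMul 1 n 0
    rw [Nat.zero_add, Nat.one_mul] at h
    exact RunsLE.lift (by decide) h _ _ (by simp [Fin.forall_fin_succ])
      (by simp [Fin.forall_fin_succ]) (by simp [Fin.forall_fin_succ])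
  have s3 : RunsLE (lift ![6] zero : Frag Sym 10)
      ![zt [] (Sym.org :: l), zt [] (Sym.org :: rowRot dir n w l), cnt n, cnt 0, cnt w, cnt 0, cnt n,
        cnt 0, cnt 0, cnt 0]
      (2 * n + 1)
      ![zt [] (Sym.org :: l), zt [] (Sym.org :: rowRot dir n w l), cnt n, cnt 0, cnt w, cnt 0, cnt 0,
        cnt 0, cnt 0, cnt 0] :=
    RunsLE.lift (by decide) (runsLE_zero n) _ _ (by simp [Fin.forall_fin_succ])
      (by simp [Fin.forall_fin_succ]) (by simp [Fin.forall_fin_succ])
  have key := runsLE_pass (body := rotBatch dir) K (chunk (n * (n * w)) l)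
    (fun b => cat n fun i =>
      (chunk (n * w) (chunk (n * (n * w)) l b) i).rotate ((if dir then i else n - i) * w))
    (fun _ => ![cnt n, cnt 0, cnt w, cnt 0, cnt n, cnt 0, cnt 0, cnt 0])
    (fun _ => n * (11 * (n * w) + 6 * n + 18) + 2 + (2 * n + 1)) ?_ ?_
  · rw [cat_chunk K _ l hl', ← rowRot_eq_cat dir n w K hn hw l hl] at key
    have e3 : (rowRot dir n w l).length = l.length := by
      have h1 : l.length = (K * n) * (n * w) := by rw [hl]; ring
      rw [rowRot, length_mapChunks (K * n) (n * w) (n * w) (Nat.mul_pos hn hw) _ l h1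
        (fun j c _ hc => by rw [List.length_rotate, hc]), h1]
    rw [e3] at key
    refine RunsLE.mono (s1.seq (key.seq s3)) ?_
    simp only [Finset.sum_const, Finset.card_range, smul_eq_mul]
    rw [hl]
    have a1 : n ≤ n * n := Nat.le_mul_of_pos_left n hn
    have a2 : n * n ≤ n * n * w := Nat.le_mul_of_pos_right _ hw
    have a3 : n * n * w ≤ K * (n * n * w) := Nat.le_mul_of_pos_left _ hK
    have a4 : K ≤ K * (n * n * w) := Nat.le_mul_of_pos_right _ (by positivity)
    have a5 : K * n ≤ K * (n * n * w) := Nat.mul_le_mul_left K (a1.trans a2)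
    have a6 : K * (n * n) ≤ K * (n * n * w) := Nat.mul_le_mul_left K a2
    have e : K * (n * (11 * (n * w) + 6 * n + 18) + 2 + (2 * n + 1))
        = 11 * (K * (n * n * w)) + 6 * (K * (n * n)) + 20 * (K * n) + 3 * K := by ring
    rw [e]
    omega
  · intro j hj
    refine ⟨?_, hd.chunk _ _, IsData.cat fun i _ => ?_⟩
    · intro h0
      have := hlen j hj
      rw [h0] at this
      simp only [List.length_nil] at this
      have : 0 < n * (n * w) := by positivity
      omega
    · intro x hx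
      exact (hd.chunk _ _).chunk _ _ x (List.mem_rotate.1 hx)
  · intro j hj
    exact stream_rotBatch dir n w _ (hlen j hj) (hd.chunk _ _)

/-- The pass `rowRot`.  Tapes: `0` input, `1` output, `2` counter `n`, `3` counter `w`,
`4`-`9` scratch. -/
noncomputable def rotPass (dir : Bool) : Frag Sym 10 :=
  lift ![0, 1, 2, 4, 3, 5, 6, 7, 8, 9] (rotPass0 dir)

theorem runsLE_rotPass (dir : Bool) (n w K : ℕ) (hn : 0 < n) (hw : 0 < w) (hK : 1 ≤ K)
    (l : List Sym) (hl : l.length = K * (n * n * w)) (hd : IsData l) :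
    RunsLE (rotPass dir)
      ![zt [] (Sym.org :: l), zt [] [Sym.org], cnt n, cnt w, cnt 0, cnt 0, cnt 0, cnt 0, cnt 0, cnt 0]
      (70 * l.length)
      ![zt [] (Sym.org :: l), zt [] (Sym.org :: rowRot dir n w l), cnt n, cnt w, cnt 0, cnt 0, cnt 0,
        cnt 0, cnt 0, cnt 0] :=
  RunsLE.lift (by decide) (runsLE_rotPass0 dir n w K hn hw hK l hl hd) _ _
    (by simp [Fin.forall_fin_succ]) (by simp [Fin.forall_fin_succ]) (by simp [Fin.forall_fin_succ])

end Frag
end Vale.Agent.P338
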