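import Vale.Agent.P338.TM.Stream

/-!
TASK T4.  The passes `padRows` and `selRows`.
Tapes of `padRowsPass`: `0` input, `1` output, `2` counter `n`, `3` counter `s`, `4, 5` shadows,
`6` scratch counter `n * s`, `7` scratch counter `n * n * s`.
Tapes of `selRowsPass`: the same and `8` scratch counter `(n - 1) * n * s`, `9` scratch counter
`(n + 1) * n * s`.
-/

namespace Vale.Agent.P338
namespace Frag
open Matrix

/-! ### Counter arithmetic -/

/-- Tapes `x, shadow, y, shadow, z`: `z += x * y`. -/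
noncomputable def mulAdd : Frag Sym 5 := rep (rep (incBy 1))

theorem runsLE_mulAdd (x y z : ℕ) :
    RunsLE mulAdd ![cnt x, cnt 0, cnt y, cnt 0, cnt z] (x * (y * 6 + 6) + 2)
      ![cnt x, cnt 0, cnt y, cnt 0, cnt (z + x * y)] := by
  have := runsLE_rep (body := rep (incBy 1)) (fun j => ![cnt y, cnt 0, cnt (z + j * y)]) x
    (y * 6 + 2) ?_
  · unfold mulAdd
    simpa [Nat.add_assoc] using this
  · intro j _
    have h := runsLE_addMul 1 y (z + j * y)
    have e : z + j * y + 1 * y = z + (j + 1) * y := by ring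
    rw [e] at h
    exact h

/-- Tapes `x, shadow, y`: `y -= x`. -/
noncomputable def subCnt : Frag Sym 3 := rep mvL

theorem runsLE_subCnt (x y : ℕ) :
    RunsLE subCnt ![cnt x, cnt 0, cnt y] (x * 5 + 2) ![cnt x, cnt 0, cnt (y - x)] := by
  have := runsLE_rep (body := mvL) (fun j => ![cnt (y - j)]) x 1 ?_
  · unfold subCnt
    simpa using this
  · intro j _
    exact runsLE_mvL_cnt (y - j)

/-! ### `padRows` -/

/-- One batch: copy it and output twice as many zeros. -/
noncomputable def padRowsBody : Frag Sym 8 :=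
  seq (liftS ![5, 2] (repS copy1))
    (seq (liftS ![5, 2] (repS (out1 Sym.b0))) (liftS ![5, 2] (repS (out1 Sym.b0))))

theorem stream_padRowsBody (e : List Sym) (n s q : ℕ) :
    Stream padRowsBody e (e ++ List.replicate (2 * e.length) Sym.b0)
      ![cnt n, cnt s, cnt 0, cnt 0, cnt q, cnt e.length]
      ![cnt n, cnt s, cnt 0, cnt 0, cnt q, cnt e.length] (15 * e.length + 6) := by
  have h1 : Stream (liftS (K := 6) ![5, 2] (repS copy1)) e e
      ![cnt n, cnt s, cnt 0, cnt 0, cnt q, cnt e.length]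
      ![cnt n, cnt s, cnt 0, cnt 0, cnt q, cnt e.length] (e.length * 5 + 2) :=
    (stream_copyN e).lift (by decide) _ _ (by intro a; fin_cases a <;> rfl)
      (by intro a; fin_cases a <;> rfl) (fun _ _ => rfl)
  have h2 : Stream (liftS (K := 6) ![5, 2] (repS (out1 Sym.b0))) []
      (List.replicate e.length Sym.b0)
      ![cnt n, cnt s, cnt 0, cnt 0, cnt q, cnt e.length]
      ![cnt n, cnt s, cnt 0, cnt 0, cnt q, cnt e.length] (e.length * 5 + 2) :=
    (stream_outN Sym.b0 e.length).lift (by decide) _ _ (by intro a; fin_cases a <;> rfl)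
      (by intro a; fin_cases a <;> rfl) (fun _ _ => rfl)
  have := h1.seq (h2.seq h2)
  rw [List.append_nil, List.append_nil, ← List.replicate_add, ← two_mul] at this
  exact this.mono (by omega)

/-- Compute `n * s` and `n * (n * s)`. -/
noncomputable def rowsSetup : Frag Sym 8 :=
  seq (lift ![2, 4, 3, 5, 6] mulAdd) (lift ![2, 4, 6, 5, 7] mulAdd)

theorem runsLE_rowsSetup (X Y : Tape Sym) (n s : ℕ) :
    RunsLE rowsSetup ![X, Y, cnt n, cnt s, cnt 0, cnt 0, cnt 0, cnt 0]
      (n * (s * 6 + 6) + 2 + (n * (n * s * 6 + 6) + 2))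
      ![X, Y, cnt n, cnt s, cnt 0, cnt 0, cnt (n * s), cnt (n * (n * s))] := by
  have s1 : RunsLE (lift ![2, 4, 3, 5, 6] mulAdd : Frag Sym 8)
      ![X, Y, cnt n, cnt s, cnt 0, cnt 0, cnt 0, cnt 0] (n * (s * 6 + 6) + 2)
      ![X, Y, cnt n, cnt s, cnt 0, cnt 0, cnt (n * s), cnt 0] := by
    have := runsLE_mulAdd n s 0
    rw [Nat.zero_add] at this
    exact RunsLE.lift (by decide) this _ _ (by intro a; fin_cases a <;> rfl)
      (by intro a; fin_cases a <;> rfl)
      (by intro c hc; fin_cases c <;> first | exact absurd rfl (hc 0) | exact absurd rfl (hc 1) | exact absurd rfl (hc 2) | exact absurd rfl (hc 3) | exact absurd rfl (hc 4) | simp)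
  have s2 : RunsLE (lift ![2, 4, 6, 5, 7] mulAdd : Frag Sym 8)
      ![X, Y, cnt n, cnt s, cnt 0, cnt 0, cnt (n * s), cnt 0] (n * (n * s * 6 + 6) + 2)
      ![X, Y, cnt n, cnt s, cnt 0, cnt 0, cnt (n * s), cnt (n * (n * s))] := by
    have := runsLE_mulAdd n (n * s) 0
    rw [Nat.zero_add] at this
    exact RunsLE.lift (by decide) this _ _ (by intro a; fin_cases a <;> rfl)
      (by intro a; fin_cases a <;> rfl)
      (by intro c hc; fin_cases c <;> first | exact absurd rfl (hc 0) | exact absurd rfl (hc 1) | exact absurd rfl (hc 2) | exact absurd rfl (hc 3) | exact absurd rfl (hc 4) | simp)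
  exact s1.seq s2

/-- Zero the two scratch counters. -/
noncomputable def rowsCleanup : Frag Sym 8 := seq (lift ![6] zero) (lift ![7] zero)

theorem runsLE_rowsCleanup (X Y : Tape Sym) (n s q b : ℕ) :
    RunsLE rowsCleanup ![X, Y, cnt n, cnt s, cnt 0, cnt 0, cnt q, cnt b]
      (2 * q + 1 + (2 * b + 1)) ![X, Y, cnt n, cnt s, cnt 0, cnt 0, cnt 0, cnt 0] := by
  have s4 : RunsLE (lift ![6] zero : Frag Sym 8)
      ![X, Y, cnt n, cnt s, cnt 0, cnt 0, cnt q, cnt b] (2 * q + 1)
      ![X, Y, cnt n, cnt s, cnt 0, cnt 0, cnt 0, cnt b] :=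
    RunsLE.lift (by decide) (runsLE_zero q) _ _ (by intro a; fin_cases a; rfl)
      (by intro a; fin_cases a; rfl)
      (by intro c hc; fin_cases c <;> first | exact absurd rfl (hc 0) | exact absurd rfl (hc 1) | exact absurd rfl (hc 2) | exact absurd rfl (hc 3) | exact absurd rfl (hc 4) | simp)
  have s5 : RunsLE (lift ![7] zero : Frag Sym 8)
      ![X, Y, cnt n, cnt s, cnt 0, cnt 0, cnt 0, cnt b] (2 * b + 1)
      ![X, Y, cnt n, cnt s, cnt 0, cnt 0, cnt 0, cnt 0] :=
    RunsLE.lift (by decide) (runsLE_zero b) _ _ (by intro a; fin_cases a; rfl)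
      (by intro a; fin_cases a; rfl)
      (by intro c hc; fin_cases c <;> first | exact absurd rfl (hc 0) | exact absurd rfl (hc 1) | exact absurd rfl (hc 2) | exact absurd rfl (hc 3) | exact absurd rfl (hc 4) | simp)
  exact s4.seq s5

theorem runsLE_pass_padRowsBody (n s q B K : ℕ) (hB : 0 < B) (l : List Sym)
    (hl : l.length = K * B) (hd : IsData l) :
    RunsLE (pass padRowsBody)
      ![zt [] (Sym.org :: l), zt [] [Sym.org], cnt n, cnt s, cnt 0, cnt 0, cnt q, cnt B]
      (K * (15 * B + 6) + K + 2 * (K * B) + 2 * (K * (3 * B)) + 8)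
      ![zt [] (Sym.org :: l),
        zt [] (Sym.org :: cat K (fun j => chunk B l j ++ List.replicate (2 * B) Sym.b0)),
        cnt n, cnt s, cnt 0, cnt 0, cnt q, cnt B] := by
  have hlen : ∀ j, j < K → (chunk B l j).length = B := fun j hj =>
    length_chunk B l j (by rw [hl]; exact Nat.mul_le_mul_right _ hj)
  have hmem : ∀ j, IsData (chunk B l j) := fun j x hx =>
    hd x (List.mem_of_mem_drop (List.mem_of_mem_take hx))
  have e1 : cat K (chunk B l) = l := cat_chunk K B l hl
  have e3 : (cat K (fun j => chunk B l j ++ List.replicate (2 * B) Sym.b0)).length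
      = K * (3 * B) := by
    apply length_cat
    intro j hj
    simp [hlen j hj]
    omega
  have s3 := runsLE_pass (body := padRowsBody) K (chunk B l)
    (fun j => chunk B l j ++ List.replicate (2 * B) Sym.b0)
    (fun _ => ![cnt n, cnt s, cnt 0, cnt 0, cnt q, cnt B]) (fun _ => 15 * B + 6) ?_ ?_
  · rw [e1, e3, hl] at s3
    simpa only [Finset.sum_const, Finset.card_range, smul_eq_mul] using s3
  · intro j hj
    refine ⟨?_, hmem j, (hmem j).append (isData_replicate _ _ (by decide) (by decide))⟩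
    intro h0
    have := hlen j hj
    rw [h0] at this
    simp at this
    omega
  · intro j hj
    have := stream_padRowsBody (chunk B l j) n s q
    rw [hlen j hj] at this
    exact this

/-- The pass `padRows`. -/
noncomputable def padRowsPass : Frag Sym 8 :=
  seq rowsSetup (seq (pass padRowsBody) rowsCleanup)

theorem runsLE_padRowsPass (n s K : ℕ) (hn : 0 < n) (hs : 0 < s) (hK : 1 ≤ K) (l : List Sym)
    (hl : l.length = K * (n * n * s)) (hd : IsData l) :
    RunsLE padRowsPass
      ![zt [] (Sym.org :: l), zt [] [Sym.org], cnt n, cnt s, cnt 0, cnt 0, cnt 0, cnt 0]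
      (100 * l.length)
      ![zt [] (Sym.org :: l), zt [] (Sym.org :: padRows Sym.b0 n s l), cnt n, cnt s,
        cnt 0, cnt 0, cnt 0, cnt 0] := by
  obtain ⟨B, hB⟩ : ∃ B, B = n * (n * s) := ⟨_, rfl⟩
  have hB' : n * n * s = B := by rw [hB]; ring
  have hBpos : 0 < B := by rw [hB]; positivity
  rw [hB'] at hl
  have e2 : cat K (fun j => chunk B l j ++ List.replicate (2 * B) Sym.b0)
      = padRows Sym.b0 n s l := by
    unfold padRows mapChunks
    rw [hB', hl, Nat.mul_div_cancel _ hBpos]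
    apply cat_congr
    intro j _
    congr 2
    rw [← hB']
    ring
  have s1 := runsLE_rowsSetup (zt [] (Sym.org :: l)) (zt [] [Sym.org]) n s
  rw [← hB] at s1
  have s3 := runsLE_pass_padRowsBody n s (n * s) B K hBpos l hl hd
  rw [e2] at s3
  have s4 := runsLE_rowsCleanup (zt [] (Sym.org :: l)) (zt [] (Sym.org :: padRows Sym.b0 n s l))
    n s (n * s) B
  refine RunsLE.mono (s1.seq (s3.seq s4)) ?_
  rw [hl]
  have h1 : n ≤ n * s := Nat.le_mul_of_pos_right _ hs
  have h2 : n * s ≤ B := by rw [hB]; exact Nat.le_mul_of_pos_left _ hn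
  have h3 : B ≤ K * B := Nat.le_mul_of_pos_left _ hK
  have h4 : K ≤ K * B := Nat.le_mul_of_pos_right _ hBpos
  have a1 : n * (s * 6 + 6) = 6 * (n * s) + 6 * n := by ring
  have a2 : n * (n * s * 6 + 6) = 6 * B + 6 * n := by rw [hB]; ring
  have a3 : K * (15 * B + 6) = 15 * (K * B) + 6 * K := by ring
  have a4 : K * (3 * B) = 3 * (K * B) := by ring
  rw [a1, a2, a3, a4]
  generalize K * B = N at *
  generalize n * s = Q at *
  omega

/-! ### `selRows` -/

/-- One batch: skip, copy, skip. -/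
noncomputable def selRowsBody : Frag Sym 10 :=
  seq (liftS ![6, 2] (repS skip1)) (seq (liftS ![5, 2] (repS copy1)) (liftS ![7, 2] (repS skip1)))

theorem stream_selRowsBody (a b c : List Sym) (n s q : ℕ) :
    Stream selRowsBody (a ++ (b ++ c)) b
      ![cnt n, cnt s, cnt 0, cnt 0, cnt q, cnt b.length, cnt a.length, cnt c.length]
      ![cnt n, cnt s, cnt 0, cnt 0, cnt q, cnt b.length, cnt a.length, cnt c.length]
      (5 * (a.length + b.length + c.length) + 6) := by
  have h1 : Stream (liftS (K := 8) ![6, 2] (repS skip1)) a []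
      ![cnt n, cnt s, cnt 0, cnt 0, cnt q, cnt b.length, cnt a.length, cnt c.length]
      ![cnt n, cnt s, cnt 0, cnt 0, cnt q, cnt b.length, cnt a.length, cnt c.length]
      (a.length * 5 + 2) :=
    (stream_skipN a).lift (by decide) _ _ (by intro a; fin_cases a <;> rfl)
      (by intro a; fin_cases a <;> rfl) (fun _ _ => rfl)
  have h2 : Stream (liftS (K := 8) ![5, 2] (repS copy1)) b b
      ![cnt n, cnt s, cnt 0, cnt 0, cnt q, cnt b.length, cnt a.length, cnt c.length]
      ![cnt n, cnt s, cnt 0, cnt 0, cnt q, cnt b.length, cnt a.length, cnt c.length]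
      (b.length * 5 + 2) :=
    (stream_copyN b).lift (by decide) _ _ (by intro a; fin_cases a <;> rfl)
      (by intro a; fin_cases a <;> rfl) (fun _ _ => rfl)
  have h3 : Stream (liftS (K := 8) ![7, 2] (repS skip1)) c []
      ![cnt n, cnt s, cnt 0, cnt 0, cnt q, cnt b.length, cnt a.length, cnt c.length]
      ![cnt n, cnt s, cnt 0, cnt 0, cnt q, cnt b.length, cnt a.length, cnt c.length]
      (c.length * 5 + 2) :=
    (stream_skipN c).lift (by decide) _ _ (by intro a; fin_cases a <;> rfl)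
      (by intro a; fin_cases a <;> rfl) (fun _ _ => rfl)
  have := h1.seq (h2.seq h3)
  rw [List.nil_append, List.append_nil] at this
  exact this.mono (by omega)

/-- Compute `q = n * s`, `b = n * q`, `b - q` and `b + q`. -/
noncomputable def selSetup : Frag Sym 10 :=
  seq (lift ![0, 1, 2, 3, 4, 5, 6, 7] rowsSetup)
    (seq (seq (lift ![7, 4, 8] (rep (incBy 1))) (lift ![6, 4, 8] subCnt))
      (seq (lift ![7, 4, 9] (rep (incBy 1))) (lift ![6, 4, 9] (rep (incBy 1)))))

theorem runsLE_selSetup1 (X Y : Tape Sym) (n s : ℕ) :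
    RunsLE (lift ![0, 1, 2, 3, 4, 5, 6, 7] rowsSetup : Frag Sym 10)
      ![X, Y, cnt n, cnt s, cnt 0, cnt 0, cnt 0, cnt 0, cnt 0, cnt 0]
      (n * (s * 6 + 6) + 2 + (n * (n * s * 6 + 6) + 2))
      ![X, Y, cnt n, cnt s, cnt 0, cnt 0, cnt (n * s), cnt (n * (n * s)), cnt 0, cnt 0] :=
  RunsLE.lift (by decide) (runsLE_rowsSetup X Y n s) _ _ (by intro a; fin_cases a <;> rfl)
    (by intro a; fin_cases a <;> rfl)
    (by intro c hc; fin_cases c <;> first | exact absurd rfl (hc 0) | exact absurd rfl (hc 1) | exact absurd rfl (hc 2) | exact absurd rfl (hc 3) | exact absurd rfl (hc 4) | exact absurd rfl (hc 5) | exact absurd rfl (hc 6) | exact absurd rfl (hc 7) | simp)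

theorem runsLE_selSetup2 (X Y : Tape Sym) (n s q b : ℕ) :
    RunsLE (seq (lift ![7, 4, 8] (rep (incBy 1))) (lift ![6, 4, 8] subCnt) : Frag Sym 10)
      ![X, Y, cnt n, cnt s, cnt 0, cnt 0, cnt q, cnt b, cnt 0, cnt 0]
      (b * 6 + 2 + (q * 5 + 2))
      ![X, Y, cnt n, cnt s, cnt 0, cnt 0, cnt q, cnt b, cnt (b - q), cnt 0] := by
  have s1 : RunsLE (lift ![7, 4, 8] (rep (incBy 1)) : Frag Sym 10)
      ![X, Y, cnt n, cnt s, cnt 0, cnt 0, cnt q, cnt b, cnt 0, cnt 0] (b * 6 + 2)
      ![X, Y, cnt n, cnt s, cnt 0, cnt 0, cnt q, cnt b, cnt b, cnt 0] := by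
    have := runsLE_addMul 1 b 0
    rw [Nat.zero_add, Nat.one_mul] at this
    exact RunsLE.lift (by decide) this _ _ (by intro a; fin_cases a <;> rfl)
      (by intro a; fin_cases a <;> rfl)
      (by intro c hc; fin_cases c <;> first | exact absurd rfl (hc 0) | exact absurd rfl (hc 1) | exact absurd rfl (hc 2) | simp)
  have s2 : RunsLE (lift ![6, 4, 8] subCnt : Frag Sym 10)
      ![X, Y, cnt n, cnt s, cnt 0, cnt 0, cnt q, cnt b, cnt b, cnt 0] (q * 5 + 2)
      ![X, Y, cnt n, cnt s, cnt 0, cnt 0, cnt q, cnt b, cnt (b - q), cnt 0] :=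
    RunsLE.lift (by decide) (runsLE_subCnt q b) _ _ (by intro a; fin_cases a <;> rfl)
      (by intro a; fin_cases a <;> rfl)
      (by intro c hc; fin_cases c <;> first | exact absurd rfl (hc 0) | exact absurd rfl (hc 1) | exact absurd rfl (hc 2) | simp)
  exact s1.seq s2

theorem runsLE_selSetup3 (X Y : Tape Sym) (n s q b a : ℕ) :
    RunsLE (seq (lift ![7, 4, 9] (rep (incBy 1))) (lift ![6, 4, 9] (rep (incBy 1))) : Frag Sym 10)
      ![X, Y, cnt n, cnt s, cnt 0, cnt 0, cnt q, cnt b, cnt a, cnt 0]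
      (b * 6 + 2 + (q * 6 + 2))
      ![X, Y, cnt n, cnt s, cnt 0, cnt 0, cnt q, cnt b, cnt a, cnt (b + q)] := by
  have s1 : RunsLE (lift ![7, 4, 9] (rep (incBy 1)) : Frag Sym 10)
      ![X, Y, cnt n, cnt s, cnt 0, cnt 0, cnt q, cnt b, cnt a, cnt 0] (b * 6 + 2)
      ![X, Y, cnt n, cnt s, cnt 0, cnt 0, cnt q, cnt b, cnt a, cnt b] := by
    have := runsLE_addMul 1 b 0
    rw [Nat.zero_add, Nat.one_mul] at this
    exact RunsLE.lift (by decide) this _ _ (by intro a; fin_cases a <;> rfl)
      (by intro a; fin_cases a <;> rfl)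
      (by intro c hc; fin_cases c <;> first | exact absurd rfl (hc 0) | exact absurd rfl (hc 1) | exact absurd rfl (hc 2) | simp)
  have s2 : RunsLE (lift ![6, 4, 9] (rep (incBy 1)) : Frag Sym 10)
      ![X, Y, cnt n, cnt s, cnt 0, cnt 0, cnt q, cnt b, cnt a, cnt b] (q * 6 + 2)
      ![X, Y, cnt n, cnt s, cnt 0, cnt 0, cnt q, cnt b, cnt a, cnt (b + q)] := by
    have := runsLE_addMul 1 q b
    rw [Nat.one_mul] at this
    exact RunsLE.lift (by decide) this _ _ (by intro a; fin_cases a <;> rfl)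
      (by intro a; fin_cases a <;> rfl)
      (by intro c hc; fin_cases c <;> first | exact absurd rfl (hc 0) | exact absurd rfl (hc 1) | exact absurd rfl (hc 2) | simp)
  exact s1.seq s2

theorem runsLE_selSetup (X Y : Tape Sym) (n s : ℕ) :
    RunsLE selSetup ![X, Y, cnt n, cnt s, cnt 0, cnt 0, cnt 0, cnt 0, cnt 0, cnt 0]
      (n * (s * 6 + 6) + 2 + (n * (n * s * 6 + 6) + 2) +
        (n * (n * s) * 6 + 2 + (n * s * 5 + 2) + (n * (n * s) * 6 + 2 + (n * s * 6 + 2))))
      ![X, Y, cnt n, cnt s, cnt 0, cnt 0, cnt (n * s), cnt (n * (n * s)),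
        cnt (n * (n * s) - n * s), cnt (n * (n * s) + n * s)] := by
  exact (runsLE_selSetup1 X Y n s).seq ((runsLE_selSetup2 X Y n s (n * s) (n * (n * s))).seq
    (runsLE_selSetup3 X Y n s (n * s) (n * (n * s)) (n * (n * s) - n * s)))

/-- Zero the four scratch counters. -/
noncomputable def selCleanup : Frag Sym 10 :=
  seq (seq (lift ![6] zero) (lift ![7] zero)) (seq (lift ![8] zero) (lift ![9] zero))

theorem runsLE_selCleanup1 (X Y : Tape Sym) (n s q b a c : ℕ) :
    RunsLE (seq (lift ![6] zero) (lift ![7] zero) : Frag Sym 10)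
      ![X, Y, cnt n, cnt s, cnt 0, cnt 0, cnt q, cnt b, cnt a, cnt c]
      (2 * q + 1 + (2 * b + 1)) ![X, Y, cnt n, cnt s, cnt 0, cnt 0, cnt 0, cnt 0, cnt a, cnt c] := by
  have s4 : RunsLE (lift ![6] zero : Frag Sym 10)
      ![X, Y, cnt n, cnt s, cnt 0, cnt 0, cnt q, cnt b, cnt a, cnt c] (2 * q + 1)
      ![X, Y, cnt n, cnt s, cnt 0, cnt 0, cnt 0, cnt b, cnt a, cnt c] :=
    RunsLE.lift (by decide) (runsLE_zero q) _ _ (by intro a; fin_cases a; rfl)
      (by intro a; fin_cases a; rfl)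
      (by intro c hc; fin_cases c <;> first | exact absurd rfl (hc 0) | simp)
  have s5 : RunsLE (lift ![7] zero : Frag Sym 10)
      ![X, Y, cnt n, cnt s, cnt 0, cnt 0, cnt 0, cnt b, cnt a, cnt c] (2 * b + 1)
      ![X, Y, cnt n, cnt s, cnt 0, cnt 0, cnt 0, cnt 0, cnt a, cnt c] :=
    RunsLE.lift (by decide) (runsLE_zero b) _ _ (by intro a; fin_cases a; rfl)
      (by intro a; fin_cases a; rfl)
      (by intro c hc; fin_cases c <;> first | exact absurd rfl (hc 0) | simp)
  exact s4.seq s5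

theorem runsLE_selCleanup2 (X Y : Tape Sym) (n s a c : ℕ) :
    RunsLE (seq (lift ![8] zero) (lift ![9] zero) : Frag Sym 10)
      ![X, Y, cnt n, cnt s, cnt 0, cnt 0, cnt 0, cnt 0, cnt a, cnt c]
      (2 * a + 1 + (2 * c + 1)) ![X, Y, cnt n, cnt s, cnt 0, cnt 0, cnt 0, cnt 0, cnt 0, cnt 0] := by
  have s4 : RunsLE (lift ![8] zero : Frag Sym 10)
      ![X, Y, cnt n, cnt s, cnt 0, cnt 0, cnt 0, cnt 0, cnt a, cnt c] (2 * a + 1)
      ![X, Y, cnt n, cnt s, cnt 0, cnt 0, cnt 0, cnt 0, cnt 0, cnt c] :=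
    RunsLE.lift (by decide) (runsLE_zero a) _ _ (by intro a; fin_cases a; rfl)
      (by intro a; fin_cases a; rfl)
      (by intro c hc; fin_cases c <;> first | exact absurd rfl (hc 0) | simp)
  have s5 : RunsLE (lift ![9] zero : Frag Sym 10)
      ![X, Y, cnt n, cnt s, cnt 0, cnt 0, cnt 0, cnt 0, cnt 0, cnt c] (2 * c + 1)
      ![X, Y, cnt n, cnt s, cnt 0, cnt 0, cnt 0, cnt 0, cnt 0, cnt 0] :=
    RunsLE.lift (by decide) (runsLE_zero c) _ _ (by intro a; fin_cases a; rfl)
      (by intro a; fin_cases a; rfl)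
      (by intro c hc; fin_cases c <;> first | exact absurd rfl (hc 0) | simp)
  exact s4.seq s5

theorem runsLE_pass_selRowsBody (n s q A B C K : ℕ) (hB : 0 < B) (l : List Sym)
    (hl : l.length = K * (A + B + C)) (hd : IsData l) :
    RunsLE (pass selRowsBody)
      ![zt [] (Sym.org :: l), zt [] [Sym.org], cnt n, cnt s, cnt 0, cnt 0, cnt q, cnt B, cnt A, cnt C]
      (K * (5 * (A + B + C) + 6) + K + 2 * (K * (A + B + C)) + 2 * (K * B) + 8)
      ![zt [] (Sym.org :: l),
        zt [] (Sym.org :: cat K (fun j => ((chunk (A + B + C) l j).drop A).take B)),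
        cnt n, cnt s, cnt 0, cnt 0, cnt q, cnt B, cnt A, cnt C] := by
  have hlen : ∀ j, j < K → (chunk (A + B + C) l j).length = A + B + C := fun j hj =>
    length_chunk (A + B + C) l j (by rw [hl]; exact Nat.mul_le_mul_right _ hj)
  have hmem : ∀ j, IsData (chunk (A + B + C) l j) := fun j x hx =>
    hd x (List.mem_of_mem_drop (List.mem_of_mem_take hx))
  have e1 : cat K (chunk (A + B + C) l) = l := cat_chunk K (A + B + C) l hl
  have e3 : (cat K (fun j => ((chunk (A + B + C) l j).drop A).take B)).length = K * B := by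
    apply length_cat
    intro j hj
    simp [hlen j hj]
    omega
  have s3 := runsLE_pass (body := selRowsBody) K (chunk (A + B + C) l)
    (fun j => ((chunk (A + B + C) l j).drop A).take B)
    (fun _ => ![cnt n, cnt s, cnt 0, cnt 0, cnt q, cnt B, cnt A, cnt C])
    (fun _ => 5 * (A + B + C) + 6) ?_ ?_
  · rw [e1, e3, hl] at s3
    simpa only [Finset.sum_const, Finset.card_range, smul_eq_mul] using s3
  · intro j hj
    refine ⟨?_, hmem j, fun x hx => hmem j x (List.mem_of_mem_drop (List.mem_of_mem_take hx))⟩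
    intro h0
    have := hlen j hj
    rw [h0] at this
    simp at this
    omega
  · intro j hj
    have h := hlen j hj
    generalize chunk (A + B + C) l j = t at h
    have := stream_selRowsBody (t.take A) ((t.drop A).take B) ((t.drop A).drop B) n s q
    rw [List.take_append_drop, List.take_append_drop] at this
    have l1 : (t.take A).length = A := by simp; omega
    have l2 : ((t.drop A).take B).length = B := by simp; omega
    have l3 : ((t.drop A).drop B).length = C := by simp; omega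
    rw [l1, l2, l3] at this
    exact this

/-- The pass `selRows`. -/
noncomputable def selRowsPass : Frag Sym 10 :=
  seq selSetup (seq (pass selRowsBody) selCleanup)

theorem runsLE_selRowsPass (n s K : ℕ) (hn : 0 < n) (hs : 0 < s) (hK : 1 ≤ K) (l : List Sym)
    (hl : l.length = K * (3 * n * n * s)) (hd : IsData l) :
    RunsLE selRowsPass
      ![zt [] (Sym.org :: l), zt [] [Sym.org], cnt n, cnt s, cnt 0, cnt 0, cnt 0, cnt 0, cnt 0, cnt 0]
      (100 * l.length)
      ![zt [] (Sym.org :: l), zt [] (Sym.org :: selRows n s l), cnt n, cnt s,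
        cnt 0, cnt 0, cnt 0, cnt 0, cnt 0, cnt 0] := by
  obtain ⟨Q, hQ⟩ : ∃ Q, Q = n * s := ⟨_, rfl⟩
  obtain ⟨B, hB⟩ : ∃ B, B = n * Q := ⟨_, rfl⟩
  have hQpos : 0 < Q := by rw [hQ]; positivity
  have hBpos : 0 < B := by rw [hB]; positivity
  have hQB : Q ≤ B := by rw [hB]; exact Nat.le_mul_of_pos_left _ hn
  have hB' : n * n * s = B := by rw [hB, hQ]; ring
  have hA' : (n - 1) * n * s = B - Q := by
    rw [hB, Nat.mul_assoc, ← hQ, Nat.sub_mul, Nat.one_mul]
  have h3 : 3 * n * n * s = B - Q + B + (B + Q) := by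
    have : 3 * n * n * s = 3 * B := by rw [← hB']; ring
    omega
  rw [h3] at hl
  have e2 : cat K (fun j => ((chunk (B - Q + B + (B + Q)) l j).drop (B - Q)).take B)
      = selRows n s l := by
    unfold selRows mapChunks
    rw [h3, hA', hB', hl, Nat.mul_div_cancel _ (by omega)]
  have s1 := runsLE_selSetup (zt [] (Sym.org :: l)) (zt [] [Sym.org]) n s
  rw [← hQ, ← hB] at s1
  have s3 := runsLE_pass_selRowsBody n s Q (B - Q) B (B + Q) K hBpos l hl hd
  rw [e2] at s3
  have s4 := (runsLE_selCleanup1 (zt [] (Sym.org :: l)) (zt [] (Sym.org :: selRows n s l))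
    n s Q B (B - Q) (B + Q)).seq (runsLE_selCleanup2 (zt [] (Sym.org :: l))
    (zt [] (Sym.org :: selRows n s l)) n s (B - Q) (B + Q))
  refine RunsLE.mono (s1.seq (s3.seq s4)) ?_
  rw [hl]
  have e : B - Q + B + (B + Q) = 3 * B := by omega
  rw [e]
  have h1 : n ≤ Q := by rw [hQ]; exact Nat.le_mul_of_pos_right _ hs
  have h3 : B ≤ K * B := Nat.le_mul_of_pos_left _ hK
  have h4 : K ≤ K * B := Nat.le_mul_of_pos_right _ hBpos
  have a1 : n * (s * 6 + 6) = 6 * Q + 6 * n := by rw [hQ]; ring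
  have a2 : n * (Q * 6 + 6) = 6 * B + 6 * n := by rw [hB]; ring
  have a3 : K * (5 * (3 * B) + 6) = 15 * (K * B) + 6 * K := by ring
  have a4 : K * (3 * B) = 3 * (K * B) := by ring
  rw [a1, a2, a3, a4]
  generalize K * B = N at *
  omega

end Frag
end Vale.Agent.P338
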