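import Vale.Agent.P338.TM.Cyc
import Vale.Agent.P338.TM.Agree

/-!
TASK T3.  The pass `shiftSlots` (multiplication of the slots by the chirp powers of two).
Tapes of `shiftPass mode`: `0` input, `1` output, `2` counter `n`, `11` counter `g`, all the other
tapes are counters that are zero before and after the pass.
-/

namespace Vale.Agent.P338
namespace Frag
open Matrix

namespace Shift

/-- The exponent schedule. -/
def eps (mode : Bool) (n r q : ℕ) : ℕ := if mode then epsB n r q else epsCH n r q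

theorem eps_lt (mode : Bool) (n r q : ℕ) (hn : 0 < n) : eps mode n r q < 2 * n := by
  unfold eps epsB epsCH
  split_ifs <;> exact Nat.mod_lt _ (by omega)

theorem stream_noop {k : ℕ} (aux : Fin k → Tape Sym) :
    Stream (prim noop : Frag Sym (k + 2)) [] [] aux aux 1 := by
  intro L R O
  simp only [List.nil_append, List.append_nil]
  exact RunsLE.prim _ _ _ (acts_noop _)

/-- One slot.  Aux tapes: `E, Eh, D, Dn, F5, g, sh1, sh2`. -/
noncomputable def slotF : Frag Sym 10 :=
  seq (liftS ![0, 6, 5, 7] (repS (repS (out1 Sym.b0))))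
    (seq (liftS ![1, 6, 5, 7] (repS (repS copy1)))
      (seq (liftS ![4, 6, 5, 7] (repS (repS copy1)))
        (liftS ![0, 6, 5, 7] (repS (repS skip1)))))

theorem stream_slotF (M g e d dn : ℕ) (he : e < M) (σ : List Sym) (hσ : σ.length = 6 * M * g) :
    Stream slotF σ (List.replicate (g * e) Sym.b0 ++ σ.take (6 * M * g - g * e))
      ![cnt e, cnt (M - e), cnt d, cnt dn, cnt (5 * M), cnt g, cnt 0, cnt 0]
      ![cnt e, cnt (M - e), cnt d, cnt dn, cnt (5 * M), cnt g, cnt 0, cnt 0]
      (7 * M * (g * 5 + 6) + 8) := by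
  have hsum : (M - e) * g + 5 * M * g + e * g = 6 * M * g := by
    obtain ⟨u, rfl⟩ : ∃ u, M = e + u := ⟨M - e, by omega⟩
    rw [Nat.add_sub_cancel_left]
    ring
  have hA1 : (σ.take ((M - e) * g)).length = (M - e) * g := by
    rw [List.length_take, hσ]
    omega
  have hA2 : ((σ.drop ((M - e) * g)).take (5 * M * g)).length = 5 * M * g := by
    rw [List.length_take, List.length_drop, hσ]
    omega
  have hA3 : (σ.drop ((M - e) * g + 5 * M * g)).length = e * g := by
    rw [List.length_drop, hσ]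
    omega
  have h1 : Stream (liftS (K := 8) ![0, 6, 5, 7] (repS (repS (out1 Sym.b0)))) []
      (List.replicate (e * g) Sym.b0)
      ![cnt e, cnt (M - e), cnt d, cnt dn, cnt (5 * M), cnt g, cnt 0, cnt 0]
      ![cnt e, cnt (M - e), cnt d, cnt dn, cnt (5 * M), cnt g, cnt 0, cnt 0]
      (e * (g * 5 + 6) + 2) :=
    (stream_outNM Sym.b0 e g).lift (by decide) _ _ (by intro a; fin_cases a <;> rfl)
      (by intro a; fin_cases a <;> rfl)
      (fun _ _ => rfl)
  have h2 : Stream (liftS (K := 8) ![1, 6, 5, 7] (repS (repS copy1)))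
      (σ.take ((M - e) * g)) (σ.take ((M - e) * g))
      ![cnt e, cnt (M - e), cnt d, cnt dn, cnt (5 * M), cnt g, cnt 0, cnt 0]
      ![cnt e, cnt (M - e), cnt d, cnt dn, cnt (5 * M), cnt g, cnt 0, cnt 0]
      ((M - e) * (g * 5 + 6) + 2) :=
    (stream_copyNM (M - e) g _ hA1).lift (by decide) _ _ (by intro a; fin_cases a <;> rfl)
      (by intro a; fin_cases a <;> rfl)
      (fun _ _ => rfl)
  have h3 : Stream (liftS (K := 8) ![4, 6, 5, 7] (repS (repS copy1)))
      ((σ.drop ((M - e) * g)).take (5 * M * g)) ((σ.drop ((M - e) * g)).take (5 * M * g))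
      ![cnt e, cnt (M - e), cnt d, cnt dn, cnt (5 * M), cnt g, cnt 0, cnt 0]
      ![cnt e, cnt (M - e), cnt d, cnt dn, cnt (5 * M), cnt g, cnt 0, cnt 0]
      (5 * M * (g * 5 + 6) + 2) :=
    (stream_copyNM (5 * M) g _ hA2).lift (by decide) _ _ (by intro a; fin_cases a <;> rfl)
      (by intro a; fin_cases a <;> rfl)
      (fun _ _ => rfl)
  have h4 : Stream (liftS (K := 8) ![0, 6, 5, 7] (repS (repS skip1)))
      (σ.drop ((M - e) * g + 5 * M * g)) []
      ![cnt e, cnt (M - e), cnt d, cnt dn, cnt (5 * M), cnt g, cnt 0, cnt 0]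
      ![cnt e, cnt (M - e), cnt d, cnt dn, cnt (5 * M), cnt g, cnt 0, cnt 0]
      (e * (g * 5 + 6) + 2) :=
    (stream_skipNM e g _ hA3).lift (by decide) _ _ (by intro a; fin_cases a <;> rfl)
      (by intro a; fin_cases a <;> rfl)
      (fun _ _ => rfl)
  have key := h1.seq (h2.seq (h3.seq h4))
  have e1 : σ.take ((M - e) * g) ++ (σ.drop ((M - e) * g)).take (5 * M * g)
      = σ.take ((M - e) * g + 5 * M * g) := (List.take_add).symm
  have e2 : [] ++ (σ.take ((M - e) * g) ++ ((σ.drop ((M - e) * g)).take (5 * M * g) ++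
      σ.drop ((M - e) * g + 5 * M * g))) = σ := by
    rw [List.nil_append, ← List.append_assoc, e1, List.take_append_drop]
  have e3 : List.replicate (e * g) Sym.b0 ++ (σ.take ((M - e) * g) ++
      ((σ.drop ((M - e) * g)).take (5 * M * g) ++ []))
      = List.replicate (g * e) Sym.b0 ++ σ.take (6 * M * g - g * e) := by
    rw [List.append_nil, e1, Nat.mul_comm e g]
    congr 2
    rw [Nat.mul_comm g e]
    omega
  rw [e2, e3] at key
  refine key.mono ?_
  have h5 : e * (g * 5 + 6) + (M - e) * (g * 5 + 6) + 5 * M * (g * 5 + 6) + e * (g * 5 + 6)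
      ≤ 7 * M * (g * 5 + 6) := by
    rw [← Nat.add_mul, ← Nat.add_mul, ← Nat.add_mul]
    exact Nat.mul_le_mul_right _ (by omega)
  omega


/-! ### Arithmetic of the schedules -/

theorem epsB_step (n r q : ℕ) (hq : q < n) (hr : r ≤ n) :
    (epsB n r q + (2 * n - 2 * r)) % (2 * n) = epsB n r (q + 1) := by
  unfold epsB
  obtain ⟨t, ht⟩ : ∃ t, r + n - q = t + 1 := ⟨r + n - q - 1, by omega⟩
  have ht' : r + n - (q + 1) = t := by omega
  obtain ⟨u, rfl⟩ : ∃ u, n = r + u := ⟨n - r, by omega⟩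
  rw [Nat.mod_add_mod, ht, ht']
  have e : 2 * r * (t + 1) + (2 * (r + u) - 2 * r) = 2 * r * t + 2 * (r + u) := by
    have : 2 * (r + u) - 2 * r = 2 * u := by omega
    rw [this]
    ring
  rw [e, Nat.add_mod_right]

theorem epsB_row (n r : ℕ) :
    ((epsB n r n + (2 * r + 1)) % (2 * n) + (2 * r + 1)) % (2 * n) = epsB n (r + 1) 0 := by
  unfold epsB
  rw [Nat.mod_add_mod, Nat.add_assoc, Nat.mod_add_mod, ← Nat.add_assoc, Nat.add_sub_cancel,
    Nat.sub_zero]
  have e : 2 * (r + 1) * (r + 1 + n) = 2 * r * r + (2 * r + 1) + (2 * r + 1) + (r + 1) * (2 * n) := by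
    ring
  rw [e, Nat.add_mul_mod_self_right]

theorem epsCH_row (n r q q' : ℕ) :
    (epsCH n r q + (2 * r + 1)) % (2 * n) = epsCH n (r + 1) q' := by
  unfold epsCH
  rw [Nat.mod_add_mod]
  congr 1
  ring

theorem eps_zero (mode : Bool) (n : ℕ) : eps mode n 0 0 = 0 := by
  cases mode <;> simp [eps, epsB, epsCH]

/-! ### Update of `E` after a slot -/

/-- Update of `E` after a slot (aux tapes as for `slotF`). -/
noncomputable def slotUpd (mode : Bool) : Frag Sym 10 :=
  if mode then onAuxAt ![3, 6, 0, 1] (rep incCyc) else prim noop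

theorem stream_slotUpd (mode : Bool) (n g r q : ℕ) (hn : 0 < n) (hq : q < n) (hr : r ≤ n) :
    Stream (slotUpd mode) [] []
      ![cnt (eps mode n r q), cnt (2 * n - eps mode n r q), cnt (2 * r), cnt (2 * n - 2 * r),
        cnt (5 * (2 * n)), cnt g, cnt 0, cnt 0]
      ![cnt (eps mode n r (q + 1)), cnt (2 * n - eps mode n r (q + 1)), cnt (2 * r),
        cnt (2 * n - 2 * r), cnt (5 * (2 * n)), cnt g, cnt 0, cnt 0]
      (14 * (2 * n) + 2) := by
  cases mode with
  | false =>
    have e : eps false n r (q + 1) = eps false n r q := rfl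
    rw [e]
    unfold slotUpd
    rw [if_neg (by decide)]
    exact (stream_noop _).mono (by omega)
  | true =>
    have he : eps true n r q < 2 * n := eps_lt true n r q hn
    have e : eps true n r (q + 1) = (eps true n r q + (2 * n - 2 * r)) % (2 * n) :=
      (epsB_step n r q hq hr).symm
    rw [e]
    unfold slotUpd
    rw [if_pos rfl]
    refine (Stream.onAuxAt (by decide) (runsLE_addCyc (2 * n) (eps true n r q) (2 * n - 2 * r) he)
      _ _ (by intro a; fin_cases a <;> rfl)
      (by intro a; fin_cases a <;> rfl)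
      (agree_chg (fun hc => hc 2 rfl) (agree_chg (fun hc => hc 3 rfl) (fun _ _ => rfl)))).mono ?_
    omega

/-- A slot and the update. -/
noncomputable def slotFull (mode : Bool) : Frag Sym 10 := seq slotF (slotUpd mode)

theorem stream_slotFull (mode : Bool) (n g r q : ℕ) (hn : 0 < n) (hq : q < n) (hr : r ≤ n)
    (σ : List Sym) (hσ : σ.length = 6 * (2 * n) * g) :
    Stream (slotFull mode) σ
      (List.replicate (g * eps mode n r q) Sym.b0 ++ σ.take (6 * (2 * n) * g - g * eps mode n r q))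
      ![cnt (eps mode n r q), cnt (2 * n - eps mode n r q), cnt (2 * r), cnt (2 * n - 2 * r),
        cnt (5 * (2 * n)), cnt g, cnt 0, cnt 0]
      ![cnt (eps mode n r (q + 1)), cnt (2 * n - eps mode n r (q + 1)), cnt (2 * r),
        cnt (2 * n - 2 * r), cnt (5 * (2 * n)), cnt g, cnt 0, cnt 0]
      (7 * (2 * n) * (g * 5 + 6) + 8 + (14 * (2 * n) + 2)) := by
  have h := (stream_slotF (2 * n) g (eps mode n r q) (2 * r) (2 * n - 2 * r) (eps_lt mode n r q hn)
    σ hσ).seq (stream_slotUpd mode n g r q hn hq hr)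
  rw [List.append_nil, List.append_nil] at h
  exact h

/-! ### Rows -/

/-- `x += 1`, `y -= 1`. -/
def bump : Frag Sym 2 := prim fun s => ![(s 0, Dir.right), (s 1, Dir.left)]

theorem runsLE_bump (x y : ℕ) : RunsLE bump ![cnt x, cnt y] 1 ![cnt (x + 1), cnt (y - 1)] := by
  refine RunsLE.prim _ _ _ ?_
  simp only [reads_cons, cons_val_zero, cons_val_one, acts_cons, cnt_left, cnt_right]
  simp

/-- The second addition of `D` (only in the second mode). -/
noncomputable def addIf (mode : Bool) : Frag Sym 12 :=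
  if mode then onAuxAt ![4, 8, 2, 3] (rep incCyc) else prim noop

/-- Update after a row.  Aux tapes: `nC, shC, E, Eh, D, Dn, F5, g, sh1, sh2`. -/
noncomputable def rowUpd (mode : Bool) : Frag Sym 12 :=
  seq (onAuxAt ![4, 5] bump)
    (seq (onAuxAt ![4, 8, 2, 3] (rep incCyc)) (seq (addIf mode) (onAuxAt ![4, 5] bump)))

theorem stream_rowUpd (mode : Bool) (n g r : ℕ) (hr : r < n) :
    Stream (rowUpd mode) [] []
      ![cnt n, cnt 0, cnt (eps mode n r n), cnt (2 * n - eps mode n r n), cnt (2 * r),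
        cnt (2 * n - 2 * r), cnt (5 * (2 * n)), cnt g, cnt 0, cnt 0]
      ![cnt n, cnt 0, cnt (eps mode n (r + 1) 0), cnt (2 * n - eps mode n (r + 1) 0),
        cnt (2 * (r + 1)), cnt (2 * n - 2 * (r + 1)), cnt (5 * (2 * n)), cnt g, cnt 0, cnt 0]
      (28 * (2 * n) + 6) := by
  have hn : 0 < n := by omega
  have he : eps mode n r n < 2 * n := eps_lt mode n r n hn
  generalize hE : eps mode n r n = e at he ⊢
  have hM : 0 < 2 * n := by omega
  have he1 : (e + (2 * r + 1)) % (2 * n) < 2 * n := Nat.mod_lt _ hM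
  have s1 : Stream (onAuxAt (K := 10) ![4, 5] bump) [] []
      ![cnt n, cnt 0, cnt e, cnt (2 * n - e), cnt (2 * r),
        cnt (2 * n - 2 * r), cnt (5 * (2 * n)), cnt g, cnt 0, cnt 0]
      ![cnt n, cnt 0, cnt e, cnt (2 * n - e), cnt (2 * r + 1),
        cnt (2 * n - 2 * r - 1), cnt (5 * (2 * n)), cnt g, cnt 0, cnt 0] 1 :=
    Stream.onAuxAt (by decide) (runsLE_bump (2 * r) (2 * n - 2 * r)) _ _ (by intro a; fin_cases a <;> rfl)
      (by intro a; fin_cases a <;> rfl)
      (agree_keep (agree_keep (agree_keep (agree_keep (agree_chg (fun hc => hc 0 rfl) (agree_chg (fun hc => hc 1 rfl) (fun _ _ => rfl)))))))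
  have s2 : Stream (onAuxAt (K := 10) ![4, 8, 2, 3] (rep incCyc)) [] []
      ![cnt n, cnt 0, cnt e, cnt (2 * n - e), cnt (2 * r + 1),
        cnt (2 * n - 2 * r - 1), cnt (5 * (2 * n)), cnt g, cnt 0, cnt 0]
      ![cnt n, cnt 0, cnt ((e + (2 * r + 1)) % (2 * n)), cnt (2 * n - (e + (2 * r + 1)) % (2 * n)),
        cnt (2 * r + 1), cnt (2 * n - 2 * r - 1), cnt (5 * (2 * n)), cnt g, cnt 0, cnt 0]
      (2 * e + 12 * (2 * r + 1) + 2) :=
    Stream.onAuxAt (by decide) (runsLE_addCyc (2 * n) e (2 * r + 1) he) _ _ (by intro a; fin_cases a <;> rfl)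
      (by intro a; fin_cases a <;> rfl)
      (agree_keep (agree_keep (agree_chg (fun hc => hc 2 rfl) (agree_chg (fun hc => hc 3 rfl) (fun _ _ => rfl)))))
  have s3 : Stream (addIf mode) [] []
      ![cnt n, cnt 0, cnt ((e + (2 * r + 1)) % (2 * n)), cnt (2 * n - (e + (2 * r + 1)) % (2 * n)),
        cnt (2 * r + 1), cnt (2 * n - 2 * r - 1), cnt (5 * (2 * n)), cnt g, cnt 0, cnt 0]
      ![cnt n, cnt 0, cnt (eps mode n (r + 1) 0), cnt (2 * n - eps mode n (r + 1) 0),
        cnt (2 * r + 1), cnt (2 * n - 2 * r - 1), cnt (5 * (2 * n)), cnt g, cnt 0, cnt 0]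
      (14 * (2 * n) + 2) := by
    cases mode with
    | false =>
      have e1 : eps false n (r + 1) 0 = (e + (2 * r + 1)) % (2 * n) := by
        rw [← hE]
        exact (epsCH_row n r n 0).symm
      rw [e1]
      unfold addIf
      rw [if_neg (by decide)]
      exact (stream_noop _).mono (by omega)
    | true =>
      have e1 : eps true n (r + 1) 0
          = ((e + (2 * r + 1)) % (2 * n) + (2 * r + 1)) % (2 * n) := by
        rw [← hE]
        exact (epsB_row n r).symm
      rw [e1]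
      unfold addIf
      rw [if_pos rfl]
      refine (Stream.onAuxAt (by decide)
        (runsLE_addCyc (2 * n) ((e + (2 * r + 1)) % (2 * n)) (2 * r + 1) he1)
        _ _ (by intro a; fin_cases a <;> rfl)
        (by intro a; fin_cases a <;> rfl)
        (agree_keep (agree_keep (agree_chg (fun hc => hc 2 rfl) (agree_chg (fun hc => hc 3 rfl) (fun _ _ => rfl)))))).mono ?_
      omega
  have s4 : Stream (onAuxAt (K := 10) ![4, 5] bump) [] []
      ![cnt n, cnt 0, cnt (eps mode n (r + 1) 0), cnt (2 * n - eps mode n (r + 1) 0),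
        cnt (2 * r + 1), cnt (2 * n - 2 * r - 1), cnt (5 * (2 * n)), cnt g, cnt 0, cnt 0]
      ![cnt n, cnt 0, cnt (eps mode n (r + 1) 0), cnt (2 * n - eps mode n (r + 1) 0),
        cnt (2 * r + 1 + 1), cnt (2 * n - 2 * r - 1 - 1), cnt (5 * (2 * n)), cnt g, cnt 0, cnt 0] 1 :=
    Stream.onAuxAt (by decide) (runsLE_bump (2 * r + 1) (2 * n - 2 * r - 1)) _ _ (by intro a; fin_cases a <;> rfl)
      (by intro a; fin_cases a <;> rfl)
      (agree_keep (agree_keep (agree_keep (agree_keep (agree_chg (fun hc => hc 0 rfl) (agree_chg (fun hc => hc 1 rfl) (fun _ _ => rfl)))))))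
  have key := s1.seq (s2.seq (s3.seq s4))
  simp only [List.append_nil] at key
  have e2 : 2 * r + 1 + 1 = 2 * (r + 1) := by ring
  have e3 : 2 * n - 2 * r - 1 - 1 = 2 * n - 2 * (r + 1) := by omega
  rw [e2, e3] at key
  exact key.mono (by omega)

/-- A row. -/
noncomputable def row (mode : Bool) : Frag Sym 12 := seq (repS (slotFull mode)) (rowUpd mode)

theorem stream_row (mode : Bool) (n g r : ℕ) (hr : r < n) (ρ : ℕ → List Sym)
    (hρ : ∀ q, q < n → (ρ q).length = 6 * (2 * n) * g) :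
    Stream (row mode) (cat n ρ)
      (cat n fun q => List.replicate (g * eps mode n r q) Sym.b0 ++
        (ρ q).take (6 * (2 * n) * g - g * eps mode n r q))
      ![cnt n, cnt 0, cnt (eps mode n r 0), cnt (2 * n - eps mode n r 0), cnt (2 * r),
        cnt (2 * n - 2 * r), cnt (5 * (2 * n)), cnt g, cnt 0, cnt 0]
      ![cnt n, cnt 0, cnt (eps mode n (r + 1) 0), cnt (2 * n - eps mode n (r + 1) 0),
        cnt (2 * (r + 1)), cnt (2 * n - 2 * (r + 1)), cnt (5 * (2 * n)), cnt g, cnt 0, cnt 0]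
      (n * (7 * (2 * n) * (g * 5 + 6) + 8 + (14 * (2 * n) + 2) + 4) + 2 + (28 * (2 * n) + 6)) := by
  have hn : 0 < n := by omega
  have h1 := Stream.rep (body := slotFull mode) n ρ
    (fun q => List.replicate (g * eps mode n r q) Sym.b0 ++
        (ρ q).take (6 * (2 * n) * g - g * eps mode n r q))
    (fun q => ![cnt (eps mode n r q), cnt (2 * n - eps mode n r q), cnt (2 * r),
      cnt (2 * n - 2 * r), cnt (5 * (2 * n)), cnt g, cnt 0, cnt 0])
    (7 * (2 * n) * (g * 5 + 6) + 8 + (14 * (2 * n) + 2))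
    (fun q hq => stream_slotFull mode n g r q hn hq hr.le (ρ q) (hρ q hq))
  have h2 := h1.seq (stream_rowUpd mode n g r hr)
  rw [List.append_nil, List.append_nil] at h2
  exact h2

/-! ### Batches -/

/-- Initialisation.  Aux tapes: `n, shR, nC, shC, E, Eh, D, Dn, F5, g, sh1, sh2`. -/
noncomputable def initF : Frag Sym 14 :=
  seq (onAuxAt ![0, 1, 2] (rep (incBy 1)))
    (seq (onAuxAt ![0, 1, 5] (rep (incBy 2)))
      (seq (onAuxAt ![0, 1, 7] (rep (incBy 2))) (onAuxAt ![0, 1, 8] (rep (incBy 10)))))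

theorem stream_initF (n g : ℕ) :
    Stream initF [] []
      ![cnt n, cnt 0, cnt 0, cnt 0, cnt 0, cnt 0, cnt 0, cnt 0, cnt 0, cnt g, cnt 0, cnt 0]
      ![cnt n, cnt 0, cnt n, cnt 0, cnt 0, cnt (2 * n), cnt 0, cnt (2 * n), cnt (5 * (2 * n)),
        cnt g, cnt 0, cnt 0] (35 * n + 8) := by
  have hadd : ∀ c x : ℕ, RunsLE (rep (incBy c)) ![cnt x, cnt 0, cnt 0] (x * (c + 5) + 2)
      ![cnt x, cnt 0, cnt (c * x)] := by
    intro c x
    have h := runsLE_addMul c x 0
    rwa [Nat.zero_add] at h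
  have i1 : Stream (onAuxAt (K := 12) ![0, 1, 2] (rep (incBy 1))) [] []
      ![cnt n, cnt 0, cnt 0, cnt 0, cnt 0, cnt 0, cnt 0, cnt 0, cnt 0, cnt g, cnt 0, cnt 0]
      ![cnt n, cnt 0, cnt (1 * n), cnt 0, cnt 0, cnt 0, cnt 0, cnt 0, cnt 0, cnt g, cnt 0, cnt 0]
      (n * (1 + 5) + 2) :=
    Stream.onAuxAt (by decide) (hadd 1 n) _ _ (by intro a; fin_cases a <;> rfl)
      (by intro a; fin_cases a <;> rfl)
      (agree_keep (agree_keep (agree_chg (fun hc => hc 2 rfl) (fun _ _ => rfl))))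
  have i2 : Stream (onAuxAt (K := 12) ![0, 1, 5] (rep (incBy 2))) [] []
      ![cnt n, cnt 0, cnt (1 * n), cnt 0, cnt 0, cnt 0, cnt 0, cnt 0, cnt 0, cnt g, cnt 0, cnt 0]
      ![cnt n, cnt 0, cnt (1 * n), cnt 0, cnt 0, cnt (2 * n), cnt 0, cnt 0, cnt 0, cnt g, cnt 0, cnt 0]
      (n * (2 + 5) + 2) :=
    Stream.onAuxAt (by decide) (hadd 2 n) _ _ (by intro a; fin_cases a <;> rfl)
      (by intro a; fin_cases a <;> rfl)
      (agree_keep (agree_keep (agree_keep (agree_keep (agree_keep (agree_chg (fun hc => hc 2 rfl) (fun _ _ => rfl)))))))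
  have i3 : Stream (onAuxAt (K := 12) ![0, 1, 7] (rep (incBy 2))) [] []
      ![cnt n, cnt 0, cnt (1 * n), cnt 0, cnt 0, cnt (2 * n), cnt 0, cnt 0, cnt 0, cnt g, cnt 0, cnt 0]
      ![cnt n, cnt 0, cnt (1 * n), cnt 0, cnt 0, cnt (2 * n), cnt 0, cnt (2 * n), cnt 0, cnt g, cnt 0, cnt 0]
      (n * (2 + 5) + 2) :=
    Stream.onAuxAt (by decide) (hadd 2 n) _ _ (by intro a; fin_cases a <;> rfl)
      (by intro a; fin_cases a <;> rfl)
      (agree_keep (agree_keep (agree_keep (agree_keep (agree_keep (agree_keep (agree_keep (agree_chg (fun hc => hc 2 rfl) (fun _ _ => rfl)))))))))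
  have i4 : Stream (onAuxAt (K := 12) ![0, 1, 8] (rep (incBy 10))) [] []
      ![cnt n, cnt 0, cnt (1 * n), cnt 0, cnt 0, cnt (2 * n), cnt 0, cnt (2 * n), cnt 0, cnt g, cnt 0, cnt 0]
      ![cnt n, cnt 0, cnt (1 * n), cnt 0, cnt 0, cnt (2 * n), cnt 0, cnt (2 * n), cnt (10 * n), cnt g, cnt 0, cnt 0]
      (n * (10 + 5) + 2) :=
    Stream.onAuxAt (by decide) (hadd 10 n) _ _ (by intro a; fin_cases a <;> rfl)
      (by intro a; fin_cases a <;> rfl)
      (agree_keep (agree_keep (agree_keep (agree_keep (agree_keep (agree_keep (agree_keep (agree_keep (agree_chg (fun hc => hc 2 rfl) (fun _ _ => rfl))))))))))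
  have key := i1.seq (i2.seq (i3.seq i4))
  simp only [List.append_nil] at key
  have e1 : 1 * n = n := Nat.one_mul n
  have e2 : 10 * n = 5 * (2 * n) := by ring
  rw [e1, e2] at key
  exact key.mono (by omega)

/-- Cleaning up. -/
noncomputable def cleanF : Frag Sym 14 :=
  seq (onAuxAt ![2] zero) (seq (onAuxAt ![4] zero) (seq (onAuxAt ![5] zero)
    (seq (onAuxAt ![6] zero) (seq (onAuxAt ![7] zero) (onAuxAt ![8] zero)))))

theorem stream_cleanF (n g e dz : ℕ) (he : e < 2 * n) (hdz : dz = 0) :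
    Stream cleanF [] []
      ![cnt n, cnt 0, cnt n, cnt 0, cnt e, cnt (2 * n - e), cnt (2 * n), cnt dz,
        cnt (5 * (2 * n)), cnt g, cnt 0, cnt 0]
      ![cnt n, cnt 0, cnt 0, cnt 0, cnt 0, cnt 0, cnt 0, cnt 0, cnt 0, cnt g, cnt 0, cnt 0]
      (34 * n + 6) := by
  have c1 : Stream (onAuxAt (K := 12) ![2] zero) [] []
      ![cnt n, cnt 0, cnt n, cnt 0, cnt e, cnt (2 * n - e), cnt (2 * n), cnt dz, cnt (5 * (2 * n)), cnt g, cnt 0, cnt 0]
      ![cnt n, cnt 0, cnt 0, cnt 0, cnt e, cnt (2 * n - e), cnt (2 * n), cnt dz, cnt (5 * (2 * n)), cnt g, cnt 0, cnt 0]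
      (2 * (n) + 1) :=
    Stream.onAuxAt (by decide) (runsLE_zero (n)) _ _ (by intro a; fin_cases a; rfl)
      (by intro a; fin_cases a; rfl)
      (agree_keep (agree_keep (agree_chg (fun hc => hc 0 rfl) (fun _ _ => rfl))))
  have c2 : Stream (onAuxAt (K := 12) ![4] zero) [] []
      ![cnt n, cnt 0, cnt 0, cnt 0, cnt e, cnt (2 * n - e), cnt (2 * n), cnt dz, cnt (5 * (2 * n)), cnt g, cnt 0, cnt 0]
      ![cnt n, cnt 0, cnt 0, cnt 0, cnt 0, cnt (2 * n - e), cnt (2 * n), cnt dz, cnt (5 * (2 * n)), cnt g, cnt 0, cnt 0]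
      (2 * (e) + 1) :=
    Stream.onAuxAt (by decide) (runsLE_zero (e)) _ _ (by intro a; fin_cases a; rfl)
      (by intro a; fin_cases a; rfl)
      (agree_keep (agree_keep (agree_keep (agree_keep (agree_chg (fun hc => hc 0 rfl) (fun _ _ => rfl))))))
  have c3 : Stream (onAuxAt (K := 12) ![5] zero) [] []
      ![cnt n, cnt 0, cnt 0, cnt 0, cnt 0, cnt (2 * n - e), cnt (2 * n), cnt dz, cnt (5 * (2 * n)), cnt g, cnt 0, cnt 0]
      ![cnt n, cnt 0, cnt 0, cnt 0, cnt 0, cnt 0, cnt (2 * n), cnt dz, cnt (5 * (2 * n)), cnt g, cnt 0, cnt 0]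
      (2 * (2 * n - e) + 1) :=
    Stream.onAuxAt (by decide) (runsLE_zero (2 * n - e)) _ _ (by intro a; fin_cases a; rfl)
      (by intro a; fin_cases a; rfl)
      (agree_keep (agree_keep (agree_keep (agree_keep (agree_keep (agree_chg (fun hc => hc 0 rfl) (fun _ _ => rfl)))))))
  have c4 : Stream (onAuxAt (K := 12) ![6] zero) [] []
      ![cnt n, cnt 0, cnt 0, cnt 0, cnt 0, cnt 0, cnt (2 * n), cnt dz, cnt (5 * (2 * n)), cnt g, cnt 0, cnt 0]
      ![cnt n, cnt 0, cnt 0, cnt 0, cnt 0, cnt 0, cnt 0, cnt dz, cnt (5 * (2 * n)), cnt g, cnt 0, cnt 0]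
      (2 * (2 * n) + 1) :=
    Stream.onAuxAt (by decide) (runsLE_zero (2 * n)) _ _ (by intro a; fin_cases a; rfl)
      (by intro a; fin_cases a; rfl)
      (agree_keep (agree_keep (agree_keep (agree_keep (agree_keep (agree_keep (agree_chg (fun hc => hc 0 rfl) (fun _ _ => rfl))))))))
  have c5 : Stream (onAuxAt (K := 12) ![7] zero) [] []
      ![cnt n, cnt 0, cnt 0, cnt 0, cnt 0, cnt 0, cnt 0, cnt dz, cnt (5 * (2 * n)), cnt g, cnt 0, cnt 0]
      ![cnt n, cnt 0, cnt 0, cnt 0, cnt 0, cnt 0, cnt 0, cnt 0, cnt (5 * (2 * n)), cnt g, cnt 0, cnt 0]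
      (2 * (dz) + 1) :=
    Stream.onAuxAt (by decide) (runsLE_zero (dz)) _ _ (by intro a; fin_cases a; rfl)
      (by intro a; fin_cases a; rfl)
      (agree_keep (agree_keep (agree_keep (agree_keep (agree_keep (agree_keep (agree_keep (agree_chg (fun hc => hc 0 rfl) (fun _ _ => rfl)))))))))
  have c6 : Stream (onAuxAt (K := 12) ![8] zero) [] []
      ![cnt n, cnt 0, cnt 0, cnt 0, cnt 0, cnt 0, cnt 0, cnt 0, cnt (5 * (2 * n)), cnt g, cnt 0, cnt 0]
      ![cnt n, cnt 0, cnt 0, cnt 0, cnt 0, cnt 0, cnt 0, cnt 0, cnt 0, cnt g, cnt 0, cnt 0]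
      (2 * (5 * (2 * n)) + 1) :=
    Stream.onAuxAt (by decide) (runsLE_zero (5 * (2 * n))) _ _ (by intro a; fin_cases a; rfl)
      (by intro a; fin_cases a; rfl)
      (agree_keep (agree_keep (agree_keep (agree_keep (agree_keep (agree_keep (agree_keep (agree_keep (agree_chg (fun hc => hc 0 rfl) (fun _ _ => rfl))))))))))
  have key := c1.seq (c2.seq (c3.seq (c4.seq (c5.seq c6))))
  simp only [List.append_nil] at key
  exact key.mono (by omega)

/-- A batch of `n` rows. -/
noncomputable def batch (mode : Bool) : Frag Sym 14 := seq initF (seq (repS (row mode)) cleanF)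

theorem stream_batch (mode : Bool) (n g : ℕ) (hn : 0 < n) (ρ : ℕ → ℕ → List Sym)
    (hρ : ∀ r q, r < n → q < n → (ρ r q).length = 6 * (2 * n) * g) :
    Stream (batch mode) (cat n fun r => cat n (ρ r))
      (cat n fun r => cat n fun q => List.replicate (g * eps mode n r q) Sym.b0 ++
        (ρ r q).take (6 * (2 * n) * g - g * eps mode n r q))
      ![cnt n, cnt 0, cnt 0, cnt 0, cnt 0, cnt 0, cnt 0, cnt 0, cnt 0, cnt g, cnt 0, cnt 0]
      ![cnt n, cnt 0, cnt 0, cnt 0, cnt 0, cnt 0, cnt 0, cnt 0, cnt 0, cnt g, cnt 0, cnt 0]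
      (35 * n + 8 + (n * (n * (7 * (2 * n) * (g * 5 + 6) + 8 + (14 * (2 * n) + 2) + 4) + 2
        + (28 * (2 * n) + 6) + 4) + 2 + (34 * n + 6))) := by
  have h1 := Stream.rep (body := row mode) n (fun r => cat n (ρ r))
    (fun r => cat n fun q => List.replicate (g * eps mode n r q) Sym.b0 ++
        (ρ r q).take (6 * (2 * n) * g - g * eps mode n r q))
    (fun r => ![cnt n, cnt 0, cnt (eps mode n r 0), cnt (2 * n - eps mode n r 0), cnt (2 * r),
        cnt (2 * n - 2 * r), cnt (5 * (2 * n)), cnt g, cnt 0, cnt 0])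
    (n * (7 * (2 * n) * (g * 5 + 6) + 8 + (14 * (2 * n) + 2) + 4) + 2 + (28 * (2 * n) + 6))
    (fun r hr => stream_row mode n g r hr (ρ r) (fun q hq => hρ r q hr hq))
  simp only [eps_zero, Nat.mul_zero, Nat.sub_zero] at h1
  have h2 := (stream_initF n g).seq (h1.seq (stream_cleanF n g (eps mode n n 0) (2 * n - 2 * n)
    (eps_lt mode n n 0 hn) (Nat.sub_self _)))
  rw [List.nil_append, List.nil_append, List.append_nil, List.append_nil] at h2
  exact h2

theorem lt_mul2 {D U B V : ℕ} (hD : D < U) (hB : B < V) : D * V + B < U * V := by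
  calc D * V + B < D * V + V := by omega
    _ = (D + 1) * V := by ring
    _ ≤ U * V := Nat.mul_le_mul_right V hD

theorem eps_eq (mode : Bool) (n r q : ℕ) :
    (if mode then epsB n else epsCH n) r q = eps mode n r q := by
  cases mode <;> rfl

theorem time_bound (n g : ℕ) (hn : 0 < n) (hg : 0 < g) :
    35 * n + 8 + (n * (n * (7 * (2 * n) * (g * 5 + 6) + 8 + (14 * (2 * n) + 2) + 4) + 2
        + (28 * (2 * n) + 6) + 4) + 2 + (34 * n + 6)) + 1 ≤ 350 * (n * n * n * g) := by
  have expand : 35 * n + 8 + (n * (n * (7 * (2 * n) * (g * 5 + 6) + 8 + (14 * (2 * n) + 2) + 4) + 2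
        + (28 * (2 * n) + 6) + 4) + 2 + (34 * n + 6)) + 1
      = 70 * (n * n * n * g) + 112 * (n * n * n) + 70 * (n * n) + 81 * n + 17 := by ring
  have h3 : n * n * n ≤ n * n * n * g := Nat.le_mul_of_pos_right _ hg
  have h2 : n * n ≤ n * n * n := Nat.le_mul_of_pos_right _ hn
  have h1 : n ≤ n * n := Nat.le_mul_of_pos_right _ hn
  rw [expand]
  omega

end Shift

open Shift in
/-- The pass.  Tapes: `0` input, `1` output, `2` counter `n`, `11` counter `g`; the tapes
`3, …, 10, 12, 13` are counters with value zero before and after the pass. -/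
noncomputable def shiftPass (mode : Bool) : Frag Sym 14 := pass (batch mode)

open Shift in
theorem runsLE_shiftPass (mode : Bool) (n g K : ℕ) (hn : 0 < n) (hg : 0 < g) (l : List Sym)
    (hl : l.length = K * (n * n * (12 * g * n))) (hd : IsData l) :
    RunsLE (shiftPass mode)
      ![zt [] (Sym.org :: l), zt [] [Sym.org], cnt n, cnt 0, cnt 0, cnt 0, cnt 0, cnt 0, cnt 0, cnt 0, cnt 0, cnt g, cnt 0, cnt 0]
      (34 * l.length + 8)
      ![zt [] (Sym.org :: l),
        zt [] (Sym.org :: shiftSlots Sym.b0 n g (12 * g * n) (if mode then epsB n else epsCH n) l),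
        cnt n, cnt 0, cnt 0, cnt 0, cnt 0, cnt 0, cnt 0, cnt 0, cnt 0, cnt g, cnt 0, cnt 0] := by
  have hs : 12 * g * n = 6 * (2 * n) * g := by ring
  rw [hs] at hl ⊢
  have hspos : 0 < 6 * (2 * n) * g := by positivity
  generalize hsdef : 6 * (2 * n) * g = s at hl hspos ⊢
  have hl' : l.length = K * n * n * s := by rw [hl]; ring
  have hidx : ∀ b r q, b < K → r < n → q < n → (b * n + r) * n + q < K * n * n :=
    fun b r q hb hr hq => lt_mul2 (lt_mul2 hb hr) hq
  have hlen : ∀ b r q, b < K → r < n → q < n → (chunk s l ((b * n + r) * n + q)).length = s :=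
    fun b r q hb hr hq => length_chunk_of_lt (K * n * n) s l hl' _ (hidx b r q hb hr hq)
  have hmem : ∀ j, IsData (chunk s l j) := fun j x hx =>
    hd x (List.mem_of_mem_drop (List.mem_of_mem_take hx))
  have hge : ∀ r q, g * eps mode n r q ≤ s := by
    intro r q
    have h1 := eps_lt mode n r q hn
    calc g * eps mode n r q ≤ g * (2 * n) := Nat.mul_le_mul_left g h1.le
      _ ≤ 6 * (g * (2 * n)) := Nat.le_mul_of_pos_left _ (by norm_num)
      _ = s := by rw [← hsdef]; ring
  have key := runsLE_pass (body := batch mode) K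
    (fun b => cat n fun r => cat n fun q => chunk s l ((b * n + r) * n + q))
    (fun b => cat n fun r => cat n fun q => List.replicate (g * eps mode n r q) Sym.b0 ++
        (chunk s l ((b * n + r) * n + q)).take (s - g * eps mode n r q))
    (fun _ => ![cnt n, cnt 0, cnt 0, cnt 0, cnt 0, cnt 0, cnt 0, cnt 0, cnt 0, cnt g, cnt 0, cnt 0])
    (fun _ => 35 * n + 8 + (n * (n * (7 * (2 * n) * (g * 5 + 6) + 8 + (14 * (2 * n) + 2) + 4) + 2
        + (28 * (2 * n) + 6) + 4) + 2 + (34 * n + 6))) ?_ ?_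
  · have e1 : cat K (fun b => cat n fun r => cat n fun q => chunk s l ((b * n + r) * n + q)) = l := by
      rw [cat_cat K n (fun i => cat n fun q => chunk s l (i * n + q)), cat_cat (K * n) n (chunk s l)]
      exact cat_chunk _ s l hl'
    have e2 : cat K (fun b => cat n fun r => cat n fun q =>
        List.replicate (g * eps mode n r q) Sym.b0 ++
          (chunk s l ((b * n + r) * n + q)).take (s - g * eps mode n r q))
        = shiftSlots Sym.b0 n g s (if mode then epsB n else epsCH n) l := by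
      unfold shiftSlots
      rw [mapChunks_eq_cat (K * n * n) s hspos _ l hl', ← cat_cat (K * n) n, ← cat_cat K n]
      refine cat_congr (fun b _ => cat_congr (fun r hr => cat_congr (fun q hq => ?_)))
      have i1 : ((b * n + r) * n + q) / n % n = r := by
        rw [Nat.mul_comm (b * n + r) n, Nat.mul_add_div hn, Nat.div_eq_of_lt hq, Nat.add_zero,
          Nat.mul_comm b n, Nat.mul_add_mod, Nat.mod_eq_of_lt hr]
      have i2 : ((b * n + r) * n + q) % n = q := by
        rw [Nat.mul_comm (b * n + r) n, Nat.mul_add_mod, Nat.mod_eq_of_lt hq]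
      rw [i1, i2, eps_eq]
    have e3 : (shiftSlots Sym.b0 n g s (if mode then epsB n else epsCH n) l).length = l.length := by
      rw [← e2, hl]
      refine length_cat K _ _ (fun b hb => ?_)
      rw [Nat.mul_assoc]
      refine length_cat n _ _ (fun r hr => length_cat n _ _ (fun q hq => ?_))
      rw [List.length_append, List.length_replicate, List.length_take, hlen b r q hb hr hq]
      have := hge r q
      omega
    rw [e1, e2, e3] at key
    refine RunsLE.mono key ?_
    simp only [Finset.sum_const, Finset.card_range, smul_eq_mul]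
    have h1 := Nat.mul_le_mul_left K (time_bound n g hn hg)
    have h2 : 30 * l.length = K * (360 * (n * n * n * g)) := by
      rw [hl, ← hsdef]; ring
    have h3 : K * (350 * (n * n * n * g)) ≤ K * (360 * (n * n * n * g)) :=
      Nat.mul_le_mul_left K (by omega)
    rw [Nat.mul_add, Nat.mul_one] at h1
    omega
  · intro b hb
    refine ⟨?_, IsData.cat fun r _ => IsData.cat fun q _ => hmem _,
      IsData.cat fun r _ => IsData.cat fun q _ => ?_⟩
    · intro h0
      have h1 : (cat n fun r => cat n fun q => chunk s l ((b * n + r) * n + q)).length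
          = n * (n * s) :=
        length_cat n _ _ (fun r hr => length_cat n _ _ (fun q hq => hlen b r q hb hr hq))
      rw [h0] at h1
      have : 0 < n * (n * s) := by positivity
      simp at h1
      omega
    · refine (isData_replicate _ _ (by decide) (by decide)).append ?_
      intro x hx
      exact hmem _ x (List.mem_of_mem_take hx)
  · intro b hb
    have h := stream_batch mode n g hn (fun r q => chunk s l ((b * n + r) * n + q))
      (fun r q hr hq => by rw [hsdef]; exact hlen b r q hb hr hq)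
    rw [hsdef] at h
    exact h

end Frag
end Vale.Agent.P338
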