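import Vale.Agent.P338.TM.Basic

namespace Vale.Agent.P338
namespace Frag
open Matrix

variable {k : ℕ}

/-- Leave the tapes `2,3,…` alone. -/
def idle2 (s : Fin (k + 2) → Sym) : Fin k → Sym × Dir := fun a => (s a.succ.succ, Dir.stay)

theorem acts_idle2 (x y : Sym) (T : Fin k → Tape Sym) :
    acts T (idle2 (vecCons x (vecCons y (reads T)))) = T := by
  funext i
  simp [acts, idle2, reads]

/-- `rep body`: tape `0` is a counter with value `v`, tape `1` a counter with value `0`; run `body`
(on the tapes `2,3,…`) `v` times; the two counters are restored. -/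
noncomputable def rep (body : Frag Sym k) : Frag Sym (k + 2) :=
  seq (loop (fun s => s 0 != Sym.org)
        (seq (prim fun s => vecCons (s 0, Dir.left) (vecCons (s 1, Dir.right) (idle2 s)))
          (lift (fun a => a.succ.succ) body)))
      (loop (fun s => s 1 != Sym.org)
        (prim fun s => vecCons (s 0, Dir.right) (vecCons (s 1, Dir.left) (idle2 s))))

theorem runsLE_restore (T : Fin k → Tape Sym) (a v : ℕ) :
    RunsLE (loop (fun s => s 1 != Sym.org)
        (prim fun s => vecCons (s 0, Dir.right) (vecCons (s 1, Dir.left) (idle2 s))))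
      (vecCons (cnt a) (vecCons (cnt v) T)) (v * 2 + 1) (vecCons (cnt (a + v)) (vecCons (cnt 0) T)) := by
  have := RunsLE.loop (c := fun s : Fin (k + 2) → Sym => s 1 != Sym.org)
    (F := prim fun s => vecCons (s 0, Dir.right) (vecCons (s 1, Dir.left) (idle2 s)))
    (fun j => vecCons (cnt (a + j)) (vecCons (cnt (v - j)) T)) v 1 ?_ ?_
  · simpa using this
  · intro j hj
    obtain ⟨u, hu⟩ : ∃ u, v - j = u + 1 := ⟨v - j - 1, by omega⟩
    refine ⟨by simp [hu], RunsLE.prim _ _ _ ?_⟩
    have e : v - (j + 1) = u := by omega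
    rw [e, hu]
    simp only [reads_cons, cons_val_zero, cons_val_one, acts_cons, acts_idle2]
    rw [cnt_right, cnt_left]
    rfl
  · simp

theorem runsLE_rep_sum {body : Frag Sym k} (St : ℕ → Fin k → Tape Sym) (v : ℕ) (τ : ℕ → ℕ)
    (h : ∀ j, j < v → RunsLE body (St j) (τ j) (St (j + 1))) :
    RunsLE (rep body) (vecCons (cnt v) (vecCons (cnt 0) (St 0)))
      ((∑ j ∈ Finset.range v, τ j) + v * 4 + 2) (vecCons (cnt v) (vecCons (cnt 0) (St v))) := by
  have h1 := RunsLE.loop_sum (c := fun s : Fin (k + 2) → Sym => s 0 != Sym.org)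
    (F := seq (prim fun s => vecCons (s 0, Dir.left) (vecCons (s 1, Dir.right) (idle2 s)))
          (lift (fun a => a.succ.succ) body))
    (fun j => vecCons (cnt (v - j)) (vecCons (cnt j) (St j))) v (fun j => 1 + τ j) ?_ ?_
  · have h2 := runsLE_restore (St v) 0 v
    have h3 := h1.seq (by simpa using h2)
    simp only [Nat.sub_zero] at h3
    refine RunsLE.mono h3 ?_
    simp only [Finset.sum_add_distrib, Finset.sum_const, Finset.card_range, smul_eq_mul]
    omega
  · intro j hj
    obtain ⟨u, hu⟩ : ∃ u, v - j = u + 1 := ⟨v - j - 1, by omega⟩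
    refine ⟨by simp [hu], RunsLE.seq (T' := vecCons (cnt u) (vecCons (cnt (j + 1)) (St j)))
      (RunsLE.prim _ _ _ ?_) ?_⟩
    · rw [hu]
      simp only [reads_cons, cons_val_zero, cons_val_one, acts_cons, acts_idle2]
      rw [cnt_right, cnt_left]
      rfl
    · have e : v - (j + 1) = u := by omega
      rw [e]
      refine RunsLE.lift (fun a b hab => by simpa using hab) (h j hj) _ _ (fun a => rfl)
        (fun a => rfl) ?_
      intro c
      refine Fin.cases (fun _ => rfl) (fun c' => ?_) c
      refine Fin.cases (fun _ => rfl) (fun c'' => ?_) c'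
      intro hc
      exact absurd rfl (hc c'')
  · simp

theorem runsLE_rep {body : Frag Sym k} (St : ℕ → Fin k → Tape Sym) (v τ : ℕ)
    (h : ∀ j, j < v → RunsLE body (St j) τ (St (j + 1))) :
    RunsLE (rep body) (vecCons (cnt v) (vecCons (cnt 0) (St 0)))
      (v * (τ + 4) + 2) (vecCons (cnt v) (vecCons (cnt 0) (St v))) := by
  refine RunsLE.mono (runsLE_rep_sum St v (fun _ => τ) h) ?_
  simp only [Finset.sum_const, Finset.card_range, smul_eq_mul]
  ring_nf
  omega

end Frag
end Vale.Agent.P338
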