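import Vale.Agent.P338.TM.Zip

/-!
Counter programs (no streams): doubling, powers of two, truncated subtraction, the parameter set-up
`setupP` for one call of the column operation, its tear-down, and halving of a counter.
-/

namespace Vale.Agent.P338
namespace Frag
open Matrix

/-! ### Doubling and powers of two -/

/-- Tapes `r, shadow, t` (`shadow = t = 0`): `r := 2 * r`. -/
noncomputable def dblS : Frag Sym 3 := seq (rep (incBy 1)) (lift ![2, 0] moveCnt)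

theorem runsLE_dblS (r : ℕ) :
    RunsLE dblS ![cnt r, cnt 0, cnt 0] (8 * r + 3) ![cnt (2 * r), cnt 0, cnt 0] := by
  have h1 := runsLE_addMul 1 r 0
  have h2 : RunsLE (lift ![2, 0] moveCnt) ![cnt r, cnt 0, cnt (0 + 1 * r)] (2 * r + 1)
      ![cnt (2 * r), cnt 0, cnt 0] := by
    have h := runsLE_moveCnt r r
    refine RunsLE.lift (by decide) h _ _ ?_ ?_ ?_
    · intro a; fin_cases a
      · simp
      · rfl
    · intro a; fin_cases a
      · rfl
      · simp [two_mul]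
    · intro c hc; fin_cases c <;> first | rfl | (exfalso; revert hc; decide)
  exact (h1.seq h2).mono (by omega)

/-- Tapes `e, shadow, r, shadow, t`: `r := r * 2 ^ e`. -/
noncomputable def mulPow2 : Frag Sym 5 := rep dblS

theorem sum_two_pow_leS (e : ℕ) : ∑ j ∈ Finset.range e, 2 ^ j ≤ 2 ^ e := by
  induction e with
  | zero => simp
  | succ e ih => rw [Finset.sum_range_succ, pow_succ]; omega

theorem runsLE_mulPow2 (e r : ℕ) :
    RunsLE mulPow2 ![cnt e, cnt 0, cnt r, cnt 0, cnt 0] (8 * (r * 2 ^ e) + 7 * e + 2)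
      ![cnt e, cnt 0, cnt (r * 2 ^ e), cnt 0, cnt 0] := by
  have h := runsLE_rep_sum (body := dblS) (fun j => ![cnt (r * 2 ^ j), cnt 0, cnt 0]) e
    (fun j => 8 * (r * 2 ^ j) + 3) ?_
  · have h' : RunsLE mulPow2 ![cnt e, cnt 0, cnt r, cnt 0, cnt 0]
        ((∑ j ∈ Finset.range e, (8 * (r * 2 ^ j) + 3)) + e * 4 + 2)
        ![cnt e, cnt 0, cnt (r * 2 ^ e), cnt 0, cnt 0] := by
      unfold mulPow2
      simpa using h
    refine h'.mono ?_
    have e1 : ∑ j ∈ Finset.range e, (8 * (r * 2 ^ j) + 3)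
        = 8 * (r * ∑ j ∈ Finset.range e, 2 ^ j) + 3 * e := by
      rw [Finset.sum_add_distrib, Finset.mul_sum, Finset.mul_sum]
      simp [mul_comm]
    have e2 := Nat.mul_le_mul_left r (sum_two_pow_leS e)
    rw [e1]
    omega
  · intro j _
    have := runsLE_dblS (r * 2 ^ j)
    have e : 2 * (r * 2 ^ j) = r * 2 ^ (j + 1) := by rw [pow_succ]; ring
    rw [e] at this
    exact this

/-- Tapes `a, shadow, r, shadow, t` (all but `a` zero): `r := 2 ^ a`. -/
noncomputable def pow2 : Frag Sym 5 := seq (lift ![2] (incBy 1)) mulPow2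

theorem runsLE_pow2 (a : ℕ) :
    RunsLE pow2 ![cnt a, cnt 0, cnt 0, cnt 0, cnt 0] (8 * 2 ^ a + 7 * a + 4)
      ![cnt a, cnt 0, cnt (2 ^ a), cnt 0, cnt 0] := by
  have h1 : RunsLE (lift ![2] (incBy 1)) ![cnt a, cnt 0, cnt 0, cnt 0, cnt 0] 2
      ![cnt a, cnt 0, cnt 1, cnt 0, cnt 0] := by
    refine RunsLE.lift (by decide) (runsLE_incBy 1 0) _ _ ?_ ?_ ?_
    · intro a; fin_cases a; rfl
    · intro a; fin_cases a; rfl
    · intro c hc; fin_cases c <;> first | rfl | (exfalso; revert hc; decide)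
  have h2 := runsLE_mulPow2 a 1
  rw [one_mul] at h2
  exact (h1.seq h2).mono (by omega)

/-! ### Subtraction -/

/-- Decrease a counter by `c` (a constant of the program), truncated at zero. -/
def decBy : ℕ → Frag Sym 1
  | 0 => prim noop
  | c + 1 => seq mvL (decBy c)

theorem runsLE_decBy (c x : ℕ) : RunsLE (decBy c) ![cnt x] (c + 1) ![cnt (x - c)] := by
  induction c generalizing x with
  | zero => exact RunsLE.prim _ _ _ (acts_noop _)
  | succ c ih =>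
    have h := (runsLE_mvL_cnt x).seq (ih (x - 1))
    have e : x - 1 - c = x - (c + 1) := by omega
    rw [e] at h
    exact RunsLE.mono h (by omega)

/-- Tapes `x, shadow, y`: `y := y - x` (truncated), `x` preserved. -/
theorem runsLE_subCntS (x y : ℕ) :
    RunsLE (rep mvL) ![cnt x, cnt 0, cnt y] (x * 5 + 2) ![cnt x, cnt 0, cnt (y - x)] := by
  have := runsLE_rep (body := mvL) (fun j => ![cnt (y - j)]) x 1 ?_
  · simpa using this
  · intro j _
    have h := runsLE_mvL_cnt (y - j)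
    have e : y - j - 1 = y - (j + 1) := by omega
    rw [e] at h
    exact h

/-! ### Halving -/

/-- Tapes `u, v, f`: if `f = 0` then `v += 1, f := 1` else `u += 1, f := 0`. -/
def halfStep : Frag Sym 3 :=
  ite (fun s => s 2 == Sym.org)
    (prim fun s => ![(s 0, Dir.stay), (s 1, Dir.right), (s 2, Dir.right)])
    (prim fun s => ![(s 0, Dir.right), (s 1, Dir.stay), (s 2, Dir.left)])

theorem runsLE_halfStep (j : ℕ) :
    RunsLE halfStep ![cnt (j / 2), cnt (j - j / 2), cnt (j % 2)] 2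
      ![cnt ((j + 1) / 2), cnt (j + 1 - (j + 1) / 2), cnt ((j + 1) % 2)] := by
  rcases Nat.mod_two_eq_zero_or_one j with h | h
  · have e1 : (j + 1) / 2 = j / 2 := by omega
    have e2 : j + 1 - (j + 1) / 2 = j - j / 2 + 1 := by omega
    have e3 : (j + 1) % 2 = 1 := by omega
    rw [e2, e1, e3, h]
    refine RunsLE.ite_true (by simp) (RunsLE.prim _ _ _ ?_)
    simp only [reads_cons, cons_val_zero, cons_val_one, cons_val_two, acts_cons, cnt_right,
      cnt_stay, head_cons, tail_cons]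
    simp
  · have e1 : (j + 1) / 2 = j / 2 + 1 := by omega
    have e2 : j + 1 - (j + 1) / 2 = j - j / 2 := by omega
    have e3 : (j + 1) % 2 = 0 := by omega
    rw [e2, e1, e3, h]
    refine RunsLE.ite_false (by simp) (RunsLE.prim _ _ _ ?_)
    simp only [reads_cons, cons_val_zero, cons_val_one, cons_val_two, acts_cons, cnt_right,
      cnt_stay, cnt_left, head_cons, tail_cons]
    simp

/-- Tapes `k, shadow, u, v, f` (all but `k` zero): `u := k / 2`, `v := k - k / 2`, `f := k % 2`;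
`k` is preserved. -/
noncomputable def halve : Frag Sym 5 := rep halfStep

theorem runsLE_halve (k : ℕ) :
    RunsLE halve ![cnt k, cnt 0, cnt 0, cnt 0, cnt 0] (k * 6 + 2)
      ![cnt k, cnt 0, cnt (k / 2), cnt (k - k / 2), cnt (k % 2)] := by
  have h := runsLE_rep (body := halfStep)
    (fun j => ![cnt (j / 2), cnt (j - j / 2), cnt (j % 2)]) k 2 (fun j _ => runsLE_halfStep j)
  unfold halve
  simpa using h

/-! ### Parameters of the column operation -/

namespace Setup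

theorem liftA {F : Frag Sym 5} {u0 u1 u2 u3 u4 v0 v1 v2 v3 v4 : Tape Sym} {b : ℕ}
    (h : RunsLE F ![u0, u1, u2, u3, u4] b ![v0, v1, v2, v3, v4]) (t1 t3 t4 t5 t6 t7 t11 : Tape Sym) :
    RunsLE (lift ![0, 8, 2, 9, 10] F)
      ![u0, t1, u2, t3, t4, t5, t6, t7, u1, u3, u4, t11] b
      ![v0, t1, v2, t3, t4, t5, t6, t7, v1, v3, v4, t11] :=
  RunsLE.lift (by decide) h _ _ (by intro a; fin_cases a <;> rfl) (by intro a; fin_cases a <;> rfl)
    (by intro c hc; fin_cases c <;> first | exact absurd rfl (hc 0) | exact absurd rfl (hc 1) | exact absurd rfl (hc 2) | exact absurd rfl (hc 3) | exact absurd rfl (hc 4) | simp)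

theorem liftB {F : Frag Sym 5} {u0 u1 u2 u3 u4 v0 v1 v2 v3 v4 : Tape Sym} {b : ℕ}
    (h : RunsLE F ![u0, u1, u2, u3, u4] b ![v0, v1, v2, v3, v4]) (t0 t2 t4 t5 t6 t7 t11 : Tape Sym) :
    RunsLE (lift ![1, 8, 3, 9, 10] F)
      ![t0, u0, t2, u2, t4, t5, t6, t7, u1, u3, u4, t11] b
      ![t0, v0, t2, v2, t4, t5, t6, t7, v1, v3, v4, t11] :=
  RunsLE.lift (by decide) h _ _ (by intro a; fin_cases a <;> rfl) (by intro a; fin_cases a <;> rfl)
    (by intro c hc; fin_cases c <;> first | exact absurd rfl (hc 0) | exact absurd rfl (hc 1) | exact absurd rfl (hc 2) | exact absurd rfl (hc 3) | exact absurd rfl (hc 4) | simp)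

theorem liftC5 {F : Frag Sym 3} {u0 u1 u2 v0 v1 v2 : Tape Sym} {b : ℕ}
    (h : RunsLE F ![u0, u1, u2] b ![v0, v1, v2]) (t0 t1 t2 t4 t6 t7 t9 t10 t11 : Tape Sym) :
    RunsLE (lift ![3, 8, 5] F)
      ![t0, t1, t2, u0, t4, u2, t6, t7, u1, t9, t10, t11] b
      ![t0, t1, t2, v0, t4, v2, t6, t7, v1, t9, t10, t11] :=
  RunsLE.lift (by decide) h _ _ (by intro a; fin_cases a <;> rfl) (by intro a; fin_cases a <;> rfl)
    (by intro c hc; fin_cases c <;> first | exact absurd rfl (hc 0) | exact absurd rfl (hc 1) | exact absurd rfl (hc 2) | simp)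

theorem liftC6 {F : Frag Sym 3} {u0 u1 u2 v0 v1 v2 : Tape Sym} {b : ℕ}
    (h : RunsLE F ![u0, u1, u2] b ![v0, v1, v2]) (t0 t1 t2 t4 t5 t7 t9 t10 t11 : Tape Sym) :
    RunsLE (lift ![3, 8, 6] F)
      ![t0, t1, t2, u0, t4, t5, u2, t7, u1, t9, t10, t11] b
      ![t0, t1, t2, v0, t4, t5, v2, t7, v1, t9, t10, t11] :=
  RunsLE.lift (by decide) h _ _ (by intro a; fin_cases a <;> rfl) (by intro a; fin_cases a <;> rfl)
    (by intro c hc; fin_cases c <;> first | exact absurd rfl (hc 0) | exact absurd rfl (hc 1) | exact absurd rfl (hc 2) | simp)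

theorem liftC7 {F : Frag Sym 3} {u0 u1 u2 v0 v1 v2 : Tape Sym} {b : ℕ}
    (h : RunsLE F ![u0, u1, u2] b ![v0, v1, v2]) (t0 t1 t2 t4 t5 t6 t9 t10 t11 : Tape Sym) :
    RunsLE (lift ![3, 8, 7] F)
      ![t0, t1, t2, u0, t4, t5, t6, u2, u1, t9, t10, t11] b
      ![t0, t1, t2, v0, t4, t5, t6, v2, v1, t9, t10, t11] :=
  RunsLE.lift (by decide) h _ _ (by intro a; fin_cases a <;> rfl) (by intro a; fin_cases a <;> rfl)
    (by intro c hc; fin_cases c <;> first | exact absurd rfl (hc 0) | exact absurd rfl (hc 1) | exact absurd rfl (hc 2) | simp)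

theorem liftD1 {F : Frag Sym 3} {u0 u1 u2 v0 v1 v2 : Tape Sym} {b : ℕ}
    (h : RunsLE F ![u0, u1, u2] b ![v0, v1, v2]) (t0 t2 t3 t4 t5 t6 t7 t9 t10 : Tape Sym) :
    RunsLE (lift ![1, 8, 11] F)
      ![t0, u0, t2, t3, t4, t5, t6, t7, u1, t9, t10, u2] b
      ![t0, v0, t2, t3, t4, t5, t6, t7, v1, t9, t10, v2] :=
  RunsLE.lift (by decide) h _ _ (by intro a; fin_cases a <;> rfl) (by intro a; fin_cases a <;> rfl)
    (by intro c hc; fin_cases c <;> first | exact absurd rfl (hc 0) | exact absurd rfl (hc 1) | exact absurd rfl (hc 2) | simp)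

theorem liftD0 {F : Frag Sym 3} {u0 u1 u2 v0 v1 v2 : Tape Sym} {b : ℕ}
    (h : RunsLE F ![u0, u1, u2] b ![v0, v1, v2]) (t1 t2 t3 t4 t5 t6 t7 t9 t10 : Tape Sym) :
    RunsLE (lift ![0, 8, 11] F)
      ![u0, t1, t2, t3, t4, t5, t6, t7, u1, t9, t10, u2] b
      ![v0, t1, t2, t3, t4, t5, t6, t7, v1, t9, t10, v2] :=
  RunsLE.lift (by decide) h _ _ (by intro a; fin_cases a <;> rfl) (by intro a; fin_cases a <;> rfl)
    (by intro c hc; fin_cases c <;> first | exact absurd rfl (hc 0) | exact absurd rfl (hc 1) | exact absurd rfl (hc 2) | simp)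

theorem liftE {F : Frag Sym 5} {u0 u1 u2 u3 u4 v0 v1 v2 v3 v4 : Tape Sym} {b : ℕ}
    (h : RunsLE F ![u0, u1, u2, u3, u4] b ![v0, v1, v2, v3, v4]) (t0 t1 t2 t3 t5 t6 t7 : Tape Sym) :
    RunsLE (lift ![11, 8, 4, 9, 10] F)
      ![t0, t1, t2, t3, u2, t5, t6, t7, u1, u3, u4, u0] b
      ![t0, t1, t2, t3, v2, t5, t6, t7, v1, v3, v4, v0] :=
  RunsLE.lift (by decide) h _ _ (by intro a; fin_cases a <;> rfl) (by intro a; fin_cases a <;> rfl)
    (by intro c hc; fin_cases c <;> first | exact absurd rfl (hc 0) | exact absurd rfl (hc 1) | exact absurd rfl (hc 2) | exact absurd rfl (hc 3) | exact absurd rfl (hc 4) | simp)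

theorem liftO2 {F : Frag Sym 1} {u0 v0 : Tape Sym} {b : ℕ}
    (h : RunsLE F ![u0] b ![v0]) (t0 t1 t3 t4 t5 t6 t7 t8 t9 t10 t11 : Tape Sym) :
    RunsLE (lift ![2] F)
      ![t0, t1, u0, t3, t4, t5, t6, t7, t8, t9, t10, t11] b
      ![t0, t1, v0, t3, t4, t5, t6, t7, t8, t9, t10, t11] :=
  RunsLE.lift (by decide) h _ _ (by intro a; fin_cases a <;> rfl) (by intro a; fin_cases a <;> rfl)
    (by intro c hc; fin_cases c <;> first | exact absurd rfl (hc 0) | simp)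

theorem liftO3 {F : Frag Sym 1} {u0 v0 : Tape Sym} {b : ℕ}
    (h : RunsLE F ![u0] b ![v0]) (t0 t1 t2 t4 t5 t6 t7 t8 t9 t10 t11 : Tape Sym) :
    RunsLE (lift ![3] F)
      ![t0, t1, t2, u0, t4, t5, t6, t7, t8, t9, t10, t11] b
      ![t0, t1, t2, v0, t4, t5, t6, t7, t8, t9, t10, t11] :=
  RunsLE.lift (by decide) h _ _ (by intro a; fin_cases a <;> rfl) (by intro a; fin_cases a <;> rfl)
    (by intro c hc; fin_cases c <;> first | exact absurd rfl (hc 0) | simp)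

theorem liftO4 {F : Frag Sym 1} {u0 v0 : Tape Sym} {b : ℕ}
    (h : RunsLE F ![u0] b ![v0]) (t0 t1 t2 t3 t5 t6 t7 t8 t9 t10 t11 : Tape Sym) :
    RunsLE (lift ![4] F)
      ![t0, t1, t2, t3, u0, t5, t6, t7, t8, t9, t10, t11] b
      ![t0, t1, t2, t3, v0, t5, t6, t7, t8, t9, t10, t11] :=
  RunsLE.lift (by decide) h _ _ (by intro a; fin_cases a <;> rfl) (by intro a; fin_cases a <;> rfl)
    (by intro c hc; fin_cases c <;> first | exact absurd rfl (hc 0) | simp)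

theorem liftO5 {F : Frag Sym 1} {u0 v0 : Tape Sym} {b : ℕ}
    (h : RunsLE F ![u0] b ![v0]) (t0 t1 t2 t3 t4 t6 t7 t8 t9 t10 t11 : Tape Sym) :
    RunsLE (lift ![5] F)
      ![t0, t1, t2, t3, t4, u0, t6, t7, t8, t9, t10, t11] b
      ![t0, t1, t2, t3, t4, v0, t6, t7, t8, t9, t10, t11] :=
  RunsLE.lift (by decide) h _ _ (by intro a; fin_cases a <;> rfl) (by intro a; fin_cases a <;> rfl)
    (by intro c hc; fin_cases c <;> first | exact absurd rfl (hc 0) | simp)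

theorem liftO6 {F : Frag Sym 1} {u0 v0 : Tape Sym} {b : ℕ}
    (h : RunsLE F ![u0] b ![v0]) (t0 t1 t2 t3 t4 t5 t7 t8 t9 t10 t11 : Tape Sym) :
    RunsLE (lift ![6] F)
      ![t0, t1, t2, t3, t4, t5, u0, t7, t8, t9, t10, t11] b
      ![t0, t1, t2, t3, t4, t5, v0, t7, t8, t9, t10, t11] :=
  RunsLE.lift (by decide) h _ _ (by intro a; fin_cases a <;> rfl) (by intro a; fin_cases a <;> rfl)
    (by intro c hc; fin_cases c <;> first | exact absurd rfl (hc 0) | simp)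

theorem liftO7 {F : Frag Sym 1} {u0 v0 : Tape Sym} {b : ℕ}
    (h : RunsLE F ![u0] b ![v0]) (t0 t1 t2 t3 t4 t5 t6 t8 t9 t10 t11 : Tape Sym) :
    RunsLE (lift ![7] F)
      ![t0, t1, t2, t3, t4, t5, t6, u0, t8, t9, t10, t11] b
      ![t0, t1, t2, t3, t4, t5, t6, v0, t8, t9, t10, t11] :=
  RunsLE.lift (by decide) h _ _ (by intro a; fin_cases a <;> rfl) (by intro a; fin_cases a <;> rfl)
    (by intro c hc; fin_cases c <;> first | exact absurd rfl (hc 0) | simp)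

theorem liftO11 {F : Frag Sym 1} {u0 v0 : Tape Sym} {b : ℕ}
    (h : RunsLE F ![u0] b ![v0]) (t0 t1 t2 t3 t4 t5 t6 t7 t8 t9 t10 : Tape Sym) :
    RunsLE (lift ![11] F)
      ![t0, t1, t2, t3, t4, t5, t6, t7, t8, t9, t10, u0] b
      ![t0, t1, t2, t3, t4, t5, t6, t7, t8, t9, t10, v0] :=
  RunsLE.lift (by decide) h _ _ (by intro a; fin_cases a <;> rfl) (by intro a; fin_cases a <;> rfl)
    (by intro c hc; fin_cases c <;> first | exact absurd rfl (hc 0) | simp)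

end Setup

/-- Tapes `0 a`, `1 rho`, `2 n`, `3 w`, `4 g`, `5 m`, `6 s`, `7 z`, `8 .. 11` scratch.
From `a` and `rho` (preserved) fill the zero counters `2 .. 7` with
`n = 2 ^ a`, `w = 2 ^ rho`, `g = 4 * 2 ^ (rho - a)`, `m = 4 * w`, `s = 48 * w`, `z = 47 * w - 4`. -/
noncomputable def setupP : Frag Sym 12 :=
  seq (lift ![0, 8, 2, 9, 10] pow2)
  (seq (lift ![1, 8, 3, 9, 10] pow2)
  (seq (lift ![3, 8, 5] (rep (incBy 4)))
  (seq (lift ![3, 8, 6] (rep (incBy 48)))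
  (seq (lift ![3, 8, 7] (rep (incBy 47)))
  (seq (lift ![7] (decBy 4))
  (seq (lift ![1, 8, 11] (rep (incBy 1)))
  (seq (lift ![0, 8, 11] (rep mvL))
  (seq (lift ![4] (incBy 4))
  (seq (lift ![11, 8, 4, 9, 10] mulPow2)
    (lift ![11] zero))))))))))

theorem runsLE_addMul0 (c x : ℕ) :
    RunsLE (rep (incBy c)) ![cnt x, cnt 0, cnt 0] (x * (c + 5) + 2) ![cnt x, cnt 0, cnt (c * x)] := by
  have h := runsLE_addMul c x 0
  rwa [Nat.zero_add] at h

theorem runsLE_setupP_aux (a rho : ℕ) :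
    RunsLE setupP
      ![cnt a, cnt rho, cnt 0, cnt 0, cnt 0, cnt 0, cnt 0, cnt 0, cnt 0, cnt 0, cnt 0, cnt 0]
      ((8 * 2 ^ a + 7 * a + 4) + ((8 * 2 ^ rho + 7 * rho + 4) + ((2 ^ rho * (4 + 5) + 2) +
        ((2 ^ rho * (48 + 5) + 2) + ((2 ^ rho * (47 + 5) + 2) + ((4 + 1) + ((rho * (1 + 5) + 2) +
        ((a * 5 + 2) + ((4 + 1) + ((8 * (4 * 2 ^ (rho - a)) + 7 * (rho - a) + 2) +
        (2 * (rho - a) + 1)))))))))))
      ![cnt a, cnt rho, cnt (2 ^ a), cnt (2 ^ rho), cnt (4 * 2 ^ (rho - a)), cnt (4 * 2 ^ rho),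
        cnt (48 * 2 ^ rho), cnt (47 * 2 ^ rho - 4), cnt 0, cnt 0, cnt 0, cnt 0] := by
  have h7 := runsLE_addMul0 1 rho
  rw [Nat.one_mul] at h7
  exact (Setup.liftA (runsLE_pow2 a) _ _ _ _ _ _ _).seq
    ((Setup.liftB (runsLE_pow2 rho) _ _ _ _ _ _ _).seq
    ((Setup.liftC5 (runsLE_addMul0 4 (2 ^ rho)) _ _ _ _ _ _ _ _ _).seq
    ((Setup.liftC6 (runsLE_addMul0 48 (2 ^ rho)) _ _ _ _ _ _ _ _ _).seq
    ((Setup.liftC7 (runsLE_addMul0 47 (2 ^ rho)) _ _ _ _ _ _ _ _ _).seq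
    ((Setup.liftO7 (runsLE_decBy 4 (47 * 2 ^ rho)) _ _ _ _ _ _ _ _ _ _ _).seq
    ((Setup.liftD1 h7 _ _ _ _ _ _ _ _ _).seq
    ((Setup.liftD0 (runsLE_subCntS a rho) _ _ _ _ _ _ _ _ _).seq
    ((Setup.liftO4 (runsLE_incBy 4 0) _ _ _ _ _ _ _ _ _ _ _).seq
    ((Setup.liftE (runsLE_mulPow2 (rho - a) 4) _ _ _ _ _ _ _).seq
      (Setup.liftO11 (runsLE_zero (rho - a)) _ _ _ _ _ _ _ _ _ _ _))))))))))

/-- The set-up in the form used by the passes: `n = 2 ^ a`, `w = 2 ^ rho`, `g = 2 ^ (rho + 2 - a)`,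
`m = 4 * 2 ^ rho`, `s = 48 * 2 ^ rho`, `z = s - w - 4`. -/
theorem runsLE_setupP (a rho : ℕ) (h : a ≤ rho) :
    RunsLE setupP
      ![cnt a, cnt rho, cnt 0, cnt 0, cnt 0, cnt 0, cnt 0, cnt 0, cnt 0, cnt 0, cnt 0, cnt 0]
      (200 * 2 ^ rho + 30)
      ![cnt a, cnt rho, cnt (2 ^ a), cnt (2 ^ rho), cnt (2 ^ (rho + 2 - a)), cnt (4 * 2 ^ rho),
        cnt (48 * 2 ^ rho), cnt (48 * 2 ^ rho - 2 ^ rho - 4), cnt 0, cnt 0, cnt 0, cnt 0] := by
  have key := runsLE_setupP_aux a rho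
  have e1 : 4 * 2 ^ (rho - a) = 2 ^ (rho + 2 - a) := by
    have : rho + 2 - a = (rho - a) + 2 := by omega
    rw [this, pow_add]; ring
  have e2 : 47 * 2 ^ rho - 4 = 48 * 2 ^ rho - 2 ^ rho - 4 := by omega
  have b1 : 2 ^ a ≤ 2 ^ rho := Nat.pow_le_pow_right (by norm_num) h
  have b2 : 2 ^ (rho - a) ≤ 2 ^ rho := Nat.pow_le_pow_right (by norm_num) (by omega)
  have b3 : rho < 2 ^ rho := Nat.lt_two_pow_self
  rw [e2] at key
  rw [← e1]
  exact key.mono (by omega)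

/-- Zero the six parameter counters `2 .. 7` again (same tape layout as `setupP`). -/
noncomputable def teardownP : Frag Sym 12 :=
  seq (lift ![2] zero) (seq (lift ![3] zero) (seq (lift ![4] zero) (seq (lift ![5] zero)
    (seq (lift ![6] zero) (lift ![7] zero)))))

theorem runsLE_teardownP (a rho n w g m s z : ℕ) :
    RunsLE teardownP
      ![cnt a, cnt rho, cnt n, cnt w, cnt g, cnt m, cnt s, cnt z, cnt 0, cnt 0, cnt 0, cnt 0]
      (2 * (n + w + g + m + s + z) + 6)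
      ![cnt a, cnt rho, cnt 0, cnt 0, cnt 0, cnt 0, cnt 0, cnt 0, cnt 0, cnt 0, cnt 0, cnt 0] :=
  ((Setup.liftO2 (runsLE_zero n) _ _ _ _ _ _ _ _ _ _ _).seq
    ((Setup.liftO3 (runsLE_zero w) _ _ _ _ _ _ _ _ _ _ _).seq
    ((Setup.liftO4 (runsLE_zero g) _ _ _ _ _ _ _ _ _ _ _).seq
    ((Setup.liftO5 (runsLE_zero m) _ _ _ _ _ _ _ _ _ _ _).seq
    ((Setup.liftO6 (runsLE_zero s) _ _ _ _ _ _ _ _ _ _ _).seq
      (Setup.liftO7 (runsLE_zero z) _ _ _ _ _ _ _ _ _ _ _)))))).mono (by omega)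

end Frag
end Vale.Agent.P338
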