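import Vale.Agent.P338.TM.Stream

/-!
Definitions for running a multiplying machine `A` as a subroutine.
The alphabet of the big machine is `GB A = Sym ⊕ ((A.Γ × Bool) ⊕ A.Q)`:
* `own x` : the work alphabet (own tapes of the big machine; `own Sym.blank` is the blank);
* `acell γ o` : a cell of a tape of `A` that has been visited; `o` marks cell `0`;
* `qcell q` : a state of `A` (stored on a register tape).
-/

namespace Vale.Agent.P338

variable {kA : ℕ}

/-- The alphabet of the big machine. -/
abbrev GB (A : Machine kA) : Type := Sym ⊕ ((A.Γ × Bool) ⊕ A.Q)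

namespace GB
variable (A : Machine kA)

/-- Work symbols. -/
abbrev own (x : Sym) : GB A := Sum.inl x
/-- Visited cell of a tape of `A`. -/
abbrev acell (γ : A.Γ) (o : Bool) : GB A := Sum.inr (Sum.inl (γ, o))
/-- A state of `A`. -/
abbrev qcell (q : A.Q) : GB A := Sum.inr (Sum.inr q)

instance : Inhabited (GB A) := ⟨Sum.inl Sym.blank⟩

theorem default_eq : (default : GB A) = own A Sym.blank := rfl

/-- Retraction onto the work alphabet. -/
def unown : GB A → Sym
  | Sum.inl x => x
  | _ => Sym.blank

@[simp] theorem unown_own (x : Sym) : unown A (own A x) = x := rfl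

/-- The symbol of `A` seen in a cell (unvisited cells are blank). -/
def dec : GB A → A.Γ
  | Sum.inr (Sum.inl (γ, _)) => γ
  | _ => A.blank

/-- Is this the marked cell `0` of a tape of `A`? -/
def isOrg : GB A → Bool
  | Sum.inr (Sum.inl (_, o)) => o
  | _ => false

/-- Has this cell been visited? -/
def isVis : GB A → Bool
  | Sum.inr (Sum.inl _) => true
  | _ => false

/-- Writing the symbol `γ` of `A` into a cell: the cell becomes visited, the mark is kept. -/
def encW (γ : A.Γ) (old : GB A) : GB A := acell A γ (isOrg A old)

/-- Decode a bit written by `A`. -/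
noncomputable def decBit (x : GB A) : Sym :=
  open Classical in if dec A x = A.sym (some true) then Sym.b1 else Sym.b0

end GB

open GB

/-- The first `r` cells of a tape of `A` with contents `f`. -/
def encList (A : Machine kA) (f : ℕ → A.Γ) (r : ℕ) : List (GB A) :=
  (List.range r).map fun j => acell A (f j) (j == 0)

/-- A tape of `A` with contents `f`, visited cells `0, …, r-1`, head on `h`. -/
def encTape (A : Machine kA) (f : ℕ → A.Γ) (r h : ℕ) : Tape (GB A) := tp (encList A f r) h

/-- The completely blank tape, head on cell `0`. -/
def blankTape (A : Machine kA) : Tape (GB A) := tp [] 0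

/-- An own tape inside the big machine. -/
def ownT (A : Machine kA) (t : Tape Sym) : Tape (GB A) := t.map (own A)

/-- The bits of a list (least significant first) as an input word of `A` (most significant first). -/
def revW (N : ℕ) (X : List Bool) : Fin N → Bool := fun i => X.getD (N - 1 - (i : ℕ)) false

/-- `T` represents the tapes of the configuration `c`, with visited prefixes of lengths `r i`. -/
def RepA (A : Machine kA) (c : Cfg A) (r : Fin kA → ℕ) (T : Fin kA → Tape (GB A)) : Prop :=
  ∀ i, T i = encTape A (c.tape i) (r i) (c.head i) ∧ 1 ≤ r i ∧ c.head i ≤ r i ∧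
    ∀ j, r i ≤ j → c.tape i j = A.blank

end Vale.Agent.P338
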