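import Vale.Agent.P338.TM.SimDefs

/-!
Generic one-tape scanning fragments over an arbitrary alphabet (used by the tasks S2, S3, S4).
-/

namespace Vale.Agent.P338
namespace Frag
open Matrix

section
variable {Γ : Type} [Inhabited Γ]

theorem zt_read (L R : List Γ) : (zt L R).read = R.headD default := by
  cases R <;> simp

theorem tp_eq_zt (l : List Γ) (h : ℕ) (hh : h ≤ l.length) : tp l h = zt (l.take h) (l.drop h) := by
  unfold zt
  rw [List.take_append_drop, List.length_take, Nat.min_eq_left hh]

theorem zt_nil_left (R : List Γ) : zt [] R = tp R 0 := rfl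

/-- Move right, move left (no writing). -/
def gR : Frag Γ 1 := prim fun s => ![(s 0, Dir.right)]
def gL : Frag Γ 1 := prim fun s => ![(s 0, Dir.left)]

theorem runsLE_gR (L R : List Γ) (x : Γ) : RunsLE gR ![zt L (x :: R)] 1 ![zt (L ++ [x]) R] :=
  RunsLE.prim _ _ _ (by simp)

theorem runsLE_gL (L R : List Γ) (c : Γ) : RunsLE gL ![zt (L ++ [c]) R] 1 ![zt L (c :: R)] :=
  RunsLE.prim _ _ _ (by simp only [reads_cons, cons_val_zero, acts_cons, zt_move_left]; simp)

/-- Move right while `p` holds for the scanned symbol. -/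
def scanR (p : Γ → Bool) : Frag Γ 1 := loop (fun s => p (s 0)) gR

/-- Move left while `p` holds for the scanned symbol. -/
def scanL (p : Γ → Bool) : Frag Γ 1 := loop (fun s => p (s 0)) gL

theorem runsLE_scanR (p : Γ → Bool) (L R R' : List Γ) (hR : ∀ x ∈ R, p x = true)
    (hstop : p (R'.headD default) = false) :
    RunsLE (scanR p) ![zt L (R ++ R')] (2 * R.length + 1) ![zt (L ++ R) R'] := by
  unfold scanR
  induction R generalizing L with
  | nil => simpa using RunsLE.loop_false (by simpa [zt_read] using hstop)
  | cons x R ih =>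
    have h1 := ih (L ++ [x]) (fun y hy => hR y (by simp [hy]))
    rw [List.append_assoc] at h1
    refine RunsLE.mono (RunsLE.loop_true (by simpa using hR x (by simp))
      (runsLE_gR L (R ++ R') x) h1) ?_
    simp; omega

theorem runsLE_scanL (p : Γ → Bool) (L₀ L R : List Γ) (c : Γ) (hL : ∀ x ∈ L, p x = true)
    (hc : p c = false) (hR : p (R.headD default) = true) :
    RunsLE (scanL p) ![zt (L₀ ++ c :: L) R] (2 * L.length + 3) ![zt L₀ (c :: (L ++ R))] := by
  unfold scanL
  induction L using List.reverseRecOn generalizing R with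
  | nil =>
    exact RunsLE.loop_true (b := 1) (b' := 1) (by simpa [zt_read] using hR) (runsLE_gL L₀ R c)
      (RunsLE.loop_false (by simp [hc]))
  | append_singleton L d ih =>
    have h1 := ih (d :: R) (fun y hy => hL y (by simp [hy])) (by simpa using hL d (by simp))
    have e : c :: (L ++ [d] ++ R) = c :: (L ++ d :: R) := by simp
    have e2 : L₀ ++ c :: (L ++ [d]) = (L₀ ++ c :: L) ++ [d] := by simp
    rw [e, e2]
    refine RunsLE.mono (RunsLE.loop_true (by simpa [zt_read] using hR) (runsLE_gL (L₀ ++ c :: L) R d) h1) ?_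
    simp; omega

end

end Frag
end Vale.Agent.P338
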