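import Vale.Agent.P338.TM.Mix
import Vale.Agent.P338.Bridge

/-!
S1: step-by-step simulation of `A` with a clock.
-/

namespace Vale.Agent.P338
open GB Frag Matrix

variable {kA : ℕ} (A : Machine kA)

theorem encTape_cells (f : ℕ → A.Γ) (r h j : ℕ) :
    (encTape A f r h).cells j = if j < r then acell A (f j) (j == 0) else own A Sym.blank := by
  simp only [encTape, tp, encList, List.getElem?_map]
  by_cases hj : j < r
  · simp [hj]
  · simp [hj]
    rfl

theorem encTape_head (f : ℕ → A.Γ) (r h : ℕ) : (encTape A f r h).head = h := rfl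

theorem encTape_isOrg (f : ℕ → A.Γ) (r h : ℕ) (hr : 1 ≤ r) :
    isOrg A (encTape A f r h).read = (h == 0) := by
  unfold Tape.read
  rw [encTape_head, encTape_cells]
  by_cases hh : h < r
  · simp [hh, isOrg]
  · have : h ≠ 0 := by omega
    simp [hh, isOrg, this]

theorem encTape_dec (f : ℕ → A.Γ) (r h : ℕ) (hb : ∀ j, r ≤ j → f j = A.blank) :
    dec A (encTape A f r h).read = f h := by
  unfold Tape.read
  rw [encTape_head, encTape_cells]
  by_cases hh : h < r
  · simp [hh, dec]
  · simp [hh, dec, hb h (by omega)]

theorem encTape_step (f : ℕ → A.Γ) (r h : ℕ) (γ : A.Γ) (d : Dir) (hr : 1 ≤ r) (hh : h ≤ r) :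
    (encTape A f r h).step (encW A γ (encTape A f r h).read, d)
      = encTape A (Function.update f h γ) (max r (h + 1)) (d.apply h) := by
  ext j
  · simp only [Tape.step, encTape_head, encW, encTape_isOrg A f r h hr]
    rw [encTape_cells]
    by_cases hj : j = h
    · subst hj
      simp
    · rw [Function.update_of_ne hj, encTape_cells, Function.update_of_ne hj]
      have : (j < max r (h + 1)) ↔ j < r := by
        constructor
        · intro h1
          rcases lt_max_iff.1 h1 with h2 | h2
          · exact h2
          · omega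
        · intro h1
          exact lt_max_of_lt_left h1
      simp only [this]
  · rfl

/-- One step of `A` on represented tapes. -/
theorem RepA.step {c : Cfg A} {r : Fin kA → ℕ} {T : Fin kA → Tape (GB A)} (h : RepA A c r T)
    {q' : A.Q} {wr : Fin kA → A.Γ} {d : Fin kA → Dir} :
    RepA A { q := q', tape := fun i => Function.update (c.tape i) (c.head i) (wr i),
             head := fun i => (d i).apply (c.head i) }
      (fun i => max (r i) (c.head i + 1))
      (fun i => (T i).step (encW A (wr i) (T i).read, d i)) := by
  intro i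
  obtain ⟨h1, h2, h3, h4⟩ := h i
  refine ⟨?_, le_max_of_le_left h2, ?_, ?_⟩
  · show (T i).step (encW A (wr i) (T i).read, d i) = _
    rw [h1]
    exact encTape_step A _ _ _ _ _ h2 h3
  · refine le_max_of_le_right ?_
    show (d i).apply (c.head i) ≤ c.head i + 1
    cases d i <;> simp only [Dir.apply] <;> omega
  · intro j hj
    have hj1 : r i ≤ j := le_trans (le_max_left _ _) hj
    have hj2 : c.head i + 1 ≤ j := le_trans (le_max_right _ _) hj
    simp only
    rw [Function.update_of_ne (by omega)]
    exact h4 j hj1

theorem RepA.reads {c : Cfg A} {r : Fin kA → ℕ} {T : Fin kA → Tape (GB A)} (h : RepA A c r T) :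
    (fun i => dec A ((T i).read)) = fun i => c.tape i (c.head i) := by
  funext i
  obtain ⟨h1, _, _, h4⟩ := h i
  rw [h1]
  exact encTape_dec A _ _ _ h4

/-- The register tape holding a state of `A`. -/
def regT (q : A.Q) : Tape (GB A) := tp [qcell A q] 0

/-- The register tape after `A` has halted. -/
def haltT : Tape (GB A) := tp [own A Sym.one] 0

/-- Does the register hold a state? -/
def isQ : GB A → Bool
  | Sum.inr (Sum.inr _) => true
  | _ => false

/-- Is this the own blank? -/
def isBl : GB A → Bool
  | Sum.inl Sym.blank => true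
  | _ => false

/-- Is this the own origin mark? -/
def isOr : GB A → Bool
  | Sum.inl Sym.org => true
  | _ => false

/-- One simulated step.  Tapes: register, clock, two counters (untouched), then the tapes of `A`. -/
noncomputable def simAct (s : Fin (4 + kA) → GB A) : Fin (4 + kA) → GB A × Dir :=
  match s (Fin.castAdd kA 0) with
  | Sum.inr (Sum.inr q) =>
    match A.δ q (fun i => dec A (s (Fin.natAdd 4 i))) with
    | some (q', wr, d) =>
      Fin.append ![(qcell A q', Dir.stay), (s (Fin.castAdd kA 1), Dir.right),
          (s (Fin.castAdd kA 2), Dir.stay), (s (Fin.castAdd kA 3), Dir.stay)]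
        (fun i => (encW A (wr i) (s (Fin.natAdd 4 i)), d i))
    | none =>
      Fin.append ![(own A Sym.one, Dir.stay), (s (Fin.castAdd kA 1), Dir.stay),
          (s (Fin.castAdd kA 2), Dir.stay), (s (Fin.castAdd kA 3), Dir.stay)]
        (fun i => (s (Fin.natAdd 4 i), Dir.stay))
  | _ => noop s

theorem regT_step (q : A.Q) (x : GB A) : (regT A q).step (x, Dir.stay) = tp [x] 0 := by
  have := tp_set [qcell A q] 0 x Dir.stay (by simp)
  simpa [regT, Dir.apply] using this

/-- Simulation of a non-halting step. -/
theorem simAct_step {c c' : Cfg A} {r : Fin kA → ℕ} {T : Fin kA → Tape (GB A)} (h : RepA A c r T)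
    (hs : step A c = some c') (L R : List (GB A)) (x : GB A) (o sh : Tape (GB A)) :
    ∃ T', acts (Fin.append ![regT A c.q, zt L (x :: R), o, sh] T)
        (simAct A (reads (Fin.append ![regT A c.q, zt L (x :: R), o, sh] T)))
      = Fin.append ![regT A c'.q, zt (L ++ [x]) R, o, sh] T' ∧
      RepA A c' (fun i => max (r i) (c.head i + 1)) T' := by
  unfold Vale.Agent.P338.step at hs
  rcases hδ : A.δ c.q (fun i => c.tape i (c.head i)) with _ | ⟨q', wr, d⟩
  · rw [hδ] at hs; simp at hs
  · rw [hδ] at hs
    simp only [Option.map_some, Option.some.injEq] at hs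
    subst hs
    refine ⟨_, ?_, h.step A (q' := q') (wr := wr) (d := d)⟩
    rw [reads_append]
    have e0 : Fin.append (reads ![regT A c.q, zt L (x :: R), o, sh]) (reads T) (Fin.castAdd kA 0)
        = qcell A c.q := by
      rw [Fin.append_left]; rfl
    have e1 : Fin.append (reads ![regT A c.q, zt L (x :: R), o, sh]) (reads T) (Fin.castAdd kA 1)
        = x := by
      rw [Fin.append_left]; simp
    have e3 : Fin.append (reads ![regT A c.q, zt L (x :: R), o, sh]) (reads T) (Fin.castAdd kA 2)
        = o.read := by
      rw [Fin.append_left]; simp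
    have e4 : Fin.append (reads ![regT A c.q, zt L (x :: R), o, sh]) (reads T) (Fin.castAdd kA 3)
        = sh.read := by
      rw [Fin.append_left]; simp
    have e2 : (fun i => dec A (Fin.append (reads ![regT A c.q, zt L (x :: R), o, sh]) (reads T)
        (Fin.natAdd 4 i))) = fun i => c.tape i (c.head i) := by
      rw [← h.reads A]
      funext i
      rw [Fin.append_right]; rfl
    unfold simAct
    rw [e0]
    simp only [e2, hδ, e1, e3, e4]
    rw [acts_append]
    congr 1
    · simp only [acts_cons, regT_step, zt_right_cons, acts_empty, Tape.step_read_stay]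
      rfl
    · funext i
      simp only [acts, Fin.append_right]
      rfl

/-- Detection of halting. -/
theorem simAct_halt {c : Cfg A} {r : Fin kA → ℕ} {T : Fin kA → Tape (GB A)} (h : RepA A c r T)
    (hs : step A c = none) (clk o sh : Tape (GB A)) :
    acts (Fin.append ![regT A c.q, clk, o, sh] T)
        (simAct A (reads (Fin.append ![regT A c.q, clk, o, sh] T)))
      = Fin.append ![haltT A, clk, o, sh] T := by
  unfold Vale.Agent.P338.step at hs
  rcases hδ : A.δ c.q (fun i => c.tape i (c.head i)) with _ | ⟨q', wr, d⟩
  · rw [reads_append]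
    have e0 : Fin.append (reads ![regT A c.q, clk, o, sh]) (reads T) (Fin.castAdd kA 0)
        = qcell A c.q := by
      rw [Fin.append_left]; rfl
    have e1 : Fin.append (reads ![regT A c.q, clk, o, sh]) (reads T) (Fin.castAdd kA 1)
        = clk.read := by
      rw [Fin.append_left]; simp
    have e3 : Fin.append (reads ![regT A c.q, clk, o, sh]) (reads T) (Fin.castAdd kA 2)
        = o.read := by
      rw [Fin.append_left]; simp
    have e4 : Fin.append (reads ![regT A c.q, clk, o, sh]) (reads T) (Fin.castAdd kA 3)
        = sh.read := by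
      rw [Fin.append_left]; simp
    have e2 : (fun i => dec A (Fin.append (reads ![regT A c.q, clk, o, sh]) (reads T)
        (Fin.natAdd 4 i))) = fun i => c.tape i (c.head i) := by
      rw [← h.reads A]
      funext i
      rw [Fin.append_right]; rfl
    unfold simAct
    rw [e0]
    simp only [e2, hδ, e1, e3, e4]
    rw [acts_append]
    congr 1
    · simp only [acts_cons, regT_step, Tape.step_read_stay, acts_empty]
      rfl
    · funext i
      simp only [acts, Fin.append_right, reads, Tape.step_read_stay]
  · rw [hδ] at hs; simp at hs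

/-- Simulate while the register holds a state and the clock has not run out. -/
noncomputable def simInner : Frag (GB A) (4 + kA) :=
  loop (fun s => isQ A (s (Fin.castAdd kA 0)) && !(isBl A (s (Fin.castAdd kA 1)))) (prim (simAct A))

theorem simInner_cond (reg clk o sh : Tape (GB A)) (T : Fin kA → Tape (GB A)) :
    (isQ A (reads (Fin.append ![reg, clk, o, sh] T) (Fin.castAdd kA 0)) &&
      !(isBl A (reads (Fin.append ![reg, clk, o, sh] T) (Fin.castAdd kA 1))))
      = (isQ A reg.read && !(isBl A clk.read)) := by
  simp only [reads_append, Fin.append_left]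
  simp

/-- The clock runs out before `A` halts. -/
theorem runsLE_simInner_full (o sh : Tape (GB A)) (R : List (GB A))
    (hR : ∀ x ∈ R, isBl A x = false) :
    ∀ (L : List (GB A)) (c c' : Cfg A) (r : Fin kA → ℕ) (T : Fin kA → Tape (GB A)), RepA A c r T →
      iter A R.length c = some c' →
      ∃ T' r', RunsLE (simInner A) (Fin.append ![regT A c.q, zt L R, o, sh] T) (2 * R.length + 1)
          (Fin.append ![regT A c'.q, zt (L ++ R) [], o, sh] T') ∧ RepA A c' r' T' ∧
        ∀ i, r' i ≤ r i + R.length := by
  induction R with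
  | nil =>
    intro L c c' r T h hi
    simp only [List.length_nil, iter, Option.some.injEq] at hi
    subst hi
    refine ⟨T, r, ?_, h, fun i => by simp⟩
    rw [List.append_nil]
    refine RunsLE.loop_false ?_
    rw [simInner_cond]
    simp [isBl, default_eq]
  | cons x R ih =>
    intro L c c' r T h hi
    simp only [List.length_cons, iter] at hi
    rcases hs : step A c with _ | c₁
    · rw [hs] at hi; simp at hi
    · rw [hs] at hi
      simp only [Option.bind_some] at hi
      obtain ⟨T₁, hT₁, hrep₁⟩ := simAct_step A h hs L R x o sh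
      obtain ⟨T', r', hrun, hrep', hr'⟩ := ih (fun y hy => hR y (by simp [hy])) (L ++ [x]) c₁ c' _ T₁
        hrep₁ hi
      refine ⟨T', r', ?_, hrep', ?_⟩
      · have e : L ++ x :: R = L ++ [x] ++ R := by simp
        rw [e]
        refine RunsLE.mono (RunsLE.loop_true ?_ (RunsLE.prim _ _ _ hT₁) hrun) ?_
        · rw [simInner_cond]
          simp [regT, isQ, hR x (by simp)]
        · simp; omega
      · intro i
        have := hr' i
        have h3 := (h i).2.2.1
        simp only [List.length_cons]
        have : max (r i) (c.head i + 1) ≤ r i + 1 := max_le (by omega) (by omega)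
        omega

/-- `A` halts before the clock runs out. -/
theorem runsLE_simInner_halt (o sh : Tape (GB A)) (R : List (GB A))
    (hR : ∀ x ∈ R, isBl A x = false) :
    ∀ (t : ℕ) (L : List (GB A)) (c c' : Cfg A) (r : Fin kA → ℕ) (T : Fin kA → Tape (GB A)),
      RepA A c r T → t < R.length → HaltsAt A c t c' →
      ∃ T' r', RunsLE (simInner A) (Fin.append ![regT A c.q, zt L R, o, sh] T) (2 * t + 3)
          (Fin.append ![haltT A, zt (L ++ R.take t) (R.drop t), o, sh] T') ∧ RepA A c' r' T' ∧
        ∀ i, r' i ≤ r i + t := by
  induction R with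
  | nil => intro t L c c' r T _ ht; simp at ht
  | cons x R ih =>
    intro t L c c' r T h ht hh
    cases t with
    | zero =>
      obtain ⟨h1, h2⟩ := hh
      simp only [iter, Option.some.injEq] at h1
      subst h1
      refine ⟨T, r, ?_, h, fun i => by simp⟩
      simp only [List.take_zero, List.append_nil, List.drop_zero]
      refine RunsLE.loop_true (b := 1) (b' := 1) ?_
        (RunsLE.prim _ _ _ (simAct_halt A h h2 (zt L (x :: R)) o sh)) (RunsLE.loop_false ?_)
      · rw [simInner_cond]
        simp [regT, isQ, hR x (by simp)]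
      · rw [simInner_cond]
        simp [haltT, isQ]
    | succ t =>
      obtain ⟨h1, h2⟩ := hh
      simp only [iter] at h1
      rcases hs : step A c with _ | c₁
      · rw [hs] at h1; simp at h1
      · rw [hs] at h1
        simp only [Option.bind_some] at h1
        obtain ⟨T₁, hT₁, hrep₁⟩ := simAct_step A h hs L R x o sh
        obtain ⟨T', r', hrun, hrep', hr'⟩ := ih (fun y hy => hR y (by simp [hy])) t (L ++ [x]) c₁ c' _
          T₁ hrep₁ (by simpa using ht) ⟨h1, h2⟩
        refine ⟨T', r', ?_, hrep', ?_⟩
        · have e : L ++ List.take (t + 1) (x :: R) = L ++ [x] ++ List.take t R := by simp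
          rw [e, List.drop_succ_cons]
          refine RunsLE.mono (RunsLE.loop_true ?_ (RunsLE.prim _ _ _ hT₁) hrun) ?_
          · rw [simInner_cond]
            simp [regT, isQ, hR x (by simp)]
          · omega
        · intro i
          have := hr' i
          have h3 := (h i).2.2.1
          have : max (r i) (c.head i + 1) ≤ r i + 1 := max_le (by omega) (by omega)
          omega

theorem ownT_zt (L R : List Sym) : ownT A (zt L R) = zt (L.map (own A)) (R.map (own A)) :=
  zt_map (own A) rfl L R

/-- Run an own-level fragment on some of the four named tapes. -/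
noncomputable def own4 {k : ℕ} (ι : Fin k → Fin 4) (F : Frag Sym k) : Frag (GB A) (4 + kA) :=
  onLeft kA (lift ι (mapΓ (own A) (unown A) F))

theorem runsLE_own4 {k : ℕ} {ι : Fin k → Fin 4} (hι : Function.Injective ι) {F : Frag Sym k}
    {T₀ T₀' : Fin k → Tape Sym} {b : ℕ} (h : RunsLE F T₀ b T₀') (S S' : Fin 4 → Tape (GB A))
    (h0 : ∀ a, S (ι a) = ownT A (T₀ a)) (h1 : ∀ a, S' (ι a) = ownT A (T₀' a))
    (h2 : ∀ c, (∀ a, ι a ≠ c) → S' c = S c) (T : Fin kA → Tape (GB A)) :
    RunsLE (own4 A ι F) (Fin.append S T) b (Fin.append S' T) :=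
  RunsLE.onLeft (RunsLE.lift hι (RunsLE.mapΓ (e := own A) (p := unown A) (fun _ => rfl) h) _ _ h0 h1 h2) T

/-- Rewind the clock to cell `1`. -/
noncomputable def clockBack : Frag (GB A) (4 + kA) := own4 A ![1] (seq rewind mvR)

theorem runsLE_clockBack (reg o sh : Tape (GB A)) (T : Fin kA → Tape (GB A)) (L R : List Sym)
    (hL : Sym.org ∉ L) (hR : R.head? ≠ some Sym.org) :
    RunsLE (clockBack A) (Fin.append ![reg, ownT A (zt (Sym.org :: L) R), o, sh] T) (2 * L.length + 4)
      (Fin.append ![reg, ownT A (zt [Sym.org] (L ++ R)), o, sh] T) := by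
  have h := (runsLE_rewind L R hL hR).seq (runsLE_mvR_cons [] (L ++ R) Sym.org)
  refine runsLE_own4 A (by decide) h _ _ ?_ ?_ ?_ T
  · intro a; fin_cases a; rfl
  · intro a; fin_cases a; rfl
  · intro c hc; fin_cases c <;> first | rfl | (exfalso; revert hc; decide)

/-- `outer -= 1`, `shadow += 1`. -/
noncomputable def tick : Frag (GB A) (4 + kA) :=
  own4 A ![2, 3] (prim fun s => ![(s 0, Dir.left), (s 1, Dir.right)])

theorem runsLE_tick (reg clk : Tape (GB A)) (T : Fin kA → Tape (GB A)) (o sh : ℕ) :
    RunsLE (tick A) (Fin.append ![reg, clk, ownT A (cnt (o + 1)), ownT A (cnt sh)] T) 1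
      (Fin.append ![reg, clk, ownT A (cnt o), ownT A (cnt (sh + 1))] T) := by
  have h : RunsLE (prim fun s : Fin 2 → Sym => ![(s 0, Dir.left), (s 1, Dir.right)])
      ![cnt (o + 1), cnt sh] 1 ![cnt o, cnt (sh + 1)] := by
    refine RunsLE.prim _ _ _ ?_
    simp only [reads_cons, cons_val_zero, cons_val_one, acts_cons, cnt_left, cnt_right]
    simp
  refine runsLE_own4 A (by decide) h _ _ ?_ ?_ ?_ T
  · intro a; fin_cases a <;> rfl
  · intro a; fin_cases a <;> rfl
  · intro c hc; fin_cases c <;> first | rfl | (exfalso; revert hc; decide)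

/-- The capped simulation: at most `outer` rounds of the clock. -/
noncomputable def simOuter : Frag (GB A) (4 + kA) :=
  loop (fun s => isQ A (s (Fin.castAdd kA 0)) && !(isOr A (s (Fin.castAdd kA 2))))
    (seq (simInner A) (seq (clockBack A) (tick A)))

theorem simOuter_cond (reg clk o sh : Tape (GB A)) (T : Fin kA → Tape (GB A)) :
    (isQ A (reads (Fin.append ![reg, clk, o, sh] T) (Fin.castAdd kA 0)) &&
      !(isOr A (reads (Fin.append ![reg, clk, o, sh] T) (Fin.castAdd kA 2))))
      = (isQ A reg.read && !(isOr A o.read)) := by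
  simp only [reads_append, Fin.append_left]
  simp

theorem haltsAt_split {c c' : Cfg A} {t N : ℕ} (h : HaltsAt A c t c') (hN : N ≤ t) :
    ∃ c₁, iter A N c = some c₁ ∧ HaltsAt A c₁ (t - N) c' := by
  obtain ⟨h1, h2⟩ := h
  have e : t = N + (t - N) := by omega
  rw [e, iter_add] at h1
  rcases hi : iter A N c with _ | c₁
  · rw [hi] at h1; simp at h1
  · rw [hi] at h1
    exact ⟨c₁, rfl, h1, h2⟩

/-- The capped simulation.  `X` is the clock (`N = X.length ≥ 1`), `o` the number of rounds. -/
theorem runsLE_simOuter (X : List Sym) (hX : IsData X) (hN : 1 ≤ X.length) :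
    ∀ (o sh t : ℕ) (c c' : Cfg A) (r : Fin kA → ℕ) (T : Fin kA → Tape (GB A)), RepA A c r T →
      HaltsAt A c t c' →
      (t < o * X.length → ∃ o' sh' T' r', RunsLE (simOuter A)
          (Fin.append ![regT A c.q, ownT A (zt [Sym.org] X), ownT A (cnt o), ownT A (cnt sh)] T)
          (11 * t + 11)
          (Fin.append ![haltT A, ownT A (zt [Sym.org] X), ownT A (cnt o'), ownT A (cnt sh')] T') ∧
          o' + sh' = o + sh ∧ sh' ≤ sh + t + 1 ∧ RepA A c' r' T' ∧ ∀ i, r' i ≤ r i + t) ∧
      (o * X.length ≤ t → ∃ c'' T' r', RunsLE (simOuter A)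
          (Fin.append ![regT A c.q, ownT A (zt [Sym.org] X), ownT A (cnt o), ownT A (cnt sh)] T)
          (11 * (o * X.length) + 1)
          (Fin.append ![regT A c''.q, ownT A (zt [Sym.org] X), ownT A (cnt 0), ownT A (cnt (o + sh))] T')
          ∧ RepA A c'' r' T' ∧ ∀ i, r' i ≤ r i + o * X.length) := by
  have hXb : ∀ x ∈ X.map (own A), isBl A x = false := by
    intro x hx
    obtain ⟨y, hy, rfl⟩ := List.mem_map.1 hx
    have := (hX y hy).1
    cases y <;> simp_all [isBl]
  have hXo : Sym.org ∉ X := fun h => (hX _ h).2 rfl
  intro o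
  induction o with
  | zero =>
    intro sh t c c' r T h hh
    refine ⟨fun h0 => by simp at h0, fun _ => ⟨c, T, r, ?_, h, fun i => by simp⟩⟩
    simp only [Nat.zero_mul, Nat.mul_zero, Nat.zero_add]
    refine RunsLE.loop_false ?_
    rw [simOuter_cond]
    simp [ownT_read, isOr]
  | succ o ih =>
    intro sh t c c' r T h hh
    have hcond : ∀ (q : A.Q) (clk sh' : Tape (GB A)) (T : Fin kA → Tape (GB A)),
        (isQ A (reads (Fin.append ![regT A q, clk, ownT A (cnt (o + 1)), sh'] T) (Fin.castAdd kA 0)) &&
        !(isOr A (reads (Fin.append ![regT A q, clk, ownT A (cnt (o + 1)), sh'] T)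
          (Fin.castAdd kA 2)))) = true := by
      intro q clk sh' T
      rw [simOuter_cond]
      simp [ownT_read, isOr, regT, isQ]
    by_cases htN : t < X.length
    · -- `A` halts in this round
      obtain ⟨T', r', hrun, hrep, hr⟩ := runsLE_simInner_halt A (ownT A (cnt (o + 1))) (ownT A (cnt sh))
        (X.map (own A)) hXb t [own A Sym.org] c c' r T h (by simpa using htN) hh
      have e1 : zt ([own A Sym.org] ++ List.take t (X.map (own A))) (List.drop t (X.map (own A)))
          = ownT A (zt (Sym.org :: X.take t) (X.drop t)) := by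
        rw [ownT_zt]; simp
      have e0 : zt [own A Sym.org] (X.map (own A)) = ownT A (zt [Sym.org] X) := by
        rw [ownT_zt]; simp
      rw [e1, e0] at hrun
      have hb := runsLE_clockBack A (haltT A) (ownT A (cnt (o + 1))) (ownT A (cnt sh)) T' (X.take t)
        (X.drop t) (fun hm => hXo (List.mem_of_mem_take hm)) (by
          intro hm
          exact hXo (List.mem_of_mem_drop (List.mem_of_mem_head? hm)))
      rw [List.take_append_drop] at hb
      have ht := runsLE_tick A (haltT A) (ownT A (zt [Sym.org] X)) T' o sh
      refine ⟨fun _ => ⟨o, sh + 1, T', r', ?_, by omega, by omega, hrep, hr⟩, fun h0 => ?_⟩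
      · refine RunsLE.mono (RunsLE.loop_true (hcond _ _ _ _) (hrun.seq (hb.seq ht))
          (RunsLE.loop_false ?_)) ?_
        · rw [simOuter_cond]
          simp [haltT, isQ]
        · simp only [List.length_take]
          have : min t X.length = t := by omega
          rw [this]
          omega
      · exfalso
        have : X.length ≤ (o + 1) * X.length := Nat.le_mul_of_pos_left _ (by omega)
        omega
    · -- a full round
      obtain ⟨c₁, hi, hh₁⟩ := haltsAt_split A hh (Nat.le_of_not_lt htN)
      obtain ⟨T₁, r₁, hrun, hrep₁, hr₁⟩ := runsLE_simInner_full A (ownT A (cnt (o + 1)))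
        (ownT A (cnt sh)) (X.map (own A)) hXb [own A Sym.org] c c₁ r T h (by simpa using hi)
      have e1 : zt ([own A Sym.org] ++ X.map (own A)) [] = ownT A (zt (Sym.org :: X) []) := by
        rw [ownT_zt]; simp
      have e0 : zt [own A Sym.org] (X.map (own A)) = ownT A (zt [Sym.org] X) := by
        rw [ownT_zt]; simp
      rw [e1, e0] at hrun
      have hb := runsLE_clockBack A (regT A c₁.q) (ownT A (cnt (o + 1))) (ownT A (cnt sh)) T₁ X []
        hXo (by simp)
      rw [List.append_nil] at hb
      have ht := runsLE_tick A (regT A c₁.q) (ownT A (zt [Sym.org] X)) T₁ o sh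
      have hbody := hrun.seq (hb.seq ht)
      simp only [List.length_map] at hbody hr₁
      obtain ⟨ihA, ihB⟩ := ih (sh + 1) (t - X.length) c₁ c' r₁ T₁ hrep₁ hh₁
      have hmul : (o + 1) * X.length = o * X.length + X.length := by ring
      constructor
      · intro h0
        obtain ⟨o', sh', T', r', hrun', hsum, hsh, hrep', hr'⟩ := ihA (by omega)
        refine ⟨o', sh', T', r', ?_, by omega, by omega, hrep', ?_⟩
        · refine RunsLE.mono (RunsLE.loop_true (hcond _ _ _ _) hbody hrun') ?_
          omega
        · intro i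
          have := hr' i
          have := hr₁ i
          omega
      · intro h0
        obtain ⟨c'', T', r', hrun', hrep', hr'⟩ := ihB (by omega)
        refine ⟨c'', T', r', ?_, hrep', ?_⟩
        · have e : o + 1 + sh = o + (sh + 1) := by omega
          rw [e]
          refine RunsLE.mono (RunsLE.loop_true (hcond _ _ _ _) hbody hrun') ?_
          rw [hmul]
          omega
        · intro i
          have := hr' i
          have := hr₁ i
          rw [hmul]
          omega

end Vale.Agent.P338
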