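import Mathlib

/-!
List-level specification of the passes of the transposition algorithm.
All functions are executable; the structural ones are polymorphic in the type of symbols
(`z` is the zero symbol used for padding).
-/

namespace Vale.Agent.P338

/-! ### Chunks -/

/-- Concatenation `f 0 ++ f 1 ++ … ++ f (n-1)`. -/
def cat {α : Type} (n : ℕ) (f : ℕ → List α) : List α := (List.range n).flatMap f

/-- The `j`-th block of length `L` of `l`. -/
def chunk {α : Type} (L : ℕ) (l : List α) (j : ℕ) : List α := (l.drop (j * L)).take L

/-- Cut `l` into blocks of length `L` and replace the `j`-th block `c` by `f j c`. -/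
def mapChunks {α : Type} (L : ℕ) (f : ℕ → List α → List α) (l : List α) : List α :=
  cat (l.length / L) fun j => f j (chunk L l j)

/-- Cut `l` into blocks of length `L`; the new `j`-th block is the old block number `π j`. -/
def reindex {α : Type} (L : ℕ) (π : ℕ → ℕ) (l : List α) : List α :=
  cat (l.length / L) fun j => chunk L l (π j)

/-! ### Numbers as bit lists, least significant bit first -/

/-- Value of a bit list, least significant bit first. -/
def valLE : List Bool → ℕ
  | [] => 0
  | b :: l => b.toNat + 2 * valLE l

/-- The `len` low bits of `x`, least significant bit first. -/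
def bitsLE (len x : ℕ) : List Bool := (List.range len).map fun i => x.testBit i

/-! ### Target permutations -/

/-- Batched transposition of `n × n` matrices with entries of `w` symbols: the list is cut into
entries; entry number `(b n + p) n + q` of the result is entry `(b n + q) n + p` of `l`. -/
def swapL {α : Type} (n w : ℕ) (l : List α) : List α :=
  reindex w (fun idx => (idx / (n * n)) * (n * n) + (idx % n) * n + (idx / n) % n) l

/-- The column operation: entry `(b,p,q)` of the result is entry `(b, (q - p) mod n, q)` of `l`. -/
def colPerm {α : Type} (n w : ℕ) (l : List α) : List α :=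
  reindex w (fun idx => (idx / (n * n)) * (n * n) + ((idx % n + n - (idx / n) % n) % n) * n + idx % n) l

/-- Perfect shuffle of batches of `2 * h` entries of `e` symbols: new entry `2 y + β` of a batch is
the old entry `β h + y`. -/
def shufL {α : Type} (h e : ℕ) (l : List α) : List α :=
  reindex e (fun idx => (idx / (2 * h)) * (2 * h) + (idx % 2) * h + (idx % (2 * h)) / 2) l

/-- Inverse perfect shuffle: new entry `β h + y` of a batch is the old entry `2 y + β`. -/
def unshufL {α : Type} (h e : ℕ) (l : List α) : List α :=
  reindex e (fun idx => (idx / (2 * h)) * (2 * h) + 2 * (idx % h) + (idx % (2 * h)) / h) l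

/-! ### The structural passes -/

/-- Rotate the `i`-th row (`n` entries of `w` symbols) of every `n`-row batch: to the left by `i`
entries if `dir`, to the right by `i` entries otherwise. -/
def rowRot {α : Type} (dir : Bool) (n w : ℕ) (l : List α) : List α :=
  mapChunks (n * w) (fun idx row => row.rotate ((if dir then idx % n else n - idx % n) * w)) l

/-- Entry of `w` symbols ↦ slot of `s` symbols: `4` zeros, the entry, zeros. -/
def padSlots {α : Type} (z : α) (w s : ℕ) (l : List α) : List α :=
  mapChunks w (fun _ e => List.replicate 4 z ++ e ++ List.replicate (s - w - 4) z) l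

/-- Multiply the slot in row `r`, column `q` by `2 ^ (g * ε r q)` (rows and columns mod `n`). -/
def shiftSlots {α : Type} (z : α) (n g s : ℕ) (ε : ℕ → ℕ → ℕ) (l : List α) : List α :=
  mapChunks s (fun idx σ => List.replicate (g * ε ((idx / n) % n) (idx % n)) z ++
    σ.take (s - g * ε ((idx / n) % n) (idx % n))) l

/-- After every batch of `n` rows (of `n` slots) insert `2 n` zero rows. -/
def padRows {α : Type} (z : α) (n s : ℕ) (l : List α) : List α :=
  mapChunks (n * n * s) (fun _ B => B ++ List.replicate (2 * n * n * s) z) l

/-- Of every batch of `3 n` rows keep the rows `n-1, …, 2n-2`. -/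
def selRows {α : Type} (n s : ℕ) (l : List α) : List α :=
  mapChunks (3 * n * n * s) (fun _ B => (B.drop ((n - 1) * n * s)).take (n * n * s)) l

/-- Exponent schedule of the chirp: `r² mod 2n`. -/
def epsCH (n : ℕ) (r _q : ℕ) : ℕ := (r * r) % (2 * n)

/-- Exponent schedule of the middle stage: `2 r (r - q) mod 2n`. -/
def epsB (n : ℕ) (r q : ℕ) : ℕ := (2 * r * (r + n - q)) % (2 * n)

/-- Exponent of the kernel in row `r'` (`0 ≤ r' ≤ 2n-2`): `-(r'+1)² mod 2n`. -/
def epsK (n : ℕ) (r' : ℕ) : ℕ := (2 * n - ((r' + 1) * (r' + 1)) % (2 * n)) % (2 * n)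

/-- The kernel operand: row `r'` (`r' < 2n-1`) starts with the slot `2 ^ (g * epsK n r')`, all other
slots are zero; padded with zeros to length `total`. -/
def kernelL {α : Type} (z o : α) (n g s total : ℕ) : List α :=
  cat (2 * n - 1) (fun r' => List.replicate (g * epsK n r') z ++ [o] ++
      List.replicate (s - 1 - g * epsK n r') z ++ List.replicate ((n - 1) * s) z) ++
    List.replicate (total - (2 * n - 1) * n * s) z

/-- The low half of the product of two numbers of equal length. -/
def multL (X Y : List Bool) : List Bool := bitsLE X.length (valLE X * valLE Y)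

/-- The accumulator of the reduction modulo `2 ^ m + 1` of a slot of `12 m` bits:
`12 + Σ_{t even} c_t + Σ_{t odd} (2 ^ m - 1 - c_t)` where `c_t` are the `m`-bit chunks. -/
def accVal (m : ℕ) (σ : List Bool) : ℕ :=
  12 + ∑ t ∈ Finset.range 12,
    if t % 2 = 0 then valLE (chunk m σ t) else 2 ^ m - 1 - valLE (chunk m σ t)

/-- Slot of `12 m` bits ↦ the bits `a+4, …, a+4+w-1` of the accumulator. -/
def reduceSlots (a w m : ℕ) (l : List Bool) : List Bool :=
  mapChunks (12 * m) (fun _ σ => ((bitsLE (m + 4) (accVal m σ)).drop (a + 4)).take w) l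

/-! ### The column operation and the swap through two multiplications -/

/-- Parameters: `n = 2 ^ a`, `w = 2 ^ ρ`, `m = 4 w`, `g = m / n`, `s = 12 m`. -/
def colOp (a ρ : ℕ) (l : List Bool) : List Bool :=
  let n := 2 ^ a
  let w := 2 ^ ρ
  let m := 4 * w
  let g := m / n
  let s := 12 * m
  let X1 := padRows false n s (shiftSlots false n g s (epsCH n) (padSlots false w s l))
  let Y := kernelL false true n g s X1.length
  let P1 := multL X1 Y
  let X2 := padRows false n s (shiftSlots false n g s (epsB n) (selRows n s P1))
  let P2 := multL X2 Y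
  reduceSlots a w m (shiftSlots false n g s (epsCH n) (selRows n s P2))

/-- The swap computed with two multiplications. -/
def swapA (a ρ : ℕ) (l : List Bool) : List Bool :=
  rowRot true (2 ^ a) (2 ^ ρ) (colOp a ρ (rowRot false (2 ^ a) (2 ^ ρ) l))

/-! ### The recursion on index bits -/

/-- Level `κ ≥ 2`, `u = κ / 2`, `v = κ - u`: `[I:u][i₀:v][J:u][j₀:v] ↦ [I][J][i₀][j₀]`. -/
def downL {α : Type} (κ : ℕ) (l : List α) : List α :=
  let u := κ / 2
  let v := κ - u
  if v = u then swapL (2 ^ u) (2 ^ v) l
  else shufL (2 ^ u) (2 ^ (u + v)) (swapL (2 ^ u) (2 ^ v) l)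

/-- `[I:u][J:u][rest:2v] ↦ [J][I][rest]`. -/
def midL {α : Type} (κ : ℕ) (l : List α) : List α :=
  swapL (2 ^ (κ / 2)) (2 ^ (2 * (κ - κ / 2))) l

/-- Inverse of `downL`. -/
def upL {α : Type} (κ : ℕ) (l : List α) : List α :=
  let u := κ / 2
  let v := κ - u
  if v = u then swapL (2 ^ u) (2 ^ v) l
  else swapL (2 ^ u) (2 ^ v) (unshufL (2 ^ u) (2 ^ (u + v)) l)

/-- The recursive algorithm for the batched transposition of `2 ^ κ × 2 ^ κ` bit matrices. -/
def algL {α : Type} (κ : ℕ) (l : List α) : List α :=
  if h : κ < 2 then (if κ = 0 then l else shufL 2 1 l)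
  else upL κ (algL (κ - κ / 2) (midL κ (downL κ l)))
termination_by κ
decreasing_by omega

end Vale.Agent.P338
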