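import Vale.Agent.P338.TM.Zip
import Vale.Agent.P338.TM.ListLib

/-!
Stream transformers.  Tape `0` is the input stream `X`, tape `1` the output stream `Y`, the tapes
`2, 3, …` are auxiliary (counters, scratch tapes).  `Stream F c d aux aux' τ` says: `F` consumes the
block `c` of the input, appends the block `d` to the output and changes the auxiliary tapes from
`aux` to `aux'`, in at most `τ` steps.
-/

namespace Vale.Agent.P338
namespace Frag
open Matrix

variable {k K : ℕ}

/-- `F` consumes `c`, produces `d`, changes the auxiliary tapes from `aux` to `aux'`. -/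
def Stream (F : Frag Sym (k + 2)) (c d : List Sym) (aux aux' : Fin k → Tape Sym) (τ : ℕ) : Prop :=
  ∀ L R O : List Sym, RunsLE F (vecCons (zt L (c ++ R)) (vecCons (zt O []) aux)) τ
    (vecCons (zt (L ++ c) R) (vecCons (zt (O ++ d) []) aux'))

theorem Stream.mono {F : Frag Sym (k + 2)} {c d : List Sym} {aux aux' : Fin k → Tape Sym} {τ τ' : ℕ}
    (h : Stream F c d aux aux' τ) (hτ : τ ≤ τ') : Stream F c d aux aux' τ' :=
  fun L R O => (h L R O).mono hτ

theorem Stream.seq {F G : Frag Sym (k + 2)} {c d c' d' : List Sym}
    {aux aux' aux'' : Fin k → Tape Sym} {τ τ' : ℕ} (h : Stream F c d aux aux' τ)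
    (h' : Stream G c' d' aux' aux'' τ') :
    Stream (Frag.seq F G) (c ++ c') (d ++ d') aux aux'' (τ + τ') := by
  intro L R O
  have h1 := h L (c' ++ R) O
  have h2 := h' (L ++ c) R (O ++ d)
  rw [List.append_assoc c c' R, ← List.append_assoc L c c', ← List.append_assoc O d d']
  exact h1.seq h2

/-- Index map keeping the two streams and sending the auxiliary tape `a` to `ι a`. -/
def auxMap (ι : Fin k → Fin K) : Fin (k + 2) → Fin (K + 2) :=
  vecCons 0 (vecCons 1 fun a => (ι a).succ.succ)

theorem auxMap_injective {ι : Fin k → Fin K} (hι : Function.Injective ι) :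
    Function.Injective (auxMap ι) := by
  intro x y
  refine Fin.cases ?_ (fun x' => ?_) x <;> refine Fin.cases ?_ (fun y' => ?_) y
  · intro _; rfl
  · refine Fin.cases ?_ (fun y'' => ?_) y'
    · intro h; exact absurd h (by simp [auxMap])
    · intro h; exact absurd h (by simp [auxMap, Fin.ext_iff])
  · refine Fin.cases ?_ (fun x'' => ?_) x'
    · intro h; exact absurd h (by simp [auxMap])
    · intro h; exact absurd h (by simp [auxMap, Fin.ext_iff])
  · refine Fin.cases ?_ (fun x'' => ?_) x' <;> refine Fin.cases ?_ (fun y'' => ?_) y'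
    · intro _; rfl
    · intro h; exact absurd h (by simp [auxMap, Fin.ext_iff])
    · intro h; exact absurd h (by simp [auxMap, Fin.ext_iff])
    · intro h
      have : ι x'' = ι y'' := by simpa [auxMap] using h
      rw [hι this]

/-- Run a stream transformer with its auxiliary tapes placed at the positions `ι`. -/
noncomputable def liftS (ι : Fin k → Fin K) (F : Frag Sym (k + 2)) : Frag Sym (K + 2) :=
  lift (auxMap ι) F

theorem Stream.lift {ι : Fin k → Fin K} (hι : Function.Injective ι) {F : Frag Sym (k + 2)}
    {c d : List Sym} {aux aux' : Fin k → Tape Sym} {τ : ℕ} (h : Stream F c d aux aux' τ)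
    (AUX AUX' : Fin K → Tape Sym) (h0 : ∀ a, AUX (ι a) = aux a) (h1 : ∀ a, AUX' (ι a) = aux' a)
    (h2 : ∀ b, (∀ a, ι a ≠ b) → AUX' b = AUX b) : Stream (liftS ι F) c d AUX AUX' τ := by
  intro L R O
  refine RunsLE.lift (auxMap_injective hι) (h L R O) _ _ ?_ ?_ ?_
  · intro a
    refine Fin.cases rfl (fun a' => ?_) a
    refine Fin.cases rfl (fun a'' => ?_) a'
    exact h0 a''
  · intro a
    refine Fin.cases rfl (fun a' => ?_) a
    refine Fin.cases rfl (fun a'' => ?_) a'
    exact h1 a''
  · intro b
    refine Fin.cases (fun hb => absurd rfl (hb 0)) (fun b' => ?_) b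
    refine Fin.cases (fun hb => absurd rfl (hb 1)) (fun b'' => ?_) b'
    intro hb
    exact h2 b'' fun a ha => hb a.succ.succ (by simp [auxMap, ha])

/-- A fragment acting on the auxiliary tapes only. -/
noncomputable def onAux (G : Frag Sym k) : Frag Sym (k + 2) := lift (fun a => a.succ.succ) G

theorem Stream.onAux {G : Frag Sym k} {aux aux' : Fin k → Tape Sym} {τ : ℕ}
    (h : RunsLE G aux τ aux') : Stream (Frag.onAux G) [] [] aux aux' τ := by
  intro L R O
  simp only [List.nil_append, List.append_nil]
  refine RunsLE.lift (fun a b hab => by simpa using hab) h _ _ (fun a => rfl) (fun a => rfl) ?_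
  intro c
  refine Fin.cases (fun _ => rfl) (fun c' => ?_) c
  refine Fin.cases (fun _ => rfl) (fun c'' => ?_) c'
  intro hc
  exact absurd rfl (hc c'')

/-- A fragment acting on some auxiliary tapes (placed at `ι`). -/
noncomputable def onAuxAt (ι : Fin k → Fin K) (G : Frag Sym k) : Frag Sym (K + 2) :=
  lift (fun a => (ι a).succ.succ) G

theorem Stream.onAuxAt {ι : Fin k → Fin K} (hι : Function.Injective ι) {G : Frag Sym k}
    {aux aux' : Fin k → Tape Sym} {τ : ℕ} (h : RunsLE G aux τ aux') (AUX AUX' : Fin K → Tape Sym)
    (h0 : ∀ a, AUX (ι a) = aux a) (h1 : ∀ a, AUX' (ι a) = aux' a)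
    (h2 : ∀ b, (∀ a, ι a ≠ b) → AUX' b = AUX b) : Stream (Frag.onAuxAt ι G) [] [] AUX AUX' τ := by
  intro L R O
  simp only [List.nil_append, List.append_nil]
  refine RunsLE.lift (fun a b hab => hι (by simpa using hab)) h _ _ h0 h1 ?_
  intro c
  refine Fin.cases (fun _ => rfl) (fun c' => ?_) c
  refine Fin.cases (fun _ => rfl) (fun c'' => ?_) c'
  intro hc
  exact h2 c'' fun a ha => hc a (by simp [ha])

/-- Repeat a stream transformer: the auxiliary tapes `0, 1` are the counter and its shadow. -/
noncomputable def repS (body : Frag Sym (k + 2)) : Frag Sym (k + 2 + 2) :=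
  lift (vecCons 2 (vecCons 3 (vecCons 0 (vecCons 1 fun a => a.succ.succ.succ.succ)))) (rep body)

theorem repS_index_injective : Function.Injective
    (vecCons 2 (vecCons 3 (vecCons 0 (vecCons 1 fun a => a.succ.succ.succ.succ))) :
      Fin (k + 2 + 2) → Fin (k + 2 + 2)) := by
  apply Function.Involutive.injective
  intro z
  refine Fin.cases rfl (fun z => ?_) z
  refine Fin.cases rfl (fun z => ?_) z
  refine Fin.cases rfl (fun z => ?_) z
  refine Fin.cases rfl (fun z => ?_) z
  rfl

theorem Stream.rep_sum {body : Frag Sym (k + 2)} (v : ℕ) (c d : ℕ → List Sym)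
    (aux : ℕ → Fin k → Tape Sym) (τ : ℕ → ℕ)
    (h : ∀ j, j < v → Stream body (c j) (d j) (aux j) (aux (j + 1)) (τ j)) :
    Stream (repS body) (cat v c) (cat v d) (vecCons (cnt v) (vecCons (cnt 0) (aux 0)))
      (vecCons (cnt v) (vecCons (cnt 0) (aux v))) ((∑ j ∈ Finset.range v, τ j) + v * 4 + 2) := by
  intro L R O
  have key := runsLE_rep_sum (body := body)
    (fun j => vecCons (zt (L ++ cat j c) (cat (v - j) (fun i => c (j + i)) ++ R))
      (vecCons (zt (O ++ cat j d) []) (aux j))) v τ ?_
  · refine RunsLE.lift repS_index_injective key _ _ ?_ ?_ ?_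
    · intro a
      refine Fin.cases rfl (fun a => ?_) a
      refine Fin.cases rfl (fun a => ?_) a
      refine Fin.cases ?_ (fun a => ?_) a
      · simp
      refine Fin.cases ?_ (fun a => ?_) a
      · simp
      rfl
    · intro a
      refine Fin.cases rfl (fun a => ?_) a
      refine Fin.cases rfl (fun a => ?_) a
      refine Fin.cases ?_ (fun a => ?_) a
      · simp
      refine Fin.cases ?_ (fun a => ?_) a
      · simp
      rfl
    · intro b
      refine Fin.cases (fun hb => absurd rfl (hb 2)) (fun b => ?_) b
      refine Fin.cases (fun hb => absurd rfl (hb 3)) (fun b => ?_) b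
      refine Fin.cases (fun hb => absurd rfl (hb 0)) (fun b => ?_) b
      refine Fin.cases (fun hb => absurd rfl (hb 1)) (fun b => ?_) b
      intro hb
      exact absurd rfl (hb b.succ.succ.succ.succ)
  · intro j hj
    have h1 := h j hj (L ++ cat j c) (cat (v - (j + 1)) (fun i => c (j + 1 + i)) ++ R) (O ++ cat j d)
    have e : cat (v - j) (fun i => c (j + i)) = c j ++ cat (v - (j + 1)) (fun i => c (j + 1 + i)) := by
      obtain ⟨u, hu⟩ : ∃ u, v - j = u + 1 := ⟨v - j - 1, by omega⟩
      have hu' : v - (j + 1) = u := by omega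
      rw [hu, hu', cat_succ']
      simp only [Nat.add_zero]
      congr 1
      apply cat_congr
      intro i _
      congr 1
      omega
    rw [e, cat_succ, cat_succ, List.append_assoc (c j), ← List.append_assoc L, ← List.append_assoc O]
    exact h1

theorem Stream.rep {body : Frag Sym (k + 2)} (v : ℕ) (c d : ℕ → List Sym)
    (aux : ℕ → Fin k → Tape Sym) (τ : ℕ)
    (h : ∀ j, j < v → Stream body (c j) (d j) (aux j) (aux (j + 1)) τ) :
    Stream (repS body) (cat v c) (cat v d) (vecCons (cnt v) (vecCons (cnt 0) (aux 0)))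
      (vecCons (cnt v) (vecCons (cnt 0) (aux v))) (v * (τ + 4) + 2) := by
  refine (Stream.rep_sum v c d aux (fun _ => τ) h).mono ?_
  simp only [Finset.sum_const, Finset.card_range, smul_eq_mul]
  ring_nf
  omega

/-! ### Basic stream transformers -/

/-- Skip one input symbol. -/
def skip1 : Frag Sym 2 := prim fun s => ![(s 0, Dir.right), (s 1, Dir.stay)]

/-- Output one symbol. -/
def out1 (x : Sym) : Frag Sym 2 := prim fun s => ![(s 0, Dir.stay), (x, Dir.right)]

theorem stream_copy1 (x : Sym) : Stream copy1 [x] [x] ![] ![] 1 := by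
  intro L R O
  exact RunsLE.prim _ _ _ (by simp)

theorem stream_skip1 (x : Sym) : Stream skip1 [x] [] ![] ![] 1 := by
  intro L R O
  exact RunsLE.prim _ _ _ (by simp)

theorem stream_out1 (x : Sym) : Stream (out1 x) [] [x] ![] ![] 1 := by
  intro L R O
  refine RunsLE.prim _ _ _ ?_
  simp only [List.nil_append, reads_cons, cons_val_zero, acts_cons, Tape.step_read_stay,
    zt_right_nil, List.append_nil]
  simp

theorem cat_singletons (A : List Sym) : cat A.length (fun j => [A[j]?.getD Sym.blank]) = A := by
  induction A using List.reverseRecOn with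
  | nil => simp
  | append_singleton A x ih =>
    rw [List.length_append, List.length_singleton, cat_succ]
    congr 1
    · refine Eq.trans (cat_congr ?_) ih
      intro j hj
      rw [List.getElem?_append_left hj]
    · simp

/-- Copy a block whose length is the value of the counter (aux tapes: counter, shadow). -/
theorem stream_copyN (A : List Sym) :
    Stream (repS copy1) A A ![cnt A.length, cnt 0] ![cnt A.length, cnt 0] (A.length * 5 + 2) := by
  have := Stream.rep (body := copy1) A.length (fun j => [A[j]?.getD Sym.blank])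
    (fun j => [A[j]?.getD Sym.blank]) (fun _ => ![]) 1 (fun j _ => stream_copy1 _)
  rwa [cat_singletons] at this

/-- Skip a block whose length is the value of the counter. -/
theorem stream_skipN (A : List Sym) :
    Stream (repS skip1) A [] ![cnt A.length, cnt 0] ![cnt A.length, cnt 0] (A.length * 5 + 2) := by
  have := Stream.rep (body := skip1) A.length (fun j => [A[j]?.getD Sym.blank])
    (fun _ => []) (fun _ => ![]) 1 (fun j _ => stream_skip1 _)
  rw [cat_singletons] at this
  have e : cat A.length (fun _ => ([] : List Sym)) = [] := by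
    have := cat_replicate A.length 0 Sym.blank
    simpa using this
  rwa [e] at this

/-- Output `v` copies of `x`. -/
theorem stream_outN (x : Sym) (v : ℕ) :
    Stream (repS (out1 x)) [] (List.replicate v x) ![cnt v, cnt 0] ![cnt v, cnt 0] (v * 5 + 2) := by
  have := Stream.rep (body := out1 x) v (fun _ => []) (fun _ => [x]) (fun _ => ![]) 1
    (fun j _ => stream_out1 _)
  have e : cat v (fun _ => ([] : List Sym)) = [] := by
    have := cat_replicate v 0 Sym.blank
    simpa using this
  have e2 : cat v (fun _ => [x]) = List.replicate v x := by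
    have := cat_replicate v 1 x
    simpa using this
  rwa [e, e2] at this

/-! ### A whole pass -/

/-- Symbols allowed in data: neither blank nor the origin mark. -/
def IsData (l : List Sym) : Prop := ∀ x ∈ l, x ≠ Sym.blank ∧ x ≠ Sym.org

theorem IsData.append {l l' : List Sym} (h : IsData l) (h' : IsData l') : IsData (l ++ l') := by
  intro x hx
  rcases List.mem_append.1 hx with hx | hx
  · exact h x hx
  · exact h' x hx

theorem IsData.cat {n : ℕ} {f : ℕ → List Sym} (h : ∀ j, j < n → IsData (f j)) :
    IsData (cat n f) := by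
  intro x hx
  obtain ⟨j, hj, hx⟩ := mem_cat.1 hx
  exact h j hj x hx

theorem isData_replicate (v : ℕ) (x : Sym) (h1 : x ≠ Sym.blank) (h2 : x ≠ Sym.org) :
    IsData (List.replicate v x) := by
  intro y hy
  rw [List.eq_of_mem_replicate hy]
  exact ⟨h1, h2⟩

theorem isData_map_bit (l : List Bool) : IsData (l.map bit) := by
  intro x hx
  obtain ⟨b, _, rfl⟩ := List.mem_map.1 hx
  cases b <;> simp [bit]

/-- Both streams start in rest position; apply `body` until the input is exhausted; rewind. -/
noncomputable def pass (body : Frag Sym (k + 2)) : Frag Sym (k + 2) :=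
  seq (prim fun s => vecCons (s 0, Dir.right) (vecCons (s 1, Dir.right) (idle2 s)))
    (seq (loop (fun s => s 0 != Sym.blank) body)
      (seq (lift ![0] rewind) (lift ![1] rewind)))

theorem runsLE_pass {body : Frag Sym (k + 2)} (n : ℕ) (c d : ℕ → List Sym)
    (aux : ℕ → Fin k → Tape Sym) (τ : ℕ → ℕ)
    (hc : ∀ j, j < n → c j ≠ [] ∧ IsData (c j) ∧ IsData (d j))
    (h : ∀ j, j < n → Stream body (c j) (d j) (aux j) (aux (j + 1)) (τ j)) :
    RunsLE (pass body) (vecCons (zt [] (Sym.org :: cat n c)) (vecCons (zt [] [Sym.org]) (aux 0)))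
      ((∑ j ∈ Finset.range n, τ j) + n + 2 * (cat n c).length + 2 * (cat n d).length + 8)
      (vecCons (zt [] (Sym.org :: cat n c)) (vecCons (zt [] (Sym.org :: cat n d)) (aux n))) := by
  have hdc : IsData (cat n c) := IsData.cat fun j hj => (hc j hj).2.1
  have hdd : IsData (cat n d) := IsData.cat fun j hj => (hc j hj).2.2
  -- entering
  have s1 : RunsLE (prim fun s : Fin (k + 2) → Sym =>
      vecCons (s 0, Dir.right) (vecCons (s 1, Dir.right) (idle2 s)))
      (vecCons (zt [] (Sym.org :: cat n c)) (vecCons (zt [] [Sym.org]) (aux 0))) 1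
      (vecCons (zt [Sym.org] (cat n c)) (vecCons (zt [Sym.org] []) (aux 0))) := by
    refine RunsLE.prim _ _ _ ?_
    simp only [reads_cons, cons_val_zero, cons_val_one, acts_cons, acts_idle2, zt_read_cons,
      zt_right_cons, List.nil_append]
  -- main loop
  have s2 := RunsLE.loop_sum (c := fun s : Fin (k + 2) → Sym => s 0 != Sym.blank) (F := body)
    (fun j => vecCons (zt (Sym.org :: cat j c) (cat (n - j) (fun i => c (j + i))))
      (vecCons (zt (Sym.org :: cat j d) []) (aux j))) n τ ?_ ?_
  · -- rewinding
    have s3 : RunsLE (lift ![0] rewind : Frag Sym (k + 2))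
        (vecCons (zt (Sym.org :: cat n c) []) (vecCons (zt (Sym.org :: cat n d) []) (aux n)))
        (2 * (cat n c).length + 3)
        (vecCons (zt [] (Sym.org :: cat n c)) (vecCons (zt (Sym.org :: cat n d) []) (aux n))) := by
      have := runsLE_rewind (cat n c) [] (fun hh => (hdc _ hh).2 rfl) (by simp)
      rw [List.append_nil] at this
      refine RunsLE.lift (fun a b _ => Subsingleton.elim a b) this _ _ ?_ ?_ ?_
      · intro a; fin_cases a; rfl
      · intro a; fin_cases a; rfl
      · intro b
        refine Fin.cases (fun hb => absurd rfl (hb 0)) (fun b' _ => rfl) b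
    have s4 : RunsLE (lift ![1] rewind : Frag Sym (k + 2))
        (vecCons (zt [] (Sym.org :: cat n c)) (vecCons (zt (Sym.org :: cat n d) []) (aux n)))
        (2 * (cat n d).length + 3)
        (vecCons (zt [] (Sym.org :: cat n c)) (vecCons (zt [] (Sym.org :: cat n d)) (aux n))) := by
      have := runsLE_rewind (cat n d) [] (fun hh => (hdd _ hh).2 rfl) (by simp)
      rw [List.append_nil] at this
      refine RunsLE.lift (fun a b _ => Subsingleton.elim a b) this _ _ ?_ ?_ ?_
      · intro a; fin_cases a; rfl
      · intro a; fin_cases a; rfl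
      · intro b
        refine Fin.cases (fun _ => rfl) (fun b' => ?_) b
        refine Fin.cases (fun hb => absurd rfl (hb 0)) (fun b'' _ => rfl) b'
    simp only [cat_zero, Nat.sub_zero, Nat.zero_add, Nat.sub_self] at s2
    refine RunsLE.mono (s1.seq (s2.seq (s3.seq s4))) ?_
    simp only [Finset.sum_add_distrib, Finset.sum_const, Finset.card_range, smul_eq_mul]
    omega
  · intro j hj
    have e : cat (n - j) (fun i => c (j + i)) = c j ++ cat (n - (j + 1)) (fun i => c (j + 1 + i)) := by
      obtain ⟨u, hu⟩ : ∃ u, n - j = u + 1 := ⟨n - j - 1, by omega⟩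
      have hu' : n - (j + 1) = u := by omega
      rw [hu, hu', cat_succ']
      simp only [Nat.add_zero]
      congr 1
      apply cat_congr
      intro i _
      congr 1
      omega
    constructor
    · rw [e]
      obtain ⟨hne, hd, _⟩ := hc j hj
      obtain ⟨x, t, hx⟩ := List.exists_cons_of_ne_nil hne
      have hxb : x ≠ Sym.blank := (hd x (by simp [hx])).1
      simp [hx, hxb]
    · have h1 := h j hj (Sym.org :: cat j c) (cat (n - (j + 1)) (fun i => c (j + 1 + i)))
        (Sym.org :: cat j d)
      rw [e, cat_succ, cat_succ]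
      exact h1
  · simp

end Frag
end Vale.Agent.P338
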