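import Vale.Agent.P338.TM.ListLib

/-!
TASK T14, part 0.  Lengths of the intermediate lists of `colOp`.
-/

namespace Vale.Agent.P338
namespace SwapLen

variable {α : Type}

theorem len_padSlots (z : α) (w s R : ℕ) (hw : 0 < w) (hs : w + 4 ≤ s) (l : List α)
    (hl : l.length = R * w) : (padSlots z w s l).length = R * s := by
  rw [padSlots, length_mapChunks R w s hw _ l hl]
  intro j c _ hc
  simp only [List.length_append, List.length_replicate, hc]
  omega

theorem len_shiftSlots (z : α) (n g s R : ℕ) (ε : ℕ → ℕ → ℕ) (hs : 0 < s)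
    (hε : ∀ r q, g * ε r q ≤ s) (l : List α) (hl : l.length = R * s) :
    (shiftSlots z n g s ε l).length = R * s := by
  rw [shiftSlots, length_mapChunks R s s hs _ l hl]
  intro j c _ hc
  have := hε ((j / n) % n) (j % n)
  simp only [List.length_append, List.length_replicate, List.length_take, hc]
  omega

theorem len_padRows (z : α) (n s K : ℕ) (h : 0 < n * n * s) (l : List α)
    (hl : l.length = K * (n * n * s)) : (padRows z n s l).length = K * (3 * n * n * s) := by
  rw [padRows, length_mapChunks K (n * n * s) (3 * n * n * s) h _ l hl]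
  intro j c _ hc
  simp only [List.length_append, List.length_replicate, hc]
  ring

theorem len_selRows (n s K : ℕ) (h : 0 < n * n * s) (l : List α)
    (hl : l.length = K * (3 * n * n * s)) : (selRows n s l).length = K * (n * n * s) := by
  have h3 : 0 < 3 * n * n * s := by
    have : 3 * n * n * s = 3 * (n * n * s) := by ring
    omega
  rw [selRows, length_mapChunks K (3 * n * n * s) (n * n * s) h3 _ l hl]
  intro j c _ hc
  simp only [List.length_take, List.length_drop, hc]
  have e1 : 3 * n * n * s = 3 * (n * n * s) := by ring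
  have e2 : (n - 1) * n * s ≤ n * n * s :=
    Nat.mul_le_mul_right s (Nat.mul_le_mul_right n (Nat.sub_le n 1))
  omega

theorem len_multL (X Y : List Bool) : (multL X Y).length = X.length := by
  simp [multL]

theorem len_reduceSlots (a w m R : ℕ) (hm : 0 < m) (h : a + w ≤ m) (l : List Bool)
    (hl : l.length = R * (12 * m)) : (reduceSlots a w m l).length = R * w := by
  rw [reduceSlots, length_mapChunks R (12 * m) w (by omega) _ l hl]
  intro j c _ _
  simp only [List.length_take, List.length_drop, length_bitsLE]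
  omega

theorem len_kernelL (z o : α) (n g s total : ℕ) (hn : 0 < n) (hg : ∀ r, g * epsK n r + 1 ≤ s)
    (ht : (2 * n - 1) * n * s ≤ total) : (kernelL z o n g s total).length = total := by
  rw [kernelL, List.length_append, List.length_replicate,
    length_cat (2 * n - 1) (n * s)]
  · have : (2 * n - 1) * (n * s) = (2 * n - 1) * n * s := by ring
    omega
  · intro j _
    have := hg j
    simp only [List.length_append, List.length_replicate, List.length_singleton]
    obtain ⟨k, rfl⟩ : ∃ k, n = k + 1 := ⟨n - 1, by omega⟩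
    have e : (k + 1) * s = k * s + s := by ring
    simp only [Nat.add_sub_cancel]
    omega

/-! ### The concrete parameters -/

theorem g_mul_n (a ρ : ℕ) (h : a ≤ ρ) : 4 * 2 ^ ρ / 2 ^ a * 2 ^ a = 4 * 2 ^ ρ := by
  apply Nat.div_mul_cancel
  exact Dvd.dvd.mul_left (pow_dvd_pow 2 h) 4

theorem g_eq (a ρ : ℕ) (h : a ≤ ρ) : 4 * 2 ^ ρ / 2 ^ a = 2 ^ (ρ + 2 - a) := by
  obtain ⟨d, rfl⟩ := Nat.exists_eq_add_of_le h
  have e : 4 * 2 ^ (a + d) = 2 ^ (d + 2) * 2 ^ a := by ring
  rw [e, Nat.mul_div_cancel _ (Nat.two_pow_pos a)]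
  congr 1
  omega

theorem g_pos (a ρ : ℕ) (h : a ≤ ρ) : 0 < 4 * 2 ^ ρ / 2 ^ a := by
  rw [g_eq a ρ h]
  exact Nat.two_pow_pos _

/-- `g * ε ≤ 2 m` when `ε < 2 n`. -/
theorem g_mul_le (a ρ e : ℕ) (h : a ≤ ρ) (he : e < 2 * 2 ^ a) :
    4 * 2 ^ ρ / 2 ^ a * e + 1 ≤ 12 * (4 * 2 ^ ρ) := by
  have h1 : 4 * 2 ^ ρ / 2 ^ a * e ≤ 4 * 2 ^ ρ / 2 ^ a * (2 * 2 ^ a) :=
    Nat.mul_le_mul_left _ he.le
  have h2 : 4 * 2 ^ ρ / 2 ^ a * (2 * 2 ^ a) = 2 * (4 * 2 ^ ρ) := by
    have := g_mul_n a ρ h
    calc 4 * 2 ^ ρ / 2 ^ a * (2 * 2 ^ a) = 2 * (4 * 2 ^ ρ / 2 ^ a * 2 ^ a) := by ring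
      _ = 2 * (4 * 2 ^ ρ) := by rw [this]
  have h3 : 0 < 2 ^ ρ := Nat.two_pow_pos ρ
  omega

theorem epsCH_lt (n r q : ℕ) (hn : 0 < n) : epsCH n r q < 2 * n := Nat.mod_lt _ (by omega)
theorem epsB_lt (n r q : ℕ) (hn : 0 < n) : epsB n r q < 2 * n := Nat.mod_lt _ (by omega)
theorem epsK_lt (n r : ℕ) (hn : 0 < n) : epsK n r < 2 * n := Nat.mod_lt _ (by omega)

end SwapLen
end Vale.Agent.P338
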