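import Vale.Agent.P338.TM.SwapSpec
import Vale.Agent.P338.TM.SwapLen
import Vale.Agent.P338.TM.MathCol

/-!
TASK T14, part 1.  The swap program over abstract operations (`SwapOps`): every operation is a fragment
of the big machine with a specification on own states of the form `bst`.
-/

namespace Vale.Agent.P338
open Frag Matrix

/-- Own state with Boolean data on the data tapes; `on` tells whether the derived parameters are
set. -/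
def bst (σ : OS) (on : Bool) (D E1 E2 E3 : List Bool) (f : ℕ) : OS :=
  { σ with
    D := D.map bit, E1 := E1.map bit, E2 := E2.map bit, E3 := E3.map bit, flag := f,
    n := if on then 2 ^ σ.a else 0,
    w := if on then 2 ^ σ.ρ else 0,
    g := if on then 4 * 2 ^ σ.ρ / 2 ^ σ.a else 0,
    m := if on then 4 * 2 ^ σ.ρ else 0,
    s := if on then 12 * (4 * 2 ^ σ.ρ) else 0,
    z := if on then 12 * (4 * 2 ^ σ.ρ) - 2 ^ σ.ρ - 4 else 0 }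

/-- The operations used by the swap program. -/
structure SwapOps (W : World) where
  C : ℕ
  setup : Frag W.Γ W.K
  teardown : Frag W.Γ W.K
  rotF : Frag W.Γ W.K
  rotT : Frag W.Γ W.K
  pad : Frag W.Γ W.K
  shiftCH : Frag W.Γ W.K
  shiftB : Frag W.Γ W.K
  padRows : Frag W.Γ W.K
  kernel : Frag W.Γ W.K
  selRows : Frag W.Γ W.K
  reduce : Frag W.Γ W.K
  er1 : Frag W.Γ W.K
  er2 : Frag W.Γ W.K
  er3 : Frag W.Γ W.K
  zflag : Frag W.Γ W.K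
  moveD : Frag W.Γ W.K
  classic : Frag W.Γ W.K
  setup_spec : ∀ (σ : OS) (D E1 E2 E3 : List Bool) (f N : ℕ), σ.a ≤ σ.ρ → 2 ^ σ.ρ ≤ N →
    W.Does setup (bst σ false D E1 E2 E3 f) (C * N) (bst σ true D E1 E2 E3 f)
  teardown_spec : ∀ (σ : OS) (D E1 E2 E3 : List Bool) (f N : ℕ), σ.a ≤ σ.ρ → 2 ^ σ.ρ ≤ N →
    W.Does teardown (bst σ true D E1 E2 E3 f) (C * N) (bst σ false D E1 E2 E3 f)
  rotF_spec : ∀ (σ : OS) (D E2 E3 : List Bool) (f K N : ℕ),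
    D.length = K * (2 ^ σ.a * 2 ^ σ.a * 2 ^ σ.ρ) → 1 ≤ K → D.length ≤ N →
    W.Does rotF (bst σ true D [] E2 E3 f) (C * N)
      (bst σ true D (rowRot false (2 ^ σ.a) (2 ^ σ.ρ) D) E2 E3 f)
  rotT_spec : ∀ (σ : OS) (D E2 E3 : List Bool) (f K N : ℕ),
    E2.length = K * (2 ^ σ.a * 2 ^ σ.a * 2 ^ σ.ρ) → 1 ≤ K → E2.length ≤ N →
    W.Does rotT (bst σ true D [] E2 E3 f) (C * N)
      (bst σ true D (rowRot true (2 ^ σ.a) (2 ^ σ.ρ) E2) E2 E3 f)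
  pad_spec : ∀ (σ : OS) (D E1 E3 : List Bool) (f R N : ℕ),
    E1.length = R * 2 ^ σ.ρ → 1 ≤ R → R * (12 * (4 * 2 ^ σ.ρ)) ≤ N →
    W.Does pad (bst σ true D E1 [] E3 f) (C * N)
      (bst σ true D E1 (padSlots false (2 ^ σ.ρ) (12 * (4 * 2 ^ σ.ρ)) E1) E3 f)
  shiftCH_spec : ∀ (σ : OS) (D E2 E3 : List Bool) (f K N : ℕ), 1 ≤ σ.a → σ.a ≤ σ.ρ →
    E2.length = K * (2 ^ σ.a * 2 ^ σ.a * (12 * (4 * 2 ^ σ.ρ))) → 1 ≤ K → E2.length ≤ N →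
    W.Does shiftCH (bst σ true D [] E2 E3 f) (C * N)
      (bst σ true D (shiftSlots false (2 ^ σ.a) (4 * 2 ^ σ.ρ / 2 ^ σ.a) (12 * (4 * 2 ^ σ.ρ))
        (epsCH (2 ^ σ.a)) E2) E2 E3 f)
  shiftB_spec : ∀ (σ : OS) (D E2 E3 : List Bool) (f K N : ℕ), 1 ≤ σ.a → σ.a ≤ σ.ρ →
    E2.length = K * (2 ^ σ.a * 2 ^ σ.a * (12 * (4 * 2 ^ σ.ρ))) → 1 ≤ K → E2.length ≤ N →
    W.Does shiftB (bst σ true D [] E2 E3 f) (C * N)
      (bst σ true D (shiftSlots false (2 ^ σ.a) (4 * 2 ^ σ.ρ / 2 ^ σ.a) (12 * (4 * 2 ^ σ.ρ))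
        (epsB (2 ^ σ.a)) E2) E2 E3 f)
  padRows_spec : ∀ (σ : OS) (D E1 E3 : List Bool) (f K N : ℕ),
    E1.length = K * (2 ^ σ.a * 2 ^ σ.a * (12 * (4 * 2 ^ σ.ρ))) → 1 ≤ K → 3 * E1.length ≤ N →
    W.Does padRows (bst σ true D E1 [] E3 f) (C * N)
      (bst σ true D E1 (Vale.Agent.P338.padRows false (2 ^ σ.a) (12 * (4 * 2 ^ σ.ρ)) E1) E3 f)
  kernel_spec : ∀ (σ : OS) (D E1 E2 : List Bool) (f K N : ℕ), 1 ≤ σ.a → σ.a ≤ σ.ρ →
    E2.length = K * (3 * 2 ^ σ.a * 2 ^ σ.a * (12 * (4 * 2 ^ σ.ρ))) → 1 ≤ K → E2.length ≤ N →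
    W.Does kernel (bst σ true D E1 E2 [] f) (C * N)
      (bst σ true D E1 E2 (kernelL false true (2 ^ σ.a) (4 * 2 ^ σ.ρ / 2 ^ σ.a)
        (12 * (4 * 2 ^ σ.ρ)) E2.length) f)
  selRows_spec : ∀ (σ : OS) (D E1 E3 : List Bool) (f K N : ℕ),
    E1.length = K * (3 * 2 ^ σ.a * 2 ^ σ.a * (12 * (4 * 2 ^ σ.ρ))) → 1 ≤ K → E1.length ≤ N →
    W.Does selRows (bst σ true D E1 [] E3 f) (C * N)
      (bst σ true D E1 (Vale.Agent.P338.selRows (2 ^ σ.a) (12 * (4 * 2 ^ σ.ρ)) E1) E3 f)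
  reduce_spec : ∀ (σ : OS) (D E1 E3 : List Bool) (f R N : ℕ), σ.a ≤ σ.ρ →
    E1.length = R * (12 * (4 * 2 ^ σ.ρ)) → 1 ≤ R → E1.length ≤ N →
    W.Does reduce (bst σ true D E1 [] E3 f) (C * N)
      (bst σ true D E1 (reduceSlots σ.a (2 ^ σ.ρ) (4 * 2 ^ σ.ρ) E1) E3 f)
  er1_spec : ∀ (σ : OS) (on : Bool) (D E1 E2 E3 : List Bool) (f N : ℕ), E1.length ≤ N → 1 ≤ N →
    W.Does er1 (bst σ on D E1 E2 E3 f) (C * N) (bst σ on D [] E2 E3 f)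
  er2_spec : ∀ (σ : OS) (on : Bool) (D E1 E2 E3 : List Bool) (f N : ℕ), E2.length ≤ N → 1 ≤ N →
    W.Does er2 (bst σ on D E1 E2 E3 f) (C * N) (bst σ on D E1 [] E3 f)
  er3_spec : ∀ (σ : OS) (on : Bool) (D E1 E2 E3 : List Bool) (f N : ℕ), E3.length ≤ N → 1 ≤ N →
    W.Does er3 (bst σ on D E1 E2 E3 f) (C * N) (bst σ on D E1 E2 [] f)
  zflag_spec : ∀ (σ : OS) (on : Bool) (D E1 E2 E3 : List Bool) (N : ℕ), 1 ≤ N →
    W.Does zflag (bst σ on D E1 E2 E3 1) (C * N) (bst σ on D E1 E2 E3 0)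
  moveD_spec : ∀ (σ : OS) (on : Bool) (D E1 E2 E3 : List Bool) (f N : ℕ), D.length ≤ N →
    E1.length ≤ N → 1 ≤ N →
    W.Does moveD (bst σ on D E1 E2 E3 f) (C * N) (bst σ on E1 [] E2 E3 f)
  classic_spec : ∀ (σ : OS) (D : List Bool) (K N : ℕ), 1 ≤ σ.a →
    D.length = K * (2 ^ σ.a * 2 ^ σ.a * 2 ^ σ.ρ) → 1 ≤ K → D.length ≤ N →
    W.Does classic (bst σ false D [] [] [] 0) (C * (σ.a * N + N))
      (bst σ false (swapL (2 ^ σ.a) (2 ^ σ.ρ) D) [] [] [] 0)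

namespace SwapOps
variable {W : World} (ops : SwapOps W) (MUL : Frag W.Γ W.K)

/-- Is the flag set? -/
def flagSet (s : Fin nOwn → Sym) : Bool := s 15 != Sym.org

/-- Fallback. -/
def failPart : Frag W.Γ W.K :=
  seq ops.er1 (seq ops.er2 (seq ops.er3 (seq ops.teardown ops.classic)))

/-- After the second multiplication. -/
def part3 : Frag W.Γ W.K :=
  seq ops.zflag (seq ops.er2 (seq ops.er3 (seq ops.selRows (seq ops.er1 (seq ops.shiftCH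
    (seq ops.er2 (seq ops.reduce (seq ops.er1 (seq ops.rotT (seq ops.er2
      (seq ops.moveD ops.teardown)))))))))))

/-- After the first multiplication. -/
def part2 : Frag W.Γ W.K :=
  seq ops.zflag (seq ops.er2 (seq ops.selRows (seq ops.er1 (seq ops.shiftB (seq ops.er2
    (seq ops.padRows (seq ops.er1 (seq MUL
      (ite (W.cond flagSet) ops.part3 ops.failPart)))))))))

/-- The swap program. -/
def prog : Frag W.Γ W.K :=
  seq ops.setup (seq ops.rotF (seq ops.pad (seq ops.er1 (seq ops.shiftCH (seq ops.er2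
    (seq ops.padRows (seq ops.er1 (seq ops.kernel (seq MUL
      (ite (W.cond flagSet) (ops.part2 MUL) ops.failPart))))))))))

end SwapOps

theorem flagSet_bst (σ : OS) (on : Bool) (D E1 E2 E3 : List Bool) (f : ℕ) :
    SwapOps.flagSet (reads (bst σ on D E1 E2 E3 f).vec) = decide (f ≠ 0) := by
  have : reads (bst σ on D E1 E2 E3 f).vec 15 = (cnt f).read := rfl
  rw [SwapOps.flagSet, this, cnt_read]
  by_cases h : f = 0 <;> simp [h]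

theorem bst_of_clean (σ : OS) (l : List Bool) (hD : σ.D = l.map bit) (hc : σ.Clean) :
    bst σ false l [] [] [] 0 = σ := by
  obtain ⟨h1, h2, h3, h4, h5, h6, h7, h8, h9, h10, -, -⟩ := hc
  cases σ
  simp only at hD h1 h2 h3 h4 h5 h6 h7 h8 h9 h10
  subst hD h1 h2 h3 h4 h5 h6 h7 h8 h9 h10
  rfl

theorem bst_of_clean' (σ : OS) (l : List Bool) (hc : σ.Clean) :
    bst σ false l [] [] [] 0 = { σ with D := l.map bit } := by
  obtain ⟨h1, h2, h3, h4, h5, h6, h7, h8, h9, h10, -, -⟩ := hc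
  cases σ
  simp only at h1 h2 h3 h4 h5 h6 h7 h8 h9 h10
  subst h1 h2 h3 h4 h5 h6 h7 h8 h9 h10
  rfl

theorem swapSpec_core {W : World} (ops : SwapOps W) (MUL : Frag W.Γ W.K) (TA : ℕ → ℕ) (Cm : ℕ)
    (hM : MulSpec W MUL TA Cm) : SwapSpec W (ops.prog MUL) TA (31 * ops.C + 2 * Cm + 2) := by
  intro σ l K hD hl hK ha haρ hclean
  rw [← bst_of_clean' σ _ hclean]
  obtain ⟨N, hN⟩ : ∃ N, N = 144 * l.length := ⟨_, rfl⟩
  rw [← hN]
  obtain ⟨M, hMdef⟩ : ∃ M, M = min (TA N) (σ.a * N) := ⟨_, rfl⟩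
  rw [← hMdef]
  suffices key : W.Does (ops.prog MUL) (bst σ false l [] [] [] 0)
      ((31 * ops.C + 2 * Cm + 2) * (M + N))
      (bst σ false (swapL (2 ^ σ.a) (2 ^ σ.ρ) l) [] [] [] 0) by
    rwa [bst_of_clean σ l hD hclean] at key
  -- arithmetic facts
  have hn : 0 < 2 ^ σ.a := Nat.two_pow_pos _
  have hw : 0 < 2 ^ σ.ρ := Nat.two_pow_pos _
  have hnnw : 0 < 2 ^ σ.a * 2 ^ σ.a * 2 ^ σ.ρ := by positivity
  have hnns : 0 < 2 ^ σ.a * 2 ^ σ.a * (12 * (4 * 2 ^ σ.ρ)) := by positivity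
  have hlpos : 2 ^ σ.ρ ≤ l.length := by
    rw [hl]
    calc 2 ^ σ.ρ ≤ 2 ^ σ.a * 2 ^ σ.a * 2 ^ σ.ρ := Nat.le_mul_of_pos_left _ (by positivity)
      _ ≤ K * (2 ^ σ.a * 2 ^ σ.a * 2 ^ σ.ρ) := Nat.le_mul_of_pos_left _ hK
  have hwN : 2 ^ σ.ρ ≤ N := by omega
  have hN1 : 1 ≤ N := by omega
  have hlN : l.length ≤ N := by omega
  have eS : K * (2 ^ σ.a * 2 ^ σ.a * (12 * (4 * 2 ^ σ.ρ))) = 48 * l.length := by rw [hl]; ring
  have eT : K * (3 * 2 ^ σ.a * 2 ^ σ.a * (12 * (4 * 2 ^ σ.ρ))) = N := by rw [hN, hl]; ring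
  have hgCH : ∀ r q, 4 * 2 ^ σ.ρ / 2 ^ σ.a * epsCH (2 ^ σ.a) r q ≤ 12 * (4 * 2 ^ σ.ρ) := fun r q =>
    (Nat.le_succ _).trans (SwapLen.g_mul_le σ.a σ.ρ _ haρ (SwapLen.epsCH_lt _ r q hn))
  have hgB : ∀ r q, 4 * 2 ^ σ.ρ / 2 ^ σ.a * epsB (2 ^ σ.a) r q ≤ 12 * (4 * 2 ^ σ.ρ) := fun r q =>
    (Nat.le_succ _).trans (SwapLen.g_mul_le σ.a σ.ρ _ haρ (SwapLen.epsB_lt _ r q hn))
  have hs : 0 < 12 * (4 * 2 ^ σ.ρ) := by positivity
  have eR : ∀ x : ℕ, K * (2 ^ σ.a * 2 ^ σ.a * x) = K * (2 ^ σ.a * 2 ^ σ.a) * x := by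
    intro x; ring
  have hR1 : 1 ≤ K * (2 ^ σ.a * 2 ^ σ.a) := Nat.mul_pos hK (by positivity)
  -- the intermediate lists
  obtain ⟨l1, hl1⟩ : ∃ x, x = rowRot false (2 ^ σ.a) (2 ^ σ.ρ) l := ⟨_, rfl⟩
  have L1 : l1.length = K * (2 ^ σ.a * 2 ^ σ.a * 2 ^ σ.ρ) := by
    rw [hl1]; exact length_rowRot _ _ _ K l hl
  obtain ⟨l2, hl2⟩ : ∃ x, x = padSlots false (2 ^ σ.ρ) (12 * (4 * 2 ^ σ.ρ)) l1 := ⟨_, rfl⟩
  have L2 : l2.length = K * (2 ^ σ.a * 2 ^ σ.a * (12 * (4 * 2 ^ σ.ρ))) := by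
    rw [hl2, SwapLen.len_padSlots false _ _ (K * (2 ^ σ.a * 2 ^ σ.a)) hw (by omega) l1
      (by rw [L1, eR]), eR]
  obtain ⟨l3, hl3⟩ : ∃ x, x = shiftSlots false (2 ^ σ.a) (4 * 2 ^ σ.ρ / 2 ^ σ.a)
    (12 * (4 * 2 ^ σ.ρ)) (epsCH (2 ^ σ.a)) l2 := ⟨_, rfl⟩
  have L3 : l3.length = K * (2 ^ σ.a * 2 ^ σ.a * (12 * (4 * 2 ^ σ.ρ))) := by
    rw [hl3, SwapLen.len_shiftSlots false _ _ _ (K * (2 ^ σ.a * 2 ^ σ.a)) _ hs hgCH l2
      (by rw [L2, eR]), eR]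
  obtain ⟨X1, hX1⟩ : ∃ x, x = padRows false (2 ^ σ.a) (12 * (4 * 2 ^ σ.ρ)) l3 := ⟨_, rfl⟩
  have LX1 : X1.length = K * (3 * 2 ^ σ.a * 2 ^ σ.a * (12 * (4 * 2 ^ σ.ρ))) := by
    rw [hX1]; exact SwapLen.len_padRows false _ _ K hnns l3 L3
  obtain ⟨Y, hY⟩ : ∃ x, x = kernelL false true (2 ^ σ.a) (4 * 2 ^ σ.ρ / 2 ^ σ.a)
    (12 * (4 * 2 ^ σ.ρ)) X1.length := ⟨_, rfl⟩
  have LY : Y.length = N := by
    rw [hY, SwapLen.len_kernelL false true _ _ _ _ hn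
      (fun r => SwapLen.g_mul_le σ.a σ.ρ _ haρ (SwapLen.epsK_lt _ r hn)) ?_, LX1, eT]
    rw [LX1]
    calc (2 * 2 ^ σ.a - 1) * 2 ^ σ.a * (12 * (4 * 2 ^ σ.ρ))
        ≤ (3 * 2 ^ σ.a) * 2 ^ σ.a * (12 * (4 * 2 ^ σ.ρ)) :=
          Nat.mul_le_mul_right _ (Nat.mul_le_mul_right _ (by omega))
      _ ≤ K * (3 * 2 ^ σ.a * 2 ^ σ.a * (12 * (4 * 2 ^ σ.ρ))) := Nat.le_mul_of_pos_left _ hK
  obtain ⟨P1, hP1⟩ : ∃ x, x = multL X1 Y := ⟨_, rfl⟩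
  have LP1 : P1.length = K * (3 * 2 ^ σ.a * 2 ^ σ.a * (12 * (4 * 2 ^ σ.ρ))) := by
    rw [hP1, SwapLen.len_multL, LX1]
  obtain ⟨l4, hl4⟩ : ∃ x, x = selRows (2 ^ σ.a) (12 * (4 * 2 ^ σ.ρ)) P1 := ⟨_, rfl⟩
  have L4 : l4.length = K * (2 ^ σ.a * 2 ^ σ.a * (12 * (4 * 2 ^ σ.ρ))) := by
    rw [hl4]; exact SwapLen.len_selRows _ _ K hnns P1 LP1
  obtain ⟨l5, hl5⟩ : ∃ x, x = shiftSlots false (2 ^ σ.a) (4 * 2 ^ σ.ρ / 2 ^ σ.a)
    (12 * (4 * 2 ^ σ.ρ)) (epsB (2 ^ σ.a)) l4 := ⟨_, rfl⟩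
  have L5 : l5.length = K * (2 ^ σ.a * 2 ^ σ.a * (12 * (4 * 2 ^ σ.ρ))) := by
    rw [hl5, SwapLen.len_shiftSlots false _ _ _ (K * (2 ^ σ.a * 2 ^ σ.a)) _ hs hgB l4
      (by rw [L4, eR]), eR]
  obtain ⟨X2, hX2⟩ : ∃ x, x = padRows false (2 ^ σ.a) (12 * (4 * 2 ^ σ.ρ)) l5 := ⟨_, rfl⟩
  have LX2 : X2.length = K * (3 * 2 ^ σ.a * 2 ^ σ.a * (12 * (4 * 2 ^ σ.ρ))) := by
    rw [hX2]; exact SwapLen.len_padRows false _ _ K hnns l5 L5
  obtain ⟨P2, hP2⟩ : ∃ x, x = multL X2 Y := ⟨_, rfl⟩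
  have LP2 : P2.length = K * (3 * 2 ^ σ.a * 2 ^ σ.a * (12 * (4 * 2 ^ σ.ρ))) := by
    rw [hP2, SwapLen.len_multL, LX2]
  obtain ⟨l6, hl6⟩ : ∃ x, x = selRows (2 ^ σ.a) (12 * (4 * 2 ^ σ.ρ)) P2 := ⟨_, rfl⟩
  have L6 : l6.length = K * (2 ^ σ.a * 2 ^ σ.a * (12 * (4 * 2 ^ σ.ρ))) := by
    rw [hl6]; exact SwapLen.len_selRows _ _ K hnns P2 LP2
  obtain ⟨l7, hl7⟩ : ∃ x, x = shiftSlots false (2 ^ σ.a) (4 * 2 ^ σ.ρ / 2 ^ σ.a)
    (12 * (4 * 2 ^ σ.ρ)) (epsCH (2 ^ σ.a)) l6 := ⟨_, rfl⟩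
  have L7 : l7.length = K * (2 ^ σ.a * 2 ^ σ.a * (12 * (4 * 2 ^ σ.ρ))) := by
    rw [hl7, SwapLen.len_shiftSlots false _ _ _ (K * (2 ^ σ.a * 2 ^ σ.a)) _ hs hgCH l6
      (by rw [L6, eR]), eR]
  obtain ⟨l8, hl8⟩ : ∃ x, x = reduceSlots σ.a (2 ^ σ.ρ) (4 * 2 ^ σ.ρ) l7 := ⟨_, rfl⟩
  have haw : σ.a + 2 ^ σ.ρ ≤ 4 * 2 ^ σ.ρ := by
    have : σ.ρ < 2 ^ σ.ρ := Nat.lt_two_pow_self
    omega
  have L8 : l8.length = K * (2 ^ σ.a * 2 ^ σ.a * 2 ^ σ.ρ) := by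
    rw [hl8, SwapLen.len_reduceSlots _ _ _ (K * (2 ^ σ.a * 2 ^ σ.a)) (by positivity) haw l7
      (by rw [L7, eR]), eR]
  obtain ⟨l9, hl9⟩ : ∃ x, x = rowRot true (2 ^ σ.a) (2 ^ σ.ρ) l8 := ⟨_, rfl⟩
  have L9 : l9.length = K * (2 ^ σ.a * 2 ^ σ.a * 2 ^ σ.ρ) := by
    rw [hl9]; exact length_rowRot _ _ _ K l8 L8
  have hfin : l9 = swapL (2 ^ σ.a) (2 ^ σ.ρ) l := by
    rw [← swapA_eq σ.a σ.ρ K ha haρ l hl, hl9, hl8, hl7, hl6, hP2, hX2, hl5, hl4, hP1, hY, hX1, hl3,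
      hl2, hl1]
    rfl
  subst hfin
  -- the fallback
  have F : ∀ X : List Bool, X.length ≤ N → W.Does ops.failPart (bst σ true l [] X Y 0)
      (4 * (ops.C * N) + ops.C * (σ.a * N + N))
      (bst σ false (swapL (2 ^ σ.a) (2 ^ σ.ρ) l) [] [] [] 0) := by
    intro X hX
    have f1 := ops.er1_spec σ true l [] X Y 0 N (by simp) hN1
    have f2 := ops.er2_spec σ true l [] X Y 0 N hX hN1
    have f3 := ops.er3_spec σ true l [] [] Y 0 N LY.le hN1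
    have f4 := ops.teardown_spec σ l [] [] [] 0 N haρ hwN
    have f5 := ops.classic_spec σ l K N ha hl hK hlN
    exact (f1.seq (f2.seq (f3.seq (f4.seq f5)))).mono (by omega)
  -- after the second multiplication
  have P3 : W.Does ops.part3 (bst σ true l P2 X2 Y 1) (13 * (ops.C * N))
      (bst σ false (swapL (2 ^ σ.a) (2 ^ σ.ρ) l) [] [] [] 0) := by
    have u1 := ops.zflag_spec σ true l P2 X2 Y N hN1
    have u2 := ops.er2_spec σ true l P2 X2 Y 0 N (by omega) hN1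
    have u3 := ops.er3_spec σ true l P2 [] Y 0 N LY.le hN1
    have u4 := ops.selRows_spec σ l P2 [] 0 K N LP2 hK (by omega)
    rw [← hl6] at u4
    have u5 := ops.er1_spec σ true l P2 l6 [] 0 N (by omega) hN1
    have u6 := ops.shiftCH_spec σ l l6 [] 0 K N ha haρ L6 hK (by omega)
    rw [← hl7] at u6
    have u7 := ops.er2_spec σ true l l7 l6 [] 0 N (by omega) hN1
    have u8 := ops.reduce_spec σ l l7 [] 0 (K * (2 ^ σ.a * 2 ^ σ.a)) N haρ (by rw [L7, eR]) hR1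
      (by omega)
    rw [← hl8] at u8
    have u9 := ops.er1_spec σ true l l7 l8 [] 0 N (by omega) hN1
    have u10 := ops.rotT_spec σ l l8 [] 0 K N L8 hK (by omega)
    rw [← hl9] at u10
    have u11 := ops.er2_spec σ true l (swapL (2 ^ σ.a) (2 ^ σ.ρ) l) l8 [] 0 N (by omega) hN1
    have u12 := ops.moveD_spec σ true l (swapL (2 ^ σ.a) (2 ^ σ.ρ) l) [] [] 0 N hlN (by omega) hN1
    have u13 := ops.teardown_spec σ (swapL (2 ^ σ.a) (2 ^ σ.ρ) l) [] [] [] 0 N haρ hwN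
    exact (u1.seq (u2.seq (u3.seq (u4.seq (u5.seq (u6.seq (u7.seq (u8.seq (u9.seq (u10.seq
      (u11.seq (u12.seq u13)))))))))))).mono (by omega)
  -- the two multiplications
  have m1 : W.Does MUL (bst σ true l [] X1 Y 0) (Cm * (M + N)) (bst σ true l P1 X1 Y 1) ∨
      (σ.a * N ≤ TA N ∧
        W.Does MUL (bst σ true l [] X1 Y 0) (Cm * (σ.a * N + N)) (bst σ true l [] X1 Y 0)) := by
    have := hM (bst σ true l [] X1 Y 0) X1 Y rfl rfl rfl rfl (by omega) (by omega)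
    rw [LX1, eT, ← hP1] at this
    rw [hMdef]
    exact this
  have m2 : W.Does MUL (bst σ true l [] X2 Y 0) (Cm * (M + N)) (bst σ true l P2 X2 Y 1) ∨
      (σ.a * N ≤ TA N ∧
        W.Does MUL (bst σ true l [] X2 Y 0) (Cm * (σ.a * N + N)) (bst σ true l [] X2 Y 0)) := by
    have := hM (bst σ true l [] X2 Y 0) X2 Y rfl rfl rfl rfl (by omega) (by omega)
    rw [LX2, eT, ← hP2] at this
    rw [hMdef]
    exact this
  have eRHS : (31 * ops.C + 2 * Cm + 2) * (M + N)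
      = 31 * (ops.C * M) + 31 * (ops.C * N) + 2 * (Cm * (M + N)) + 2 * M + 2 * N := by ring
  have eCM : ops.C * (M + N) = ops.C * M + ops.C * N := by ring
  -- after the first multiplication
  have P2' : W.Does (ops.part2 MUL) (bst σ true l P1 X1 Y 1)
      (22 * (ops.C * N) + Cm * (M + N) + ops.C * M + 1)
      (bst σ false (swapL (2 ^ σ.a) (2 ^ σ.ρ) l) [] [] [] 0) := by
    have v1 := ops.zflag_spec σ true l P1 X1 Y N hN1
    have v2 := ops.er2_spec σ true l P1 X1 Y 0 N (by omega) hN1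
    have v3 := ops.selRows_spec σ l P1 Y 0 K N LP1 hK (by omega)
    rw [← hl4] at v3
    have v4 := ops.er1_spec σ true l P1 l4 Y 0 N (by omega) hN1
    have v5 := ops.shiftB_spec σ l l4 Y 0 K N ha haρ L4 hK (by omega)
    rw [← hl5] at v5
    have v6 := ops.er2_spec σ true l l5 l4 Y 0 N (by omega) hN1
    have v7 := ops.padRows_spec σ l l5 Y 0 K N L5 hK (by omega)
    rw [← hX2] at v7
    have v8 := ops.er1_spec σ true l l5 X2 Y 0 N (by omega) hN1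
    rcases m2 with m2 | ⟨hle, m2⟩
    · have v9 := World.Does.ite_true (W := W) (c := SwapOps.flagSet) (G := ops.failPart)
        (by rw [flagSet_bst]; rfl) P3
      exact (v1.seq (v2.seq (v3.seq (v4.seq (v5.seq (v6.seq (v7.seq (v8.seq
        (m2.seq v9))))))))).mono (by omega)
    · have v9 := World.Does.ite_false (W := W) (c := SwapOps.flagSet) (F := ops.part3)
        (by rw [flagSet_bst]; rfl) (F X2 (by omega))
      have hMe : M = σ.a * N := by rw [hMdef]; exact min_eq_right hle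
      rw [← hMe] at m2 v9
      exact (v1.seq (v2.seq (v3.seq (v4.seq (v5.seq (v6.seq (v7.seq (v8.seq
        (m2.seq v9))))))))).mono (by omega)
  -- the first part
  have t1 := ops.setup_spec σ l [] [] [] 0 N haρ hwN
  have t2 := ops.rotF_spec σ l [] [] 0 K N hl hK hlN
  rw [← hl1] at t2
  have t3 := ops.pad_spec σ l l1 [] 0 (K * (2 ^ σ.a * 2 ^ σ.a)) N (by rw [L1, eR]) hR1
    (by rw [← eR]; omega)
  rw [← hl2] at t3
  have t4 := ops.er1_spec σ true l l1 l2 [] 0 N (by omega) hN1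
  have t5 := ops.shiftCH_spec σ l l2 [] 0 K N ha haρ L2 hK (by omega)
  rw [← hl3] at t5
  have t6 := ops.er2_spec σ true l l3 l2 [] 0 N (by omega) hN1
  have t7 := ops.padRows_spec σ l l3 [] 0 K N L3 hK (by omega)
  rw [← hX1] at t7
  have t8 := ops.er1_spec σ true l l3 X1 [] 0 N (by omega) hN1
  have t9 := ops.kernel_spec σ l [] X1 0 K N ha haρ LX1 hK (by omega)
  rw [← hY] at t9
  rcases m1 with m1 | ⟨hle, m1⟩
  · have t10 := World.Does.ite_true (W := W) (c := SwapOps.flagSet) (G := ops.failPart)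
      (by rw [flagSet_bst]; rfl) P2'
    exact (t1.seq (t2.seq (t3.seq (t4.seq (t5.seq (t6.seq (t7.seq (t8.seq (t9.seq
      (m1.seq t10)))))))))).mono (by omega)
  · have t10 := World.Does.ite_false (W := W) (c := SwapOps.flagSet) (F := ops.part2 MUL)
      (by rw [flagSet_bst]; rfl) (F X1 (by omega))
    have hMe : M = σ.a * N := by rw [hMdef]; exact min_eq_right hle
    rw [← hMe] at m1 t10
    exact (t1.seq (t2.seq (t3.seq (t4.seq (t5.seq (t6.seq (t7.seq (t8.seq (t9.seq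
      (m1.seq t10)))))))))).mono (by omega)

end Vale.Agent.P338
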