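import Vale.Agent.P338.TM.SwapCore
import Vale.Agent.P338.TM.MathNat
import Vale.Agent.P338.TM.PassRot
import Vale.Agent.P338.TM.PassPad
import Vale.Agent.P338.TM.PassRows
import Vale.Agent.P338.TM.Util

/-!
TASK T14, part 2.  The passes placed on the own tapes, with specifications on `bst` states.
-/

set_option linter.unusedSimpArgs false

namespace Vale.Agent.P338
open Frag Matrix

/-- Two `bst` states agree on tape `c` as soon as the field shown on tape `c` agrees. -/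
theorem bst_vec_congr (σ : OS) (on on' : Bool) (D D' E1 E1' E2 E2' E3 E3' : List Bool) (f f' : ℕ)
    (c : Fin nOwn) (hD : c = 2 → D' = D) (h1 : c = 3 → E1' = E1) (h2 : c = 4 → E2' = E2)
    (h3 : c = 5 → E3' = E3) (hf : c = 15 → f' = f)
    (hon : (c = 9 ∨ c = 10 ∨ c = 11 ∨ c = 12 ∨ c = 13 ∨ c = 14) → on' = on) :
    (bst σ on' D' E1' E2' E3' f').vec c = (bst σ on D E1 E2 E3 f).vec c := by
  obtain ⟨c, hc⟩ := c
  interval_cases c <;> first
    | rfl
    | (rw [hD rfl]; rfl)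
    | (rw [h1 rfl]; rfl)
    | (rw [h2 rfl]; rfl)
    | (rw [h3 rfl]; rfl)
    | (rw [hf rfl]; rfl)
    | (rw [hon (Or.inl rfl)]; rfl)
    | (rw [hon (Or.inr (Or.inl rfl))]; rfl)
    | (rw [hon (Or.inr (Or.inr (Or.inl rfl)))]; rfl)
    | (rw [hon (Or.inr (Or.inr (Or.inr (Or.inl rfl))))]; rfl)
    | (rw [hon (Or.inr (Or.inr (Or.inr (Or.inr (Or.inl rfl)))))]; rfl)
    | (rw [hon (Or.inr (Or.inr (Or.inr (Or.inr (Or.inr rfl)))))]; rfl)

variable {W : World}

theorem rotF_place (σ : OS) (D E2 E3 : List Bool) (f K N : ℕ)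
    (hl : D.length = K * (2 ^ σ.a * 2 ^ σ.a * 2 ^ σ.ρ)) (hK : 1 ≤ K) (hN : D.length ≤ N) :
    W.Does (W.emb (lift ![2, 3, 9, 10, 21, 22, 23, 24, 25, 26] (rotPass false)))
      (bst σ true D [] E2 E3 f) (100 * N)
      (bst σ true D (rowRot false (2 ^ σ.a) (2 ^ σ.ρ) D) E2 E3 f) := by
  have h := runsLE_rotPass false (2 ^ σ.a) (2 ^ σ.ρ) K (Nat.two_pow_pos _) (Nat.two_pow_pos _) hK
    (D.map bit) (by rw [List.length_map]; exact hl) (isData_map_bit D)
  rw [← map_rowRot] at h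
  refine (World.Does.place (by decide) h _ _ ?_ ?_ ?_).mono ?_
  · simp [Fin.forall_fin_succ, bst, dat]
  · simp [Fin.forall_fin_succ, bst, dat]
  · intro c hc
    exact bst_vec_congr σ _ _ _ _ _ _ _ _ _ _ _ _ c (fun _ => rfl) (fun h => absurd h.symm (hc 1))
      (fun _ => rfl) (fun _ => rfl) (fun _ => rfl) (fun _ => rfl)
  · rw [List.length_map]
    omega

theorem rotT_place (σ : OS) (D E2 E3 : List Bool) (f K N : ℕ)
    (hl : E2.length = K * (2 ^ σ.a * 2 ^ σ.a * 2 ^ σ.ρ)) (hK : 1 ≤ K) (hN : E2.length ≤ N) :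
    W.Does (W.emb (lift ![4, 3, 9, 10, 21, 22, 23, 24, 25, 26] (rotPass true)))
      (bst σ true D [] E2 E3 f) (100 * N)
      (bst σ true D (rowRot true (2 ^ σ.a) (2 ^ σ.ρ) E2) E2 E3 f) := by
  have h := runsLE_rotPass true (2 ^ σ.a) (2 ^ σ.ρ) K (Nat.two_pow_pos _) (Nat.two_pow_pos _) hK
    (E2.map bit) (by rw [List.length_map]; exact hl) (isData_map_bit E2)
  rw [← map_rowRot] at h
  refine (World.Does.place (by decide) h _ _ ?_ ?_ ?_).mono ?_
  · simp [Fin.forall_fin_succ, bst, dat]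
  · simp [Fin.forall_fin_succ, bst, dat]
  · intro c hc
    exact bst_vec_congr σ _ _ _ _ _ _ _ _ _ _ _ _ c (fun _ => rfl) (fun h => absurd h.symm (hc 1))
      (fun _ => rfl) (fun _ => rfl) (fun _ => rfl) (fun _ => rfl)
  · rw [List.length_map]
    omega

theorem pad_place (σ : OS) (D E1 E3 : List Bool) (f R N : ℕ)
    (hl : E1.length = R * 2 ^ σ.ρ) (hR : 1 ≤ R) (hN : R * (12 * (4 * 2 ^ σ.ρ)) ≤ N) :
    W.Does (W.emb (lift ![3, 4, 10, 14, 21] padPass))
      (bst σ true D E1 [] E3 f) (100 * N)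
      (bst σ true D E1 (padSlots false (2 ^ σ.ρ) (12 * (4 * 2 ^ σ.ρ)) E1) E3 f) := by
  have h := runsLE_padPass (2 ^ σ.ρ) (12 * (4 * 2 ^ σ.ρ)) R (Nat.two_pow_pos _)
    (E1.map bit) (by rw [List.length_map]; exact hl) (isData_map_bit E1)
  rw [show Sym.b0 = bit false from rfl, ← map_padSlots] at h
  refine (World.Does.place (by decide) h _ _ ?_ ?_ ?_).mono ?_
  · simp [Fin.forall_fin_succ, bst, dat]
  · simp [Fin.forall_fin_succ, bst, dat]
  · intro c hc
    exact bst_vec_congr σ _ _ _ _ _ _ _ _ _ _ _ _ c (fun _ => rfl) (fun _ => rfl)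
      (fun h => absurd h.symm (hc 1)) (fun _ => rfl) (fun _ => rfl) (fun _ => rfl)
  · have hw : 0 < 2 ^ σ.ρ := Nat.two_pow_pos _
    have e1 : 9 * 2 ^ σ.ρ + 7 * (12 * (4 * 2 ^ σ.ρ) - 2 ^ σ.ρ - 4) + 18 ≤ 8 * (12 * (4 * 2 ^ σ.ρ)) := by
      omega
    have e2 := Nat.mul_le_mul_left R e1
    have e3 : R * (8 * (12 * (4 * 2 ^ σ.ρ))) = 8 * (R * (12 * (4 * 2 ^ σ.ρ))) := by ring
    have e4 : 1 ≤ R * (12 * (4 * 2 ^ σ.ρ)) := Nat.mul_pos hR (by positivity)
    omega

theorem padRows_place (σ : OS) (D E1 E3 : List Bool) (f K N : ℕ)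
    (hl : E1.length = K * (2 ^ σ.a * 2 ^ σ.a * (12 * (4 * 2 ^ σ.ρ)))) (hK : 1 ≤ K)
    (hN : 3 * E1.length ≤ N) :
    W.Does (W.emb (lift ![3, 4, 9, 13, 21, 22, 23, 24] padRowsPass))
      (bst σ true D E1 [] E3 f) (100 * N)
      (bst σ true D E1 (padRows false (2 ^ σ.a) (12 * (4 * 2 ^ σ.ρ)) E1) E3 f) := by
  have h := runsLE_padRowsPass (2 ^ σ.a) (12 * (4 * 2 ^ σ.ρ)) K (Nat.two_pow_pos _) (by positivity) hK
    (E1.map bit) (by rw [List.length_map]; exact hl) (isData_map_bit E1)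
  rw [show Sym.b0 = bit false from rfl, ← map_padRows] at h
  refine (World.Does.place (by decide) h _ _ ?_ ?_ ?_).mono ?_
  · simp [Fin.forall_fin_succ, bst, dat]
  · simp [Fin.forall_fin_succ, bst, dat]
  · intro c hc
    exact bst_vec_congr σ _ _ _ _ _ _ _ _ _ _ _ _ c (fun _ => rfl) (fun _ => rfl)
      (fun h => absurd h.symm (hc 1)) (fun _ => rfl) (fun _ => rfl) (fun _ => rfl)
  · rw [List.length_map]
    omega

theorem selRows_place (σ : OS) (D E1 E3 : List Bool) (f K N : ℕ)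
    (hl : E1.length = K * (3 * 2 ^ σ.a * 2 ^ σ.a * (12 * (4 * 2 ^ σ.ρ)))) (hK : 1 ≤ K)
    (hN : E1.length ≤ N) :
    W.Does (W.emb (lift ![3, 4, 9, 13, 21, 22, 23, 24, 25, 26] selRowsPass))
      (bst σ true D E1 [] E3 f) (100 * N)
      (bst σ true D E1 (selRows (2 ^ σ.a) (12 * (4 * 2 ^ σ.ρ)) E1) E3 f) := by
  have h := runsLE_selRowsPass (2 ^ σ.a) (12 * (4 * 2 ^ σ.ρ)) K (Nat.two_pow_pos _) (by positivity) hK
    (E1.map bit) (by rw [List.length_map]; exact hl) (isData_map_bit E1)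
  rw [← map_selRows] at h
  refine (World.Does.place (by decide) h _ _ ?_ ?_ ?_).mono ?_
  · simp [Fin.forall_fin_succ, bst, dat]
  · simp [Fin.forall_fin_succ, bst, dat]
  · intro c hc
    exact bst_vec_congr σ _ _ _ _ _ _ _ _ _ _ _ _ c (fun _ => rfl) (fun _ => rfl)
      (fun h => absurd h.symm (hc 1)) (fun _ => rfl) (fun _ => rfl) (fun _ => rfl)
  · rw [List.length_map]
    omega

theorem er1_place (σ : OS) (on : Bool) (D E1 E2 E3 : List Bool) (f N : ℕ) (hN : E1.length ≤ N)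
    (hN1 : 1 ≤ N) :
    W.Does (W.emb (lift ![3] eraseTape)) (bst σ on D E1 E2 E3 f) (100 * N)
      (bst σ on D [] E2 E3 f) := by
  have h := runsLE_eraseTape (E1.map bit) (isData_map_bit E1)
  refine (World.Does.place (by decide) h _ _ ?_ ?_ ?_).mono ?_
  · simp [Fin.forall_fin_succ, bst, dat]
  · simp [Fin.forall_fin_succ, bst, dat]
  · intro c hc
    exact bst_vec_congr σ _ _ _ _ _ _ _ _ _ _ _ _ c (fun _ => rfl) (fun h => absurd h.symm (hc 0))
      (fun _ => rfl) (fun _ => rfl) (fun _ => rfl) (fun _ => rfl)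
  · rw [List.length_map]
    omega

theorem er2_place (σ : OS) (on : Bool) (D E1 E2 E3 : List Bool) (f N : ℕ) (hN : E2.length ≤ N)
    (hN1 : 1 ≤ N) :
    W.Does (W.emb (lift ![4] eraseTape)) (bst σ on D E1 E2 E3 f) (100 * N)
      (bst σ on D E1 [] E3 f) := by
  have h := runsLE_eraseTape (E2.map bit) (isData_map_bit E2)
  refine (World.Does.place (by decide) h _ _ ?_ ?_ ?_).mono ?_
  · simp [Fin.forall_fin_succ, bst, dat]
  · simp [Fin.forall_fin_succ, bst, dat]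
  · intro c hc
    exact bst_vec_congr σ _ _ _ _ _ _ _ _ _ _ _ _ c (fun _ => rfl) (fun _ => rfl)
      (fun h => absurd h.symm (hc 0)) (fun _ => rfl) (fun _ => rfl) (fun _ => rfl)
  · rw [List.length_map]
    omega

theorem er3_place (σ : OS) (on : Bool) (D E1 E2 E3 : List Bool) (f N : ℕ) (hN : E3.length ≤ N)
    (hN1 : 1 ≤ N) :
    W.Does (W.emb (lift ![5] eraseTape)) (bst σ on D E1 E2 E3 f) (100 * N)
      (bst σ on D E1 E2 [] f) := by
  have h := runsLE_eraseTape (E3.map bit) (isData_map_bit E3)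
  refine (World.Does.place (by decide) h _ _ ?_ ?_ ?_).mono ?_
  · simp [Fin.forall_fin_succ, bst, dat]
  · simp [Fin.forall_fin_succ, bst, dat]
  · intro c hc
    exact bst_vec_congr σ _ _ _ _ _ _ _ _ _ _ _ _ c (fun _ => rfl) (fun _ => rfl) (fun _ => rfl)
      (fun h => absurd h.symm (hc 0)) (fun _ => rfl) (fun _ => rfl)
  · rw [List.length_map]
    omega

theorem erD_place (σ : OS) (on : Bool) (D E1 E2 E3 : List Bool) (f N : ℕ) (hN : D.length ≤ N)
    (hN1 : 1 ≤ N) :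
    W.Does (W.emb (lift ![2] eraseTape)) (bst σ on D E1 E2 E3 f) (12 * N)
      (bst σ on [] E1 E2 E3 f) := by
  have h := runsLE_eraseTape (D.map bit) (isData_map_bit D)
  refine (World.Does.place (by decide) h _ _ ?_ ?_ ?_).mono ?_
  · simp [Fin.forall_fin_succ, bst, dat]
  · simp [Fin.forall_fin_succ, bst, dat]
  · intro c hc
    exact bst_vec_congr σ _ _ _ _ _ _ _ _ _ _ _ _ c (fun h => absurd h.symm (hc 0)) (fun _ => rfl)
      (fun _ => rfl) (fun _ => rfl) (fun _ => rfl) (fun _ => rfl)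
  · rw [List.length_map]
    omega

theorem zflag_place (σ : OS) (on : Bool) (D E1 E2 E3 : List Bool) (N : ℕ) (hN1 : 1 ≤ N) :
    W.Does (W.emb (lift ![15] zero)) (bst σ on D E1 E2 E3 1) (100 * N)
      (bst σ on D E1 E2 E3 0) := by
  have h := runsLE_zero 1
  refine (World.Does.place (by decide) h _ _ ?_ ?_ ?_).mono ?_
  · simp [Fin.forall_fin_succ, bst, dat]
  · simp [Fin.forall_fin_succ, bst, dat]
  · intro c hc
    exact bst_vec_congr σ _ _ _ _ _ _ _ _ _ _ _ _ c (fun _ => rfl) (fun _ => rfl)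
      (fun _ => rfl) (fun _ => rfl) (fun h => absurd h.symm (hc 0)) (fun _ => rfl)
  · omega

theorem mv1D_place (σ : OS) (on : Bool) (E1 E2 E3 : List Bool) (f N : ℕ) (hN : E1.length ≤ N)
    (hN1 : 1 ≤ N) :
    W.Does (W.emb (lift ![3, 2] moveTape)) (bst σ on [] E1 E2 E3 f) (26 * N)
      (bst σ on E1 [] E2 E3 f) := by
  have h := runsLE_moveTape (E1.map bit) (isData_map_bit E1)
  refine (World.Does.place (by decide) h _ _ ?_ ?_ ?_).mono ?_
  · simp [Fin.forall_fin_succ, bst, dat]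
  · simp [Fin.forall_fin_succ, bst, dat]
  · intro c hc
    exact bst_vec_congr σ _ _ _ _ _ _ _ _ _ _ _ _ c (fun h => absurd h.symm (hc 1))
      (fun h => absurd h.symm (hc 0)) (fun _ => rfl) (fun _ => rfl) (fun _ => rfl) (fun _ => rfl)
  · rw [List.length_map]
    omega

theorem moveD_place (σ : OS) (on : Bool) (D E1 E2 E3 : List Bool) (f N : ℕ) (hD : D.length ≤ N)
    (hN : E1.length ≤ N) (hN1 : 1 ≤ N) :
    W.Does (seq (W.emb (lift ![2] eraseTape)) (W.emb (lift ![3, 2] moveTape)))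
      (bst σ on D E1 E2 E3 f) (100 * N) (bst σ on E1 [] E2 E3 f) :=
  ((erD_place σ on D E1 E2 E3 f N hD hN1).seq (mv1D_place σ on E1 E2 E3 f N hN hN1)).mono (by omega)

end Vale.Agent.P338
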