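import Vale.Agent.P338.TM.SwapPlace
import Vale.Agent.P338.TM.PassShift
import Vale.Agent.P338.TM.Setup

/-!
TASK T14, part 3.  More placements: set-up, tear-down, shifts, classical swap.
-/

set_option linter.unusedSimpArgs false

namespace Vale.Agent.P338
open Frag Matrix

variable {W : World}

theorem setup_place (σ : OS) (D E1 E2 E3 : List Bool) (f N : ℕ) (ha : σ.a ≤ σ.ρ)
    (hN : 2 ^ σ.ρ ≤ N) :
    W.Does (W.emb (lift ![7, 8, 9, 10, 11, 12, 13, 14, 21, 22, 23, 24] setupP))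
      (bst σ false D E1 E2 E3 f) (300 * N) (bst σ true D E1 E2 E3 f) := by
  have h := runsLE_setupP σ.a σ.ρ ha
  rw [← SwapLen.g_eq σ.a σ.ρ ha, show 48 * 2 ^ σ.ρ = 12 * (4 * 2 ^ σ.ρ) by ring] at h
  refine (World.Does.place (by decide) h _ _ ?_ ?_ ?_).mono ?_
  · simp [Fin.forall_fin_succ, bst, dat]
  · simp [Fin.forall_fin_succ, bst, dat]
  · intro c hc
    refine bst_vec_congr σ _ _ _ _ _ _ _ _ _ _ _ _ c (fun _ => rfl) (fun _ => rfl)
      (fun _ => rfl) (fun _ => rfl) (fun _ => rfl) ?_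
    rintro (h | h | h | h | h | h)
    · exact absurd h.symm (hc 2)
    · exact absurd h.symm (hc 3)
    · exact absurd h.symm (hc 4)
    · exact absurd h.symm (hc 5)
    · exact absurd h.symm (hc 6)
    · exact absurd h.symm (hc 7)
  · have : 0 < 2 ^ σ.ρ := Nat.two_pow_pos _
    omega

theorem teardown_place (σ : OS) (D E1 E2 E3 : List Bool) (f N : ℕ) (ha : σ.a ≤ σ.ρ)
    (hN : 2 ^ σ.ρ ≤ N) :
    W.Does (W.emb (lift ![7, 8, 9, 10, 11, 12, 13, 14, 21, 22, 23, 24] teardownP))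
      (bst σ true D E1 E2 E3 f) (300 * N) (bst σ false D E1 E2 E3 f) := by
  have h := runsLE_teardownP σ.a σ.ρ (2 ^ σ.a) (2 ^ σ.ρ) (4 * 2 ^ σ.ρ / 2 ^ σ.a) (4 * 2 ^ σ.ρ)
    (12 * (4 * 2 ^ σ.ρ)) (12 * (4 * 2 ^ σ.ρ) - 2 ^ σ.ρ - 4)
  refine (World.Does.place (by decide) h _ _ ?_ ?_ ?_).mono ?_
  · simp [Fin.forall_fin_succ, bst, dat]
  · simp [Fin.forall_fin_succ, bst, dat]
  · intro c hc
    refine bst_vec_congr σ _ _ _ _ _ _ _ _ _ _ _ _ c (fun _ => rfl) (fun _ => rfl)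
      (fun _ => rfl) (fun _ => rfl) (fun _ => rfl) ?_
    rintro (h | h | h | h | h | h)
    · exact absurd h.symm (hc 2)
    · exact absurd h.symm (hc 3)
    · exact absurd h.symm (hc 4)
    · exact absurd h.symm (hc 5)
    · exact absurd h.symm (hc 6)
    · exact absurd h.symm (hc 7)
  · have h0 : 0 < 2 ^ σ.ρ := Nat.two_pow_pos _
    have h1 : 2 ^ σ.a ≤ 2 ^ σ.ρ := Nat.pow_le_pow_right (by norm_num) ha
    have h2 : 4 * 2 ^ σ.ρ / 2 ^ σ.a ≤ 4 * 2 ^ σ.ρ := Nat.div_le_self _ _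
    omega

theorem shift_place (mode : Bool) (σ : OS) (D E2 E3 : List Bool) (f K N : ℕ) (haρ : σ.a ≤ σ.ρ)
    (hl : E2.length = K * (2 ^ σ.a * 2 ^ σ.a * (12 * (4 * 2 ^ σ.ρ)))) (hN : E2.length ≤ N)
    (hN1 : 1 ≤ N) :
    W.Does (W.emb (lift ![4, 3, 9, 21, 22, 23, 24, 25, 26, 27, 28, 11, 29, 30] (shiftPass mode)))
      (bst σ true D [] E2 E3 f) (100 * N)
      (bst σ true D (shiftSlots false (2 ^ σ.a) (4 * 2 ^ σ.ρ / 2 ^ σ.a) (12 * (4 * 2 ^ σ.ρ))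
        (if mode then epsB (2 ^ σ.a) else epsCH (2 ^ σ.a)) E2) E2 E3 f) := by
  have e : 12 * (4 * 2 ^ σ.ρ / 2 ^ σ.a) * 2 ^ σ.a = 12 * (4 * 2 ^ σ.ρ) := by
    rw [Nat.mul_assoc, SwapLen.g_mul_n σ.a σ.ρ haρ]
  have h := runsLE_shiftPass mode (2 ^ σ.a) (4 * 2 ^ σ.ρ / 2 ^ σ.a) K (Nat.two_pow_pos _)
    (SwapLen.g_pos σ.a σ.ρ haρ) (E2.map bit) (by rw [List.length_map, e]; exact hl)
    (isData_map_bit E2)
  rw [e, show Sym.b0 = bit false from rfl, ← map_shiftSlots] at h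
  refine (World.Does.place (by decide) h _ _ ?_ ?_ ?_).mono ?_
  · simp [Fin.forall_fin_succ, bst, dat]
  · simp [Fin.forall_fin_succ, bst, dat]
  · intro c hc
    exact bst_vec_congr σ _ _ _ _ _ _ _ _ _ _ _ _ c (fun _ => rfl) (fun h => absurd h.symm (hc 1))
      (fun _ => rfl) (fun _ => rfl) (fun _ => rfl) (fun _ => rfl)
  · rw [List.length_map]
    omega

theorem classic_place (σ : OS) (D : List Bool) (K N : ℕ) (ha : 1 ≤ σ.a)
    (hl : D.length = K * (2 ^ σ.a * 2 ^ σ.a * 2 ^ σ.ρ)) (hK : 1 ≤ K) (hN : D.length ≤ N) :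
    W.Does (W.emb (lift ![2, 3, 7, 8, 21, 22, 23, 24, 25, 26, 27, 28, 29] classPass))
      (bst σ false D [] [] [] 0) (100 * (σ.a * N + N))
      (bst σ false (swapL (2 ^ σ.a) (2 ^ σ.ρ) D) [] [] [] 0) := by
  have h := runsLE_classPass σ.a σ.ρ K ha hK (D.map bit) (by rw [List.length_map]; exact hl)
    (isData_map_bit D)
  rw [← map_swapL] at h
  refine (World.Does.place (by decide) h _ _ ?_ ?_ ?_).mono ?_
  · simp [Fin.forall_fin_succ, bst, dat]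
  · simp [Fin.forall_fin_succ, bst, dat]
  · intro c hc
    exact bst_vec_congr σ _ _ _ _ _ _ _ _ _ _ _ _ c (fun h => absurd h.symm (hc 0)) (fun _ => rfl)
      (fun _ => rfl) (fun _ => rfl) (fun _ => rfl) (fun _ => rfl)
  · rw [List.length_map]
    have h1 : σ.a * D.length ≤ σ.a * N := Nat.mul_le_mul_left _ hN
    omega

end Vale.Agent.P338
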