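import Vale.Agent.P338.TM.SwapPlace2
import Vale.Agent.P338.TM.PassKernel

/-!
TASK T14, part 4.  Placement of the kernel pass.
-/

set_option linter.unusedSimpArgs false

namespace Vale.Agent.P338
open Frag Matrix

variable {W : World}

theorem kernel_place (σ : OS) (D E1 E2 : List Bool) (f K N : ℕ) (ha : 1 ≤ σ.a) (haρ : σ.a ≤ σ.ρ)
    (hl : E2.length = K * (3 * 2 ^ σ.a * 2 ^ σ.a * (12 * (4 * 2 ^ σ.ρ)))) (hK : 1 ≤ K)
    (hN : E2.length ≤ N) :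
    W.Does (W.emb (lift ![4, 5, 9, 11, 21, 22, 23, 24, 25, 26, 27, 28, 29, 30] kernelPass))
      (bst σ true D E1 E2 [] f) (100 * N)
      (bst σ true D E1 E2 (kernelL false true (2 ^ σ.a) (4 * 2 ^ σ.ρ / 2 ^ σ.a)
        (12 * (4 * 2 ^ σ.ρ)) E2.length) f) := by
  have e : 12 * (4 * 2 ^ σ.ρ / 2 ^ σ.a) * 2 ^ σ.a = 12 * (4 * 2 ^ σ.ρ) := by
    rw [Nat.mul_assoc, SwapLen.g_mul_n σ.a σ.ρ haρ]
  have hn2 : 2 ≤ 2 ^ σ.a := by
    calc 2 = 2 ^ 1 := rfl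
      _ ≤ 2 ^ σ.a := Nat.pow_le_pow_right (by norm_num) ha
  have h := runsLE_kernelPass (2 ^ σ.a) (4 * 2 ^ σ.ρ / 2 ^ σ.a) K hn2
    (SwapLen.g_pos σ.a σ.ρ haρ) hK (E2.map bit) (by rw [List.length_map, e]; exact hl)
    (isData_map_bit E2)
  rw [e, show Sym.b0 = bit false from rfl, show Sym.b1 = bit true from rfl, ← map_kernelL,
    List.length_map] at h
  refine (World.Does.place (by decide) h _ _ ?_ ?_ ?_).mono ?_
  · simp [Fin.forall_fin_succ, bst, dat]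
  · simp [Fin.forall_fin_succ, bst, dat]
  · intro c hc
    exact bst_vec_congr σ _ _ _ _ _ _ _ _ _ _ _ _ c (fun _ => rfl) (fun _ => rfl) (fun _ => rfl)
      (fun h => absurd h.symm (hc 1)) (fun _ => rfl) (fun _ => rfl)
  · omega

end Vale.Agent.P338
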