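import Vale.Agent.P338.TM.Rep

/-!
Zipper description of tapes: `zt L R` is the tape holding `L ++ R` with the head on the first cell
of `R`.  All data tapes hold `Sym.org :: data`; the rest position of a tape is `zt [] (org :: data)`.
-/

namespace Vale.Agent.P338

section
variable {Γ : Type} [Inhabited Γ]

/-- The tape holding `L ++ R` (blank beyond), head on the first cell of `R`. -/
def zt (L R : List Γ) : Tape Γ := tp (L ++ R) L.length

@[simp] theorem zt_read_nil (L : List Γ) : (zt L []).read = default := by
  simp [zt]

@[simp] theorem zt_read_cons (L R : List Γ) (x : Γ) : (zt L (x :: R)).read = x := by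
  simp [zt]

@[simp] theorem zt_right_cons (L R : List Γ) (x y : Γ) :
    (zt L (x :: R)).step (y, Dir.right) = zt (L ++ [y]) R := by
  unfold zt
  rw [tp_set _ _ _ _ (by simp)]
  simp [Dir.apply]

@[simp] theorem zt_right_nil (L : List Γ) (y : Γ) :
    (zt L []).step (y, Dir.right) = zt (L ++ [y]) [] := by
  unfold zt
  have := tp_append L y Dir.right
  simpa [Dir.apply] using this

@[simp] theorem zt_stay_cons (L R : List Γ) (x y : Γ) :
    (zt L (x :: R)).step (y, Dir.stay) = zt L (y :: R) := by
  unfold zt
  rw [tp_set _ _ _ _ (by simp)]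
  simp [Dir.apply]

@[simp] theorem zt_stay_nil (L : List Γ) (y : Γ) :
    (zt L []).step (y, Dir.stay) = zt L [y] := by
  unfold zt
  have := tp_append L y Dir.stay
  simpa [Dir.apply] using this

@[simp] theorem zt_left_cons (L R : List Γ) (c x y : Γ) :
    (zt (L ++ [c]) (x :: R)).step (y, Dir.left) = zt L (c :: y :: R) := by
  unfold zt
  rw [tp_set _ _ _ _ (by simp)]
  simp [Dir.apply]

@[simp] theorem zt_left_nil (L : List Γ) (c y : Γ) :
    (zt (L ++ [c]) []).step (y, Dir.left) = zt L [c, y] := by
  unfold zt
  have := tp_append (L ++ [c]) y Dir.left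
  simpa [Dir.apply] using this

@[simp] theorem zt_left_origin_cons (R : List Γ) (x y : Γ) :
    (zt [] (x :: R)).step (y, Dir.left) = zt [] (y :: R) := by
  unfold zt
  rw [tp_set _ _ _ _ (by simp)]
  simp [Dir.apply]

theorem zt_trailing (L R : List Γ) : zt L (R ++ [default]) = zt L R := by
  unfold zt
  rw [← List.append_assoc, tp_trailing]

@[simp] theorem zt_single_default (L : List Γ) : zt L [default] = zt L [] := zt_trailing L []

@[simp] theorem zt_pair_default (L : List Γ) (c : Γ) : zt L [c, default] = zt L [c] :=
  zt_trailing L [c]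

/-- Move left without writing. -/
theorem zt_move_left (L R : List Γ) (c : Γ) :
    (zt (L ++ [c]) R).step ((zt (L ++ [c]) R).read, Dir.left) = zt L (c :: R) := by
  cases R <;> simp

/-- Erase and move left at the right end of the tape. -/
theorem zt_erase_left (L : List Γ) (c : Γ) :
    (zt (L ++ [c]) []).step (default, Dir.left) = zt L [c] := by simp

theorem zt_erase_left' (L : List Γ) (c x : Γ) :
    (zt (L ++ [c]) [x]).step (default, Dir.left) = zt L [c] := by simp

theorem zt_map {Γ' : Type} [Inhabited Γ'] (e : Γ → Γ') (he : e default = default) (L R : List Γ) :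
    (zt L R).map e = zt (L.map e) (R.map e) := by
  unfold zt
  rw [tp_map e he]
  simp

end

theorem cnt_eq_zt_zero : cnt 0 = zt [] [Sym.org] := rfl

@[simp] theorem zt_single_blank (L : List Sym) : zt L [Sym.blank] = zt L [] := zt_single_default L

@[simp] theorem zt_pair_blank (L : List Sym) (c : Sym) : zt L [c, Sym.blank] = zt L [c] :=
  zt_pair_default L c

namespace Frag
open Matrix

/-! ### One-tape moves -/

/-- Move right. -/
def mvR : Frag Sym 1 := prim fun s => ![(s 0, Dir.right)]
/-- Move left. -/
def mvL : Frag Sym 1 := prim fun s => ![(s 0, Dir.left)]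
/-- Write `x` and move right. -/
def put (x : Sym) : Frag Sym 1 := prim fun _ => ![(x, Dir.right)]

theorem runsLE_mvR_cons (L R : List Sym) (x : Sym) :
    RunsLE mvR ![zt L (x :: R)] 1 ![zt (L ++ [x]) R] :=
  RunsLE.prim _ _ _ (by simp)

theorem runsLE_mvR_cnt (c : ℕ) : RunsLE mvR ![cnt c] 1 ![cnt (c + 1)] :=
  RunsLE.prim _ _ _ (by simp)

theorem runsLE_mvL_cnt (c : ℕ) : RunsLE mvL ![cnt c] 1 ![cnt (c - 1)] :=
  RunsLE.prim _ _ _ (by simp)

theorem runsLE_put (x : Sym) (O : List Sym) : RunsLE (put x) ![zt O []] 1 ![zt (O ++ [x]) []] :=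
  RunsLE.prim _ _ _ (by simp)

/-- Move left until the origin mark. -/
def rewind : Frag Sym 1 := loop (fun s => s 0 != Sym.org) mvL

theorem runsLE_mvL (L R : List Sym) (c : Sym) :
    RunsLE mvL ![zt (L ++ [c]) R] 1 ![zt L (c :: R)] :=
  RunsLE.prim _ _ _ (by simp only [reads_cons, cons_val_zero, acts_cons, zt_move_left]; simp)

theorem runsLE_rewind (L R : List Sym) (hL : Sym.org ∉ L) (hR : R.head? ≠ some Sym.org) :
    RunsLE rewind ![zt (Sym.org :: L) R] (2 * L.length + 3) ![zt [] (Sym.org :: (L ++ R))] := by
  have hc : ∀ (L R : List Sym), R.head? ≠ some Sym.org →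
      (reads ![zt L R] 0 != Sym.org) = true := by
    intro L R hR
    cases R with
    | nil => simp
    | cons x R => simpa using hR
  unfold rewind
  induction L using List.reverseRecOn generalizing R with
  | nil =>
    exact RunsLE.loop_true (b := 1) (b' := 1) (hc _ _ hR) (runsLE_mvL [] R Sym.org)
      (RunsLE.loop_false (by simp))
  | append_singleton L c ih =>
    have hc' : c ≠ Sym.org := fun h => hL (by simp [h])
    have h1 := ih (c :: R) (fun h => hL (by simp [h])) (by simpa using hc')
    have e : Sym.org :: (L ++ [c] ++ R) = Sym.org :: (L ++ c :: R) := by simp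
    rw [e]
    refine RunsLE.mono (RunsLE.loop_true (hc _ _ hR) (runsLE_mvL (Sym.org :: L) R c) h1) ?_
    simp
    omega

/-- Erase everything back to the origin mark (head starts at the right end). -/
def eraseBack : Frag Sym 1 := loop (fun s => s 0 != Sym.org) (prim fun _ => ![(Sym.blank, Dir.left)])

theorem runsLE_eraseBack (L : List Sym) (hL : Sym.org ∉ L) :
    RunsLE eraseBack ![zt (Sym.org :: L) []] (2 * L.length + 3) ![zt [] [Sym.org]] := by
  unfold eraseBack
  have key : ∀ (L : List Sym) (x : Sym), Sym.org ∉ L → x ≠ Sym.org →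
      RunsLE (loop (fun s => s 0 != Sym.org) (prim fun _ => ![(Sym.blank, Dir.left)]))
        ![zt (Sym.org :: L) [x]] (2 * L.length + 3) ![zt [] [Sym.org]] := by
    intro L
    induction L using List.reverseRecOn with
    | nil =>
      intro x _ hx
      refine RunsLE.loop_true (b := 1) (b' := 1) (by simpa using hx)
        (RunsLE.prim _ _ ![zt [] [Sym.org]] ?_) (RunsLE.loop_false (by simp))
      have := zt_erase_left' ([] : List Sym) Sym.org x
      simp only [List.nil_append, default_sym] at this
      simp [this]
    | append_singleton L c ih =>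
      intro x hL hx
      have hc' : c ≠ Sym.org := fun h => hL (by simp [h])
      refine RunsLE.mono (RunsLE.loop_true (by simpa using hx)
        (RunsLE.prim _ _ ![zt (Sym.org :: L) [c]] ?_) (ih c (fun h => hL (by simp [h])) hc')) ?_
      · have := zt_erase_left' (Sym.org :: L) c x
        simp only [default_sym, List.cons_append] at this
        simp [this]
      · simp; omega
  have := key L Sym.blank hL (by decide)
  simpa using this

/-- Move right to the first blank. -/
def toEnd : Frag Sym 1 := loop (fun s => s 0 != Sym.blank) mvR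

theorem runsLE_toEnd (L R : List Sym) (hR : Sym.blank ∉ R) :
    RunsLE toEnd ![zt L R] (2 * R.length + 1) ![zt (L ++ R) []] := by
  unfold toEnd
  induction R generalizing L with
  | nil => simpa using RunsLE.loop_false (by simp)
  | cons x R ih =>
    have hx : x ≠ Sym.blank := fun h => hR (by simp [h])
    have h1 := ih (L ++ [x]) (fun h => hR (by simp [h]))
    rw [List.append_assoc] at h1
    refine RunsLE.mono (RunsLE.loop_true (by simpa using hx) (runsLE_mvR_cons L R x) h1) ?_
    simp; omega

/-- Copy the scanned symbol of tape `0` to tape `1`, advance both. -/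
def copy1 : Frag Sym 2 := prim fun s => ![(s 0, Dir.right), (s 0, Dir.right)]

theorem runsLE_copy1 (L R O : List Sym) (x : Sym) :
    RunsLE copy1 ![zt L (x :: R), zt O []] 1 ![zt (L ++ [x]) R, zt (O ++ [x]) []] :=
  RunsLE.prim _ _ _ (by simp)

/-- Tapes: counter `v`, shadow, source, destination: copy `v` symbols. -/
theorem runsLE_copyN (L A R O : List Sym) :
    RunsLE (rep copy1) ![cnt A.length, cnt 0, zt L (A ++ R), zt O []] (A.length * 5 + 2)
      ![cnt A.length, cnt 0, zt (L ++ A) R, zt (O ++ A) []] := by
  have := runsLE_rep (body := copy1)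
    (fun j => ![zt (L ++ A.take j) (A.drop j ++ R), zt (O ++ A.take j) []]) A.length 1 ?_
  · simpa using this
  · intro j hj
    have h := runsLE_copy1 (L ++ A.take j) (A.drop (j + 1) ++ R) (O ++ A.take j) A[j]
    have e1 : A.drop j = A[j] :: A.drop (j + 1) := List.drop_eq_getElem_cons hj
    have e2 : A.take (j + 1) = A.take j ++ [A[j]] := by simp
    rw [e1, e2, ← List.append_assoc, ← List.append_assoc]
    exact h

/-- Tapes: counter `v`, shadow, tape: skip `v` symbols. -/
theorem runsLE_skipN (L A R : List Sym) :
    RunsLE (rep mvR) ![cnt A.length, cnt 0, zt L (A ++ R)] (A.length * 5 + 2)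
      ![cnt A.length, cnt 0, zt (L ++ A) R] := by
  have := runsLE_rep (body := mvR)
    (fun j => ![zt (L ++ A.take j) (A.drop j ++ R)]) A.length 1 ?_
  · simpa using this
  · intro j hj
    have h := runsLE_mvR_cons (L ++ A.take j) (A.drop (j + 1) ++ R) A[j]
    have e1 : A.drop j = A[j] :: A.drop (j + 1) := List.drop_eq_getElem_cons hj
    have e2 : A.take (j + 1) = A.take j ++ [A[j]] := by simp
    rw [e1, e2, ← List.append_assoc]
    exact h

/-- Tapes: counter `v`, shadow, destination: write `v` copies of `x`. -/
theorem runsLE_putN (x : Sym) (v : ℕ) (O : List Sym) :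
    RunsLE (rep (put x)) ![cnt v, cnt 0, zt O []] (v * 5 + 2)
      ![cnt v, cnt 0, zt (O ++ List.replicate v x) []] := by
  have := runsLE_rep (body := put x) (fun j => ![zt (O ++ List.replicate j x) []]) v 1 ?_
  · simpa using this
  · intro j _
    have h := runsLE_put x (O ++ List.replicate j x)
    rw [List.append_assoc, ← List.replicate_succ'] at h
    exact h

/-- Copy tape `0` to tape `1` up to the first blank. -/
def copyAll : Frag Sym 2 := loop (fun s => s 0 != Sym.blank) copy1

theorem runsLE_copyAll (L R O : List Sym) (hR : Sym.blank ∉ R) :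
    RunsLE copyAll ![zt L R, zt O []] (2 * R.length + 1) ![zt (L ++ R) [], zt (O ++ R) []] := by
  unfold copyAll
  induction R generalizing L O with
  | nil => simpa using RunsLE.loop_false (by simp)
  | cons x R ih =>
    have hx : x ≠ Sym.blank := fun h => hR (by simp [h])
    have h1 := ih (L ++ [x]) (O ++ [x]) (fun h => hR (by simp [h]))
    rw [List.append_assoc, List.append_assoc] at h1
    refine RunsLE.mono (RunsLE.loop_true (by simpa using hx) (runsLE_copy1 L R O x) h1) ?_
    simp; omega

/-- Head of tape `0` on the last symbol: copy to tape `1` while moving left, up to the origin. -/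
def copyRev : Frag Sym 2 :=
  loop (fun s => s 0 != Sym.org) (prim fun s => ![(s 0, Dir.left), (s 0, Dir.right)])

theorem runsLE_copyRev (L R O : List Sym) (c : Sym) (hL : Sym.org ∉ L) (hc : c ≠ Sym.org) :
    RunsLE copyRev ![zt (Sym.org :: L) (c :: R), zt O []] (2 * L.length + 3)
      ![zt [] (Sym.org :: (L ++ c :: R)), zt (O ++ c :: L.reverse) []] := by
  unfold copyRev
  induction L using List.reverseRecOn generalizing R O c with
  | nil =>
    refine RunsLE.loop_true (b := 1) (b' := 1) (by simpa using hc)
      (RunsLE.prim _ _ ![zt [] (Sym.org :: c :: R), zt (O ++ [c]) []] ?_)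
      (RunsLE.loop_false (by simp))
    have := zt_left_cons ([] : List Sym) R Sym.org c c
    simp only [List.nil_append] at this
    simp [this]
  | append_singleton L d ih =>
    have hd : d ≠ Sym.org := fun h => hL (by simp [h])
    have h1 := ih (c :: R) (O ++ [c]) d (fun h => hL (by simp [h])) hd
    have e : Sym.org :: (L ++ [d] ++ c :: R) = Sym.org :: (L ++ d :: c :: R) := by simp
    have e2 : O ++ c :: (L ++ [d]).reverse = O ++ [c] ++ d :: L.reverse := by simp
    rw [e, e2]
    refine RunsLE.mono (RunsLE.loop_true (by simpa using hc)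
      (RunsLE.prim _ _ ![zt (Sym.org :: L) (d :: c :: R), zt (O ++ [c]) []] ?_) h1) ?_
    · have := zt_left_cons (Sym.org :: L) R d c c
      simp only [List.cons_append] at this
      simp [this]
    · simp; omega

/-! ### Counters -/

/-- Set a counter to zero. -/
def zero : Frag Sym 1 := loop (fun s => s 0 != Sym.org) mvL

theorem runsLE_zero (c : ℕ) : RunsLE zero ![cnt c] (2 * c + 1) ![cnt 0] := by
  unfold zero
  induction c with
  | zero => exact RunsLE.loop_false (by simp)
  | succ c ih =>
    refine RunsLE.mono (RunsLE.loop_true (by simp) (runsLE_mvL_cnt (c + 1)) ih) ?_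
    omega

/-- Tapes `x y`: `y += x`, `x := 0`. -/
def moveCnt : Frag Sym 2 :=
  loop (fun s => s 0 != Sym.org) (prim fun s => ![(s 0, Dir.left), (s 1, Dir.right)])

theorem runsLE_moveCnt (x y : ℕ) : RunsLE moveCnt ![cnt x, cnt y] (2 * x + 1) ![cnt 0, cnt (y + x)] := by
  unfold moveCnt
  induction x generalizing y with
  | zero => exact RunsLE.loop_false (by simp)
  | succ x ih =>
    have h1 := ih (y + 1)
    have e : y + 1 + x = y + (x + 1) := by omega
    rw [e] at h1
    refine RunsLE.mono (RunsLE.loop_true (by simp)
      (RunsLE.prim _ _ ![cnt x, cnt (y + 1)] ?_) h1) ?_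
    · simp only [reads_cons, cons_val_zero, cons_val_one, acts_cons, cnt_left, cnt_right]
      simp
    · omega

/-- Increase a counter by `c` (a constant of the program). -/
def incBy : ℕ → Frag Sym 1
  | 0 => prim noop
  | c + 1 => seq mvR (incBy c)

theorem runsLE_incBy (c x : ℕ) : RunsLE (incBy c) ![cnt x] (c + 1) ![cnt (x + c)] := by
  induction c generalizing x with
  | zero => exact RunsLE.prim _ _ _ (acts_noop _)
  | succ c ih =>
    have h := (runsLE_mvR_cnt x).seq (ih (x + 1))
    have e : x + 1 + c = x + (c + 1) := by omega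
    rw [e] at h
    exact RunsLE.mono h (by omega)

/-- Tapes `x, shadow, y`: `y += c * x` (`c` a constant of the program). -/
theorem runsLE_addMul (c x y : ℕ) :
    RunsLE (rep (incBy c)) ![cnt x, cnt 0, cnt y] (x * (c + 5) + 2) ![cnt x, cnt 0, cnt (y + c * x)] := by
  have := runsLE_rep (body := incBy c) (fun j => ![cnt (y + c * j)]) x (c + 1) ?_
  · simpa using this
  · intro j _
    have h := runsLE_incBy c (y + c * j)
    have e : y + c * j + c = y + c * (j + 1) := by ring
    rw [e] at h
    exact h

end Frag
end Vale.Agent.P338
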